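import Claimed.Agent.R285.Base.Geom

/-!
# ROW 285, layer Sec ([S]s2-3: finite comparisons in graph form, sector theorem): DEFINITIONS      (owner helper144)      no sorry in this file.
K1 verdicts, route, imports: header of `Read/S23.lean`.  Proof files of the layer import THIS file (never `Read/S23.lean`).
Namespace `Claimed.Agent.R285.S23` (definitions), `Claimed.Agent.R285.Sec` (leaf theorems).
-/

set_option autoImplicit false

namespace Claimed.Agent.R285.S23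

open Filter Topology
open scoped Classical

noncomputable section

/-! ## A. Graph form of the finite comparisons -/

section Finite

variable {D : Finset (ℤ × ℤ)} {cut : Set Bond}

/-- the same law (constraint lattice, observation rows) read on the graph with other bonds removed (same vertex set) -/
def recut (H : HLaw (domG D cut)) (cut' : Set Bond) : HLaw (domG D cut') :=
  @HLaw.mk (domG D cut') H.Λ H.O H.fO H.B

/-- affine datum from functions on `ℤ²` and on bonds: prescribed data `x`, connection `τ`, centres `c` -/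
def affOf (H : HLaw (domG D cut)) (x : ℤ × ℤ → ℤ) (τ : Bond → ℤ) (c : H.O → ℝ) : H.Aff :=
  ⟨domFn x, domFnE τ, c⟩

end Finite

/-- shifted numerator with a real tilt `t` on the AFFINE bond increments, over the centred sum:
`∑_z W(z+α) exp(∑_e t_e (z_e+α_e)) / ∑_z W(z)` (integer units: `t_e` multiplies `(∇_e h + τ_e) ∈ ℤ`). -/
def tiltRatio {G : HGraph} (H : HLaw G) (b : ℝ) (α : H.Aff) (t : G.E → ℝ) : ℝ :=
  (H.sys b).Zf (α.amb b)
    (fun z => Real.exp (∑ e : G.E, t e * ((((z : (H.sys b).Amb) + α.amb b).1 e : ℤ) : ℝ))) / (H.sys b).w 0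

/-- the statistic `z ↦ ∑_e t_e z_e` on the image lattice of a law -/
def flowX {G : HGraph} (H : HLaw G) (b : ℝ) (t : G.E → ℝ) : (H.sys b).L →+ ℝ where
  toFun z := ∑ e : G.E, t e * ((((z : (H.sys b).Amb)).1 e : ℤ) : ℝ)
  map_zero' := by
    apply Finset.sum_eq_zero
    intro e _
    have h0 : ((((0 : (H.sys b).L) : (H.sys b).Amb)).1 e : ℤ) = 0 := rfl
    rw [h0]; simp
  map_add' z z' := by
    rw [← Finset.sum_add_distrib]
    apply Finset.sum_congr rfl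
    intro e _
    have h0 : ((((z + z' : (H.sys b).L) : (H.sys b).Amb)).1 e : ℤ)
        = ((z : (H.sys b).Amb)).1 e + ((z' : (H.sys b).Amb)).1 e := rfl
    rw [h0]; push_cast; ring

/-- the free law on `domG D cut` (no pin, no observation; one constant per component is released by the image form) -/
def freeLaw (D : Finset (ℤ × ℤ)) (cut : Set Bond) : HLaw (domG D cut) := HLaw.plain (domG D cut) ∅

/-- the bare sector ratio `F_G^s = Z_G^τ / Z_G^0` -/
def secRatio (b : ℝ) (D : Finset (ℤ × ℤ)) (cut : Set Bond) (τ : Bond → ℤ) : ℝ :=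
  (freeLaw D cut).ratioL b ⟨0, domFnE τ, fun o => o.elim⟩

/-- its discrete Gaussian reference `min_v a⁻¹ ∑_e (∇_e v + 2π τ_e)²` -/
def secEn (a : ℝ) (D : Finset (ℤ × ℤ)) (cut : Set Bond) (τ : Bond → ℤ) : ℝ :=
  (freeLaw D cut).gEn a (fun e => 2 * Real.pi * ((domFnE τ e : ℤ) : ℝ)) fun o => o.elim

/-! ## B. Laws of a geometry with rows; strings; the defect of the sector theorem -/

/-- a coarse cell -/
abbrev Cell (m₁ m₂ : ℕ) : Type := Fin m₁ × Fin m₂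

/-- a coarse face: `(κ,true)` between `κ` and its right neighbour, `(κ,false)` between `κ` and its upper neighbour -/
abbrev CFace (m₁ m₂ : ℕ) : Type := (Fin m₁ × Fin m₂) × Bool

/-- the height law of the geometry `Γ` (cells, cuts, hard pins; the boxes of `Γ` are ignored) with observation rows `∑_κ row o κ · (average over the cell κ)`.  Definitionally equal to `C3.lawR`. -/
def rlaw {m₁ m₂ : ℕ} (Γ : CGeom m₁ m₂) (g : DGrid m₁ m₂) {N : ℕ} (row : Fin N → Cell m₁ m₂ → ℝ) : HLaw (Γ.graph g) where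
  Λ := HLaw.pinned (Γ.sites g Γ.pin)
  O := Fin N
  B o v := ∑ κ, row o κ * Γ.avgRow g {κ} v

/-- no rows -/
def noRow {m₁ m₂ : ℕ} : Fin 0 → Cell m₁ m₂ → ℝ := Fin.elim0

/-- ONE UNIT OBSERVATION ON EVERY CELL of the array ([S]s3.2: `𝒯_d = a⁻¹∫|∇u|² + ∑_Q u_Q²`) -/
def cellRow {m₁ m₂ : ℕ} : Fin (m₁ * m₂) → Cell m₁ m₂ → ℝ := fun o κ => if κ = finProdFinEquiv.symm o then 1 else 0

/-- a straight string of coarse faces carrying the integral charge `chg`.
`hor = true`: the faces between the rows `pos` and `pos+1`, over the columns `lo ≤ i < hi` (crossed by vertical bonds);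
`hor = false`: the faces between the columns `pos` and `pos+1`, over the rows `lo ≤ j < hi`. -/
structure Ray where
  hor : Bool
  pos : ℕ
  lo : ℕ
  hi : ℕ
  chg : ℤ

namespace Ray

variable {m₁ m₂ : ℕ} (ρ : Ray)

/-- the coarse faces of the string -/
def faces : Finset (CFace m₁ m₂) :=
  Finset.univ.filter fun f =>
    if ρ.hor then f.2 = false ∧ f.1.2.1 = ρ.pos ∧ ρ.lo ≤ f.1.1.1 ∧ f.1.1.1 < ρ.hi
    else f.2 = true ∧ f.1.1.1 = ρ.pos ∧ ρ.lo ≤ f.1.2.1 ∧ f.1.2.1 < ρ.hi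

/-- the corridor: the two lines of cells along the string -/
def corr : Finset (Cell m₁ m₂) :=
  Finset.univ.filter fun κ =>
    if ρ.hor then (κ.2.1 = ρ.pos ∨ κ.2.1 = ρ.pos + 1) ∧ ρ.lo ≤ κ.1.1 ∧ κ.1.1 < ρ.hi
    else (κ.1.1 = ρ.pos ∨ κ.1.1 = ρ.pos + 1) ∧ ρ.lo ≤ κ.2.1 ∧ κ.2.1 < ρ.hi

/-- the cell with coordinate `i` along the string and `j` across belongs to `T` -/
def has (T : Finset (Cell m₁ m₂)) (i j : ℕ) : Prop :=
  ∃ κ ∈ T, if ρ.hor then κ.1.1 = i ∧ κ.2.1 = j else κ.1.1 = j ∧ κ.2.1 = i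

/-- the string runs from wall to wall: its corridor lies in `T`, is not pinned, and at both ends BOTH cells behind the corridor are absent
(the string meets the two walls in the interior of a straight side: "transverse exits"). -/
def Ok (Γ : CGeom m₁ m₂) : Prop :=
  ρ.lo < ρ.hi ∧
  (∀ i, ρ.lo ≤ i → i < ρ.hi → ρ.has Γ.T i ρ.pos ∧ ρ.has Γ.T i (ρ.pos + 1)) ∧
  (∀ i, i + 1 = ρ.lo ∨ i = ρ.hi → ¬ ρ.has Γ.T i ρ.pos ∧ ¬ ρ.has Γ.T i (ρ.pos + 1)) ∧
  Disjoint (ρ.corr : Finset (Cell m₁ m₂)) Γ.pin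

end Ray

/-- a system of strings: all are wall-to-wall and the corridors are pairwise disjoint -/
def RaysOk {m₁ m₂ r : ℕ} (Γ : CGeom m₁ m₂) (R : Fin r → Ray) : Prop :=
  (∀ i, (R i).Ok Γ) ∧ ∀ i j, i ≠ j → Disjoint ((R i).corr : Finset (Cell m₁ m₂)) (R j).corr

/-- the bonds crossing a set of coarse faces -/
def crossB {m₁ m₂ : ℕ} (g : DGrid m₁ m₂) (F : Finset (CFace m₁ m₂)) : Set Bond :=
  {e | ∃ f ∈ F, e.2 = f.2 ∧ e.1 ∈ g.cell f.1 ∧ e.snd ∉ g.cell f.1}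

/-- the connection of a system of strings as a function on the bonds of `ℤ²` -/
def connB {m₁ m₂ r : ℕ} (g : DGrid m₁ m₂) (R : Fin r → Ray) : Bond → ℤ :=
  fun e => ∑ i, if e ∈ crossB g ((R i).faces : Finset (CFace m₁ m₂)) then (R i).chg else 0

/-- the integral connection of a system of strings on the lattice graph -/
def conn {m₁ m₂ r : ℕ} (Γ : CGeom m₁ m₂) (g : DGrid m₁ m₂) (R : Fin r → Ray) : (Γ.graph g).E → ℤ :=
  domFnE (D := g.region Γ.T) (cut := Γ.cutB g) (connB g R)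

/-- the same connection in physical units -/
def connR {m₁ m₂ r : ℕ} (Γ : CGeom m₁ m₂) (g : DGrid m₁ m₂) (R : Fin r → Ray) : (Γ.graph g).E → ℝ :=
  fun e => 2 * Real.pi * ((conn Γ g R e : ℤ) : ℝ)

/-- the defect `-2 log (Z^τ/Z^0) - min_v a⁻¹ ∑ (∇v + 2πτ)²` of the sector theorem (law of `Γ`: cells, cuts, hard pins; no observation) -/
def secDefect {m₁ m₂ r : ℕ} (b : ℝ) (Γ : CGeom m₁ m₂) (g : DGrid m₁ m₂) (R : Fin r → Ray) : ℝ :=
  -2 * Real.log ((rlaw Γ g noRow).ratioL b ⟨0, conn Γ g R, 0⟩) - (rlaw Γ g noRow).gEn (aLim b) (connR Γ g R) 0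

/-- a grid at scale `ν` with aspect bound `K` -/
def Scale {m₁ m₂ : ℕ} (K : ℕ) (g : DGrid m₁ m₂) (ν : ℕ) : Prop := g.SideGe ν ∧ g.SideLe (K * ν)

/-! ## C1. Refinement of arrays ("d ↓ 0 through aligned dyadic values") -/

section Refine

variable {m₁ m₂ : ℕ}

/-- the coarse cell containing a cell of the `s`-fold refined array -/
def coarse (s : ℕ) (κ : Cell (s * m₁) (s * m₂)) : Cell m₁ m₂ :=
  (⟨κ.1.1 / s, Nat.div_lt_of_lt_mul κ.1.2⟩, ⟨κ.2.1 / s, Nat.div_lt_of_lt_mul κ.2.2⟩)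

/-- a union of coarse cells in the refined array -/
def fine (s : ℕ) (A : Finset (Cell m₁ m₂)) : Finset (Cell (s * m₁) (s * m₂)) :=
  Finset.univ.filter fun κ => coarse s κ ∈ A

/-- a union of coarse faces in the refined array -/
def fineF (s : ℕ) (F : Finset (CFace m₁ m₂)) : Finset (CFace (s * m₁) (s * m₂)) :=
  Finset.univ.filter fun f =>
    (coarse s f.1, f.2) ∈ F ∧ (if f.2 then (f.1.1.1 + 1) % s = 0 else (f.1.2.1 + 1) % s = 0)

/-- the refined geometry (cells, cuts, pins; no boxes) -/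
def refine (s : ℕ) (Γ : CGeom m₁ m₂) : CGeom (s * m₁) (s * m₂) where
  T := fine s Γ.T
  cutF := fineF s Γ.cutF
  pin := fine s Γ.pin
  nObs := 0
  box := fun o => o.elim0
  wgt := fun o => o.elim0

/-- `g'` has the lines of `g` and `s - 1` new lines in every interval -/
def Refines (s : ℕ) (g' : DGrid (s * m₁) (s * m₂)) (g : DGrid m₁ m₂) : Prop :=
  (∀ (i : Fin (m₁ + 1)) (i' : Fin (s * m₁ + 1)), i'.1 = s * i.1 → g'.x₁ i' = g.x₁ i) ∧
  ∀ (j : Fin (m₂ + 1)) (j' : Fin (s * m₂ + 1)), j'.1 = s * j.1 → g'.x₂ j' = g.x₂ j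

/-- the flow `w` has line flux `≤ c ∑ w²` through every NEW line of the `s`-fold refined grid `g'` (bonds of the n.n. graph on `D`) -/
def GoodLines (s : ℕ) (g' : DGrid (s * m₁) (s * m₂)) (D : Finset (ℤ × ℤ)) (w : Bond → ℝ) (c : ℝ) : Prop :=
  (∀ i' : Fin (s * m₁ + 1), i'.1 % s ≠ 0 →
    ∑ e ∈ (domBonds D ∅).filter (fun e => e.2 = true ∧ e.1.1 + 1 = g'.x₁ i'), w e ^ 2 ≤ c * ∑ e ∈ domBonds D ∅, w e ^ 2) ∧
  (∀ j' : Fin (s * m₂ + 1), j'.1 % s ≠ 0 →
    ∑ e ∈ (domBonds D ∅).filter (fun e => e.2 = false ∧ e.1.2 + 1 = g'.x₂ j'), w e ^ 2 ≤ c * ∑ e ∈ domBonds D ∅, w e ^ 2)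

/-- more removed faces -/
def addCut (Γ : CGeom m₁ m₂) (S : Finset (CFace m₁ m₂)) : CGeom m₁ m₂ := { Γ with cutF := Γ.cutF ∪ S }

/-- the part of the geometry in the cells of `W` -/
def restr (Γ : CGeom m₁ m₂) (W : Finset (Cell m₁ m₂)) : CGeom m₁ m₂ := { Γ with T := Γ.T ∩ W, pin := Γ.pin ∩ W }

/-- restriction of a function on `ℤ²` to the sites of a geometry -/
def onV (Γ : CGeom m₁ m₂) (g : DGrid m₁ m₂) {α : Type} (u : ℤ × ℤ → α) : (Γ.graph g).V → α :=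
  domFn (D := g.region Γ.T) (cut := Γ.cutB g) u

/-- restriction of a function on bonds to the bonds of a geometry -/
def onE (Γ : CGeom m₁ m₂) (g : DGrid m₁ m₂) {α : Type} (τ : Bond → α) : (Γ.graph g).E → α :=
  domFnE (D := g.region Γ.T) (cut := Γ.cutB g) τ

/-- the bonds of a geometry -/
def bonds (Γ : CGeom m₁ m₂) (g : DGrid m₁ m₂) : Finset Bond := domBonds (g.region Γ.T) (Γ.cutB g)

/-- the shifted-to-centred ratio of a geometry with rows `row`, connection `τ` (on bonds of `ℤ²`) and observation centres `B v`, `v` a real function on `ℤ²`: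
numerator penalty `½ ∑_o ((B 2π h)_o - (B v)_o)²`.  For `cellRow` this is `R^s_{n,d}(v)` of [S]s3.3; for `noRow` the bare (pinned) sector ratio. -/
def confRatio (b : ℝ) (Γ : CGeom m₁ m₂) (g : DGrid m₁ m₂) {N : ℕ} (row : Fin N → Cell m₁ m₂ → ℝ) (τ : Bond → ℤ) (v : ℤ × ℤ → ℝ) : ℝ :=
  (rlaw Γ g row).ratioL b ⟨0, onE Γ g τ, (rlaw Γ g row).obs (onV Γ g v)⟩

/-- its reference -/
def confEn (a : ℝ) (Γ : CGeom m₁ m₂) (g : DGrid m₁ m₂) {N : ℕ} (row : Fin N → Cell m₁ m₂ → ℝ) (τ : Bond → ℤ) (v : ℤ × ℤ → ℝ) : ℝ :=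
  (rlaw Γ g row).gEn a (fun e => 2 * Real.pi * ((onE Γ g τ e : ℤ) : ℝ)) ((rlaw Γ g row).obs (onV Γ g v))

/-- Dirichlet energy of a function on `ℤ²` over the bonds of a geometry -/
def enB (Γ : CGeom m₁ m₂) (g : DGrid m₁ m₂) (u : ℤ × ℤ → ℝ) : ℝ := ∑ e ∈ bonds Γ g, (u e.snd - u e.1) ^ 2

/-- the pin interaction of two unions of cells in the law with one unit observation per cell -/
def dCell (b : ℝ) (Γ : CGeom m₁ m₂) (g : DGrid m₁ m₂) (A A' : Finset (Cell m₁ m₂)) : ℝ :=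
  (rlaw Γ g cellRow).dPin b (Γ.sites g A) (Γ.sites g A')

end Refine

/-! ## C2. One strip restoration -/

section Strip

variable {m₁ m₂ : ℕ}

/-- `κ'` is the neighbour of `f.1` across the face `f` -/
def FaceNbr (f : CFace m₁ m₂) (κ' : Cell m₁ m₂) : Prop :=
  if f.2 then κ'.1.1 = f.1.1.1 + 1 ∧ κ'.2 = f.1.2 else κ'.1 = f.1.1 ∧ κ'.2.1 = f.1.2.1 + 1

/-- the combinatorial data of one strip restoration ([S] proof of P3.4, Figure 1): faces `S` to be restored, patch `W = I ∪ p ∪ J` with guard `p`, artificial boundary `bW`, endpoint regions `Hs`, `H'`. -/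
structure Patch (m₁ m₂ : ℕ) where
  S : Finset (CFace m₁ m₂)
  bW : Finset (CFace m₁ m₂)
  I : Finset (Cell m₁ m₂)
  p : Finset (Cell m₁ m₂)
  J : Finset (Cell m₁ m₂)
  Hs : Finset (Cell m₁ m₂)
  H' : Finset (Cell m₁ m₂)

/-- the patch -/
def Patch.W (P : Patch m₁ m₂) : Finset (Cell m₁ m₂) := P.I ∪ P.p ∪ P.J

/-- the guard separates the restored faces from the artificial boundary; the artificial boundary is exactly the set of faces leaving the patch (last two clauses). -/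
def Patch.Ok (P : Patch m₁ m₂) (Γ : CGeom m₁ m₂) : Prop :=
  P.W ⊆ Γ.T ∧ Disjoint P.I P.p ∧ Disjoint P.I P.J ∧ Disjoint P.p P.J ∧ Disjoint P.W Γ.pin ∧
  P.Hs ⊆ P.I ∧ P.H' ∩ P.W ⊆ P.J ∧ P.H' ⊆ Γ.T ∧
  (∀ f ∈ P.S, ∀ κ', FaceNbr f κ' → f.1 ∈ P.Hs ∧ κ' ∈ P.Hs) ∧
  (∀ f ∈ P.bW, ∀ κ', FaceNbr f κ' → f.1 ∈ P.H' ∧ κ' ∈ P.H') ∧
  (∀ (f : CFace m₁ m₂) (κ' : Cell m₁ m₂), FaceNbr f κ' → f ∉ Γ.cutF → f.1 ∈ Γ.T → κ' ∈ Γ.T →
    (f.1 ∈ P.I → κ' ∈ P.I ∪ P.p) ∧ (κ' ∈ P.I → f.1 ∈ P.I ∪ P.p) ∧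
    ((f.1 ∈ P.W ∧ κ' ∉ P.W) ∨ (f.1 ∉ P.W ∧ κ' ∈ P.W) → f ∈ P.bW)) ∧
  (∀ f ∈ P.bW, ∀ κ', FaceNbr f κ' → ¬ (f.1 ∈ P.W ∧ κ' ∈ P.W))

/-- partition sum (image form) of the law with one unit observation per cell: connection `τ`, centres `B v` -/
def zT (b : ℝ) (Γ : CGeom m₁ m₂) (g : DGrid m₁ m₂) (τ : Bond → ℤ) (v : ℤ × ℤ → ℝ) : ℝ :=
  ((rlaw Γ g cellRow).sys b).w
    (HLaw.Aff.amb (H := rlaw Γ g cellRow) ⟨0, onE Γ g τ, (rlaw Γ g cellRow).obs (onV Γ g v)⟩ b)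

/-- the same with prescribed ABSOLUTE data `u` on the sites of the cells `p` (`Z_G^s(u)` of [S]s2.1) -/
def zG (b : ℝ) (Γ : CGeom m₁ m₂) (g : DGrid m₁ m₂) (p : Finset (Cell m₁ m₂)) (τ : Bond → ℤ) (v : ℤ × ℤ → ℝ) (u : ℤ × ℤ → ℤ) : ℝ :=
  (((rlaw Γ g cellRow).addPin (Γ.sites g p)).sys b).w
    (HLaw.Aff.amb (H := (rlaw Γ g cellRow).addPin (Γ.sites g p)) ⟨onV Γ g u, onE Γ g τ, (rlaw Γ g cellRow).obs (onV Γ g v)⟩ b)

/-- guard data: integer functions supported on the sites of `p` -/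
def Dat (g : DGrid m₁ m₂) (p : Finset (Cell m₁ m₂)) : Type := {u : ℤ × ℤ → ℤ // ∀ x, x ∉ g.region p → u x = 0}

/-- a patch in a refined array -/
def Patch.fine (s : ℕ) (P : Patch m₁ m₂) : Patch (s * m₁) (s * m₂) where
  S := fineF s P.S
  bW := fineF s P.bW
  I := S23.fine s P.I
  p := S23.fine s P.p
  J := S23.fine s P.J
  Hs := S23.fine s P.Hs
  H' := S23.fine s P.H'

end Strip

/-! ## C4-C5. Boundary layers, separation      (regularity of cut geometries = `CGeom.NoDiag` v2: every cut isolates, every component is a Lipschitz polygon) -/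

/-- `x` lies in the boundary layer of its cell -/
def NearLine {m₁ m₂ : ℕ} (g : DGrid m₁ m₂) (x : ℤ × ℤ) : Prop :=
  ∃ κ : Cell m₁ m₂, x ∈ g.cell κ ∧
    (x.1 = g.x₁ κ.1.castSucc ∨ x.1 + 1 = g.x₁ κ.1.succ ∨ x.2 = g.x₂ κ.2.castSucc ∨ x.2 + 1 = g.x₂ κ.2.succ)

/-- two sets of cells are separated by at least one full line of cells -/
def CSep {m₁ m₂ : ℕ} (A A' : Finset (Cell m₁ m₂)) : Prop :=
  ∀ κ ∈ A, ∀ κ' ∈ A', κ.1.1 + 1 < κ'.1.1 ∨ κ'.1.1 + 1 < κ.1.1 ∨ κ.2.1 + 1 < κ'.2.1 ∨ κ'.2.1 + 1 < κ.2.1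

/-! ## C6. The explicit rectangles of a string (refinement 16; distances `δ = 0,1,..,15` from the string, counted in cells of the 16-fold refined array, on both sides)
strip `δ < 2`, restored faces `S` between `δ = 1` and `δ = 2`, `Hs = {1 ≤ δ < 3}`, `I = {δ < 4}`, guard `p = {δ = 4}`, `J = {5 ≤ δ < 7}`, artificial boundary `bW` between `δ = 6` and `δ = 7`, `H' = {6 ≤ δ < 8}`. -/

section Rect

variable {m₁ m₂ : ℕ}

/-- the cells at distance `α ≤ δ < β` from the string -/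
def Ray.band (ρ : Ray) (α β : ℕ) : Finset (Cell (16 * m₁) (16 * m₂)) :=
  Finset.univ.filter fun κ =>
    16 * ρ.lo ≤ (if ρ.hor then κ.1.1 else κ.2.1) ∧ (if ρ.hor then κ.1.1 else κ.2.1) < 16 * ρ.hi ∧
    ((16 * (ρ.pos + 1) + α ≤ (if ρ.hor then κ.2.1 else κ.1.1) ∧ (if ρ.hor then κ.2.1 else κ.1.1) < 16 * (ρ.pos + 1) + β) ∨
     ((if ρ.hor then κ.2.1 else κ.1.1) + α < 16 * (ρ.pos + 1) ∧ 16 * (ρ.pos + 1) ≤ (if ρ.hor then κ.2.1 else κ.1.1) + β))

/-- the part of a band on the positive side of the string -/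
def Ray.bandUp (ρ : Ray) (β : ℕ) : Finset (Cell (16 * m₁) (16 * m₂)) :=
  (ρ.band 0 β).filter fun κ => 16 * (ρ.pos + 1) ≤ (if ρ.hor then κ.2.1 else κ.1.1)

/-- the faces between the distances `d - 1` and `d`, on both sides -/
def Ray.lineF (ρ : Ray) (d : ℕ) : Finset (CFace (16 * m₁) (16 * m₂)) :=
  Finset.univ.filter fun f =>
    f.2 = !ρ.hor ∧
    16 * ρ.lo ≤ (if ρ.hor then f.1.1.1 else f.1.2.1) ∧ (if ρ.hor then f.1.1.1 else f.1.2.1) < 16 * ρ.hi ∧
    ((if ρ.hor then f.1.2.1 else f.1.1.1) + 1 = 16 * (ρ.pos + 1) + d ∨ (if ρ.hor then f.1.2.1 else f.1.1.1) + 1 + d = 16 * (ρ.pos + 1))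

/-- the patch of a string -/
def Ray.patch (ρ : Ray) : Patch (16 * m₁) (16 * m₂) where
  S := ρ.lineF 2
  bW := ρ.lineF 7
  I := ρ.band 0 4
  p := ρ.band 4 5
  J := ρ.band 5 7
  Hs := ρ.band 1 3
  H' := ρ.band 6 8

/-- the geometry (refinement 16) in which the strips of the strings `j < i` are isolated -/
def stage {r : ℕ} (Γ : CGeom m₁ m₂) (R : Fin r → Ray) (i : ℕ) : CGeom (16 * m₁) (16 * m₂) :=
  addCut (refine 16 Γ) ((Finset.univ.filter fun j : Fin r => j.1 < i).biUnion fun j => (R j).lineF 2)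

/-- the integral potential of the connection on the isolated strips (`β = 2`) or on the patches (`β = 7`) -/
def liftPot {r : ℕ} (g' : DGrid (16 * m₁) (16 * m₂)) (R : Fin r → Ray) (β : ℕ) : ℤ × ℤ → ℤ :=
  fun x => ∑ j, if x ∈ g'.region ((R j).bandUp β) then (R j).chg else 0

end Rect

end

end Claimed.Agent.R285.S23
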