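import Claimed.Agent.R285.Sec.Fin

/-!
# ROW 285, layer Sec, leaf file Grid: refinement of arrays and grids, choice of the new grid lines by pigeonhole.      Paper-free, combinatorial.
PLAN for `line_pigeonhole` (route R3 of Read/S23).  In an interval `[x, x+L)` between two old lines, `ν ≤ L ≤ K ν`, the `j`-th new line (`1 ≤ j < s`) may take every integer position `t` with `|t - x - j L / s| ≤ L / (4 s)`: at least `L/(2s) - 1 ≥ ν/(4s)`
positions if `ν ≥ 8 s`.  The sets of bonds crossing the different positions are disjoint, so the minimum over `t` of `∑_{e crosses t} w_e²` is at most `(4 s/ν) ∑_e w_e²` (`Finset.exists_le_of_sum_le` or `Finset.exists_min_image`).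
All new cell sides lie in `[L/(2s), 3L/(2s)]`.  The choices for different lines are independent.
-/

set_option autoImplicit false

namespace Claimed.Agent.R285.Sec

open Filter Topology S23
open scoped Classical

noncomputable section

variable {m₁ m₂ : ℕ}

/-! ### one-dimensional tools -/

/-- location of a point between the lines `a` and `b`. -/
theorem sec_gr_find {n : ℕ} (y : Fin (n + 1) → ℤ) (t : ℤ) (a : ℕ) : ∀ (b : ℕ) (ha : a < n + 1) (hb : b < n + 1),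
    y ⟨a, ha⟩ ≤ t → t < y ⟨b, hb⟩ → a ≤ b → ∃ i : Fin n, a ≤ i.1 ∧ i.1 < b ∧ y i.castSucc ≤ t ∧ t < y i.succ := by
  intro b
  induction b with
  | zero =>
    intro ha hb h1 h2 hab
    obtain rfl : a = 0 := by omega
    exact absurd h2 (not_lt.2 h1)
  | succ b ih =>
    intro ha hb h1 h2 hab
    rcases Nat.lt_or_ge a (b + 1) with h | h
    · by_cases hc : t < y ⟨b, by omega⟩
      · obtain ⟨i, h3, h4, h5⟩ := ih ha (by omega) h1 hc (by omega)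
        exact ⟨i, h3, by omega, h5⟩
      · exact ⟨⟨b, by omega⟩, by simpa using Nat.lt_succ_iff.1 h, by simp, not_lt.1 hc, h2⟩
    · obtain rfl : a = b + 1 := by omega
      exact absurd h2 (not_lt.2 h1)

section oneD

variable {s m : ℕ} {y : Fin (s * m + 1) → ℤ} {x : Fin (m + 1) → ℤ}

/-- a fine interval lies in its coarse interval. -/
theorem sec_gr_1d_sub (hy : StrictMono y) (hyx : ∀ (i : Fin (m + 1)) (i' : Fin (s * m + 1)), i'.1 = s * i.1 → y i' = x i)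
    (i' : Fin (s * m)) (hq : i'.1 / s < m) :
    x (⟨i'.1 / s, hq⟩ : Fin m).castSucc ≤ y i'.castSucc ∧ y i'.succ ≤ x (⟨i'.1 / s, hq⟩ : Fin m).succ := by
  have hs : 0 < s := by
    rcases Nat.eq_zero_or_pos s with rfl | h
    · exact absurd i'.2 (by simp)
    · exact h
  have h1 : s * (i'.1 / s) ≤ i'.1 := Nat.mul_div_le _ _
  have h2 : i'.1 < s * (i'.1 / s + 1) := by
    have := Nat.lt_mul_div_succ i'.1 hs
    simpa using this
  have h3 : s * (i'.1 / s + 1) ≤ s * m := Nat.mul_le_mul_left _ hq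
  constructor
  · rw [← hyx (⟨i'.1 / s, hq⟩ : Fin m).castSucc ⟨s * (i'.1 / s), by omega⟩ rfl]
    exact hy.monotone (Fin.le_def.2 h1)
  · rw [← hyx (⟨i'.1 / s, hq⟩ : Fin m).succ ⟨s * (i'.1 / s + 1), by omega⟩ rfl]
    exact hy.monotone (Fin.le_def.2 (by simpa using h2))

/-- a point of a coarse interval lies in one of its fine intervals. -/
theorem sec_gr_1d_find (hyx : ∀ (i : Fin (m + 1)) (i' : Fin (s * m + 1)), i'.1 = s * i.1 → y i' = x i)
    (q : Fin m) (t : ℤ) (h1 : x q.castSucc ≤ t) (h2 : t < x q.succ) :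
    ∃ i' : Fin (s * m), i'.1 / s = q.1 ∧ y i'.castSucc ≤ t ∧ t < y i'.succ := by
  have h3 : s * (q.1 + 1) ≤ s * m := Nat.mul_le_mul_left _ q.2
  have h4 : s * q.1 ≤ s * (q.1 + 1) := Nat.mul_le_mul_left _ (by omega)
  obtain ⟨i, a1, a2, a3, a4⟩ := sec_gr_find y t (s * q.1) (s * (q.1 + 1)) (by omega) (by omega)
    (by rw [hyx q.castSucc ⟨s * q.1, by omega⟩ rfl]; exact h1)
    (by rw [hyx q.succ ⟨s * (q.1 + 1), by omega⟩ rfl]; exact h2) h4
  refine ⟨i, ?_, a3, a4⟩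
  exact Nat.div_eq_of_lt_le ((mul_comm _ _).trans_le a1) (a2.trans_eq (mul_comm _ _))

end oneD

theorem sec_gr_mem_cell (g : DGrid m₁ m₂) (κ : Cell m₁ m₂) (x : ℤ × ℤ) :
    x ∈ g.cell κ ↔ (g.x₁ κ.1.castSucc ≤ x.1 ∧ x.1 < g.x₁ κ.1.succ) ∧ (g.x₂ κ.2.castSucc ≤ x.2 ∧ x.2 < g.x₂ κ.2.succ) := by
  unfold DGrid.cell
  rw [Finset.mem_product, Finset.mem_Ico, Finset.mem_Ico]

theorem sec_gr_pos {s : ℕ} {g' : DGrid (s * m₁) (s * m₂)} {g : DGrid m₁ m₂} (h : Refines s g' g) (κ : Cell m₁ m₂) : 0 < s := by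
  rcases Nat.eq_zero_or_pos s with rfl | hs
  · exfalso
    have a := h.1 κ.1.castSucc ⟨0, by omega⟩ (by simp)
    have b := h.1 κ.1.succ ⟨0, by omega⟩ (by simp)
    have c := g.mono₁ (Fin.castSucc_lt_succ (i := κ.1))
    omega
  · exact hs

/-- a fine cell lies in its coarse cell. -/
theorem sec_gr_cell_sub {s : ℕ} {g' : DGrid (s * m₁) (s * m₂)} {g : DGrid m₁ m₂} (h : Refines s g' g)
    (κ' : Cell (s * m₁) (s * m₂)) {x : ℤ × ℤ} (hx : x ∈ g'.cell κ') : x ∈ g.cell (coarse s κ') := by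
  rw [sec_gr_mem_cell] at hx ⊢
  have a := sec_gr_1d_sub g'.mono₁ h.1 κ'.1 (Nat.div_lt_of_lt_mul κ'.1.2)
  have b := sec_gr_1d_sub g'.mono₂ h.2 κ'.2 (Nat.div_lt_of_lt_mul κ'.2.2)
  exact ⟨⟨a.1.trans hx.1.1, hx.1.2.trans_le a.2⟩, ⟨b.1.trans hx.2.1, hx.2.2.trans_le b.2⟩⟩

/-- a point of a coarse cell lies in one of its fine cells. -/
theorem sec_gr_cell_find {s : ℕ} {g' : DGrid (s * m₁) (s * m₂)} {g : DGrid m₁ m₂} (h : Refines s g' g)
    (κ : Cell m₁ m₂) {x : ℤ × ℤ} (hx : x ∈ g.cell κ) : ∃ κ' : Cell (s * m₁) (s * m₂), coarse s κ' = κ ∧ x ∈ g'.cell κ' := by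
  have hs := sec_gr_pos h κ
  rw [sec_gr_mem_cell] at hx
  obtain ⟨i, a1, a2⟩ := sec_gr_1d_find h.1 κ.1 x.1 hx.1.1 hx.1.2
  obtain ⟨j, b1, b2⟩ := sec_gr_1d_find h.2 κ.2 x.2 hx.2.1 hx.2.2
  exact ⟨(i, j), Prod.ext (Fin.ext a1) (Fin.ext b1), (sec_gr_mem_cell g' (i, j) x).2 ⟨a2, b2⟩⟩

theorem region_fine {s : ℕ} {g' : DGrid (s * m₁) (s * m₂)} {g : DGrid m₁ m₂} (h : Refines s g' g)
    (A : Finset (Cell m₁ m₂)) : g'.region (fine s A) = g.region A := by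
  ext x
  unfold DGrid.region fine
  simp only [Finset.mem_biUnion, Finset.mem_filter, Finset.mem_univ, true_and]
  constructor
  · rintro ⟨κ', h1, h2⟩
    exact ⟨_, h1, sec_gr_cell_sub h κ' h2⟩
  · rintro ⟨κ, h1, h2⟩
    obtain ⟨κ', e, h3⟩ := sec_gr_cell_find h κ h2
    exact ⟨κ', e ▸ h1, h3⟩

theorem crossB_fineF {s : ℕ} {g' : DGrid (s * m₁) (s * m₂)} {g : DGrid m₁ m₂} (h : Refines s g' g)
    (F : Finset (CFace m₁ m₂)) : crossB g' (fineF s F) = crossB g F := by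
  ext e
  unfold crossB fineF
  simp only [Set.mem_ofPred_eq, Finset.mem_filter, Finset.mem_univ, true_and]
  constructor
  · rintro ⟨f', ⟨h1, h2⟩, h3, h4, h5⟩
    refine ⟨(coarse s f'.1, f'.2), h1, h3, sec_gr_cell_sub h f'.1 h4, fun h6 => h5 ?_⟩
    have hs : 0 < s := sec_gr_pos h (coarse s f'.1)
    rw [sec_gr_mem_cell] at h4 h6 ⊢
    cases hb : f'.2 with
    | true =>
      rw [hb] at h2 h3
      simp only [if_true] at h2
      have es : e.snd = (e.1.1 + 1, e.1.2) := by unfold Bond.snd; rw [h3]; rfl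
      rw [es] at h6 ⊢
      refine ⟨⟨by have := h4.1.1; show _ ≤ e.1.1 + 1; omega, ?_⟩, h4.2⟩
      have e1 : f'.1.1.1 + 1 = s * (f'.1.1.1 / s + 1) := by
        have d := Nat.div_add_mod (f'.1.1.1 + 1) s
        rw [h2, add_zero] at d
        have d2 : (f'.1.1.1 + 1) / s = f'.1.1.1 / s + 1 := by
          rw [Nat.succ_div, if_pos (Nat.dvd_of_mod_eq_zero h2)]
        rw [← d2, d]
      have e2 := h.1 (coarse s f'.1).1.succ f'.1.1.succ (by simpa [coarse] using e1)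
      rw [e2]
      exact h6.1.2
    | false =>
      rw [hb] at h2 h3
      simp only [Bool.false_eq_true, if_false] at h2
      have es : e.snd = (e.1.1, e.1.2 + 1) := by unfold Bond.snd; rw [h3]; rfl
      rw [es] at h6 ⊢
      refine ⟨h4.1, ⟨by have := h4.2.1; show _ ≤ e.1.2 + 1; omega, ?_⟩⟩
      have e1 : f'.1.2.1 + 1 = s * (f'.1.2.1 / s + 1) := by
        have d := Nat.div_add_mod (f'.1.2.1 + 1) s
        rw [h2, add_zero] at d
        have d2 : (f'.1.2.1 + 1) / s = f'.1.2.1 / s + 1 := by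
          rw [Nat.succ_div, if_pos (Nat.dvd_of_mod_eq_zero h2)]
        rw [← d2, d]
      have e2 := h.2 (coarse s f'.1).2.succ f'.1.2.succ (by simpa [coarse] using e1)
      rw [e2]
      exact h6.2.2
  · rintro ⟨f, h1, h3, h4, h5⟩
    obtain ⟨κ', e0, h6⟩ := sec_gr_cell_find h f.1 h4
    have hs : 0 < s := sec_gr_pos h f.1
    have hsub := sec_gr_1d_sub g'.mono₁ h.1 κ'.1 (Nat.div_lt_of_lt_mul κ'.1.2)
    have hsub2 := sec_gr_1d_sub g'.mono₂ h.2 κ'.2 (Nat.div_lt_of_lt_mul κ'.2.2)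
    have c1 : (⟨κ'.1.1 / s, Nat.div_lt_of_lt_mul κ'.1.2⟩ : Fin m₁) = f.1.1 := congrArg Prod.fst e0
    have c2 : (⟨κ'.2.1 / s, Nat.div_lt_of_lt_mul κ'.2.2⟩ : Fin m₂) = f.1.2 := congrArg Prod.snd e0
    rw [c1] at hsub
    rw [c2] at hsub2
    rw [sec_gr_mem_cell] at h4 h5 h6
    cases hb : f.2 with
    | true =>
      rw [hb] at h3
      have es : e.snd = (e.1.1 + 1, e.1.2) := by unfold Bond.snd; rw [h3]; rfl
      rw [es] at h5
      have k1 : g.x₁ f.1.1.succ ≤ e.1.1 + 1 := by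
        by_contra hc
        exact h5 ⟨⟨by have := h4.1.1; show _ ≤ e.1.1 + 1; omega, not_le.1 hc⟩, h4.2⟩
      have k2 : g'.x₁ κ'.1.succ = g.x₁ f.1.1.succ := by have := h6.1.2; have := hsub.2; omega
      have hlt : s * (f.1.1.1 + 1) < s * m₁ + 1 := by
        have : s * (f.1.1.1 + 1) ≤ s * m₁ := Nat.mul_le_mul_left s f.1.1.2
        omega
      have k3 : g'.x₁ ⟨s * (f.1.1.1 + 1), hlt⟩ = g.x₁ f.1.1.succ := h.1 f.1.1.succ _ rfl
      have k4 : κ'.1.succ = ⟨s * (f.1.1.1 + 1), hlt⟩ := g'.mono₁.injective (k2.trans k3.symm)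
      have k5 : κ'.1.1 + 1 = s * (f.1.1.1 + 1) := by simpa using congrArg Fin.val k4
      refine ⟨(κ', true), ⟨by rw [e0, ← hb]; exact h1, ?_⟩, h3, (sec_gr_mem_cell _ _ _).2 h6, ?_⟩
      · simp only [if_true]
        rw [k5]
        exact Nat.mul_mod_right _ _
      · rw [es, sec_gr_mem_cell]
        rintro ⟨⟨-, h7⟩, -⟩
        have h7' : e.1.1 + 1 < g'.x₁ κ'.1.succ := h7
        omega
    | false =>
      rw [hb] at h3
      have es : e.snd = (e.1.1, e.1.2 + 1) := by unfold Bond.snd; rw [h3]; rfl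
      rw [es] at h5
      have k1 : g.x₂ f.1.2.succ ≤ e.1.2 + 1 := by
        by_contra hc
        exact h5 ⟨h4.1, ⟨by have := h4.2.1; show _ ≤ e.1.2 + 1; omega, not_le.1 hc⟩⟩
      have k2 : g'.x₂ κ'.2.succ = g.x₂ f.1.2.succ := by have := h6.2.2; have := hsub2.2; omega
      have hlt : s * (f.1.2.1 + 1) < s * m₂ + 1 := by
        have : s * (f.1.2.1 + 1) ≤ s * m₂ := Nat.mul_le_mul_left s f.1.2.2
        omega
      have k3 : g'.x₂ ⟨s * (f.1.2.1 + 1), hlt⟩ = g.x₂ f.1.2.succ := h.2 f.1.2.succ _ rfl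
      have k4 : κ'.2.succ = ⟨s * (f.1.2.1 + 1), hlt⟩ := g'.mono₂.injective (k2.trans k3.symm)
      have k5 : κ'.2.1 + 1 = s * (f.1.2.1 + 1) := by simpa using congrArg Fin.val k4
      refine ⟨(κ', false), ⟨by rw [e0, ← hb]; exact h1, ?_⟩, h3, (sec_gr_mem_cell _ _ _).2 h6, ?_⟩
      · simp only [Bool.false_eq_true, if_false]
        rw [k5]
        exact Nat.mul_mod_right _ _
      · rw [es, sec_gr_mem_cell]
        rintro ⟨-, ⟨-, h7⟩⟩
        have h7' : e.1.2 + 1 < g'.x₂ κ'.2.succ := h7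
        omega

theorem cutB_eq (Γ : CGeom m₁ m₂) (g : DGrid m₁ m₂) : Γ.cutB g = crossB g Γ.cutF := rfl

theorem fine_union (s : ℕ) (A B : Finset (Cell m₁ m₂)) : fine s (A ∪ B) = fine s A ∪ fine s B := by
  ext κ
  simp only [fine, Finset.mem_filter, Finset.mem_univ, true_and, Finset.mem_union]

theorem fine_inter (s : ℕ) (A B : Finset (Cell m₁ m₂)) : fine s (A ∩ B) = fine s A ∩ fine s B := by
  ext κ
  simp only [fine, Finset.mem_filter, Finset.mem_univ, true_and, Finset.mem_inter]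

theorem fineF_union (s : ℕ) (A B : Finset (CFace m₁ m₂)) : fineF s (A ∪ B) = fineF s A ∪ fineF s B := by
  ext f
  simp only [fineF, Finset.mem_filter, Finset.mem_univ, true_and, Finset.mem_union]
  tauto

theorem refine_addCut (s : ℕ) (Γ : CGeom m₁ m₂) (S : Finset (CFace m₁ m₂)) : refine s (addCut Γ S) = addCut (refine s Γ) (fineF s S) := by
  simp only [refine, addCut, fineF_union]

theorem refine_restr (s : ℕ) (Γ : CGeom m₁ m₂) (W : Finset (Cell m₁ m₂)) : refine s (restr Γ W) = restr (refine s Γ) (fine s W) := by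
  simp only [refine, restr, fine_inter]

/-- the bonds of a refined geometry -/
theorem bonds_refine {s : ℕ} {g' : DGrid (s * m₁) (s * m₂)} {g : DGrid m₁ m₂} (h : Refines s g' g) (Γ : CGeom m₁ m₂) :
    bonds (refine s Γ) g' = bonds Γ g := by
  unfold bonds
  rw [cutB_eq, cutB_eq]
  show domBonds (g'.region (fine s Γ.T)) (crossB g' (fineF s Γ.cutF)) = _
  rw [region_fine h, crossB_fineF h]

/-- the bare law of a geometry only depends on the sites, the cut bonds and the pinned sites. -/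
def secGrLaw (D : Finset (ℤ × ℤ)) (cut : Set Bond) (P : Set (ℤ × ℤ)) : HLaw (domG D cut) where
  Λ := HLaw.pinned (domSet P)
  O := Fin 0
  B o _ := o.elim0

theorem sec_gr_rlaw (Γ : CGeom m₁ m₂) (g : DGrid m₁ m₂) :
    rlaw Γ g noRow = secGrLaw (g.region Γ.T) (Γ.cutB g) (↑(g.region Γ.pin) : Set (ℤ × ℤ)) := by
  unfold rlaw secGrLaw
  congr 1
  funext o
  exact o.elim0

/-- the bare ratio as a function of the sites, the cut bonds and the pinned sites. -/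
def secGrCR (b : ℝ) (D : Finset (ℤ × ℤ)) (cut : Set Bond) (P : Set (ℤ × ℤ)) (τ : Bond → ℤ) (v : ℤ × ℤ → ℝ) : ℝ :=
  (secGrLaw D cut P).ratioL b ⟨0, domFnE τ, (secGrLaw D cut P).obs (domFn v)⟩

/-- the bare reference as a function of the sites, the cut bonds and the pinned sites. -/
def secGrCE (a : ℝ) (D : Finset (ℤ × ℤ)) (cut : Set Bond) (P : Set (ℤ × ℤ)) (τ : Bond → ℤ) (v : ℤ × ℤ → ℝ) : ℝ :=
  (secGrLaw D cut P).gEn a (fun e => 2 * Real.pi * ((domFnE τ e : ℤ) : ℝ)) ((secGrLaw D cut P).obs (domFn v))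

theorem sec_gr_confRatio (b : ℝ) (Γ : CGeom m₁ m₂) (g : DGrid m₁ m₂) (τ : Bond → ℤ) (v : ℤ × ℤ → ℝ) :
    confRatio b Γ g noRow τ v = secGrCR b (g.region Γ.T) (Γ.cutB g) (↑(g.region Γ.pin) : Set (ℤ × ℤ)) τ v := by
  have key : ∀ H H' : HLaw (Γ.graph g), H = H' →
      H.ratioL b ⟨0, onE Γ g τ, H.obs (onV Γ g v)⟩ = H'.ratioL b ⟨0, onE Γ g τ, H'.obs (onV Γ g v)⟩ := by
    rintro _ _ rfl
    rfl
  exact key _ _ (sec_gr_rlaw Γ g)

theorem sec_gr_confEn (a : ℝ) (Γ : CGeom m₁ m₂) (g : DGrid m₁ m₂) (τ : Bond → ℤ) (v : ℤ × ℤ → ℝ) :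
    confEn a Γ g noRow τ v = secGrCE a (g.region Γ.T) (Γ.cutB g) (↑(g.region Γ.pin) : Set (ℤ × ℤ)) τ v := by
  have key : ∀ H H' : HLaw (Γ.graph g), H = H' →
      H.gEn a (fun e => 2 * Real.pi * ((onE Γ g τ e : ℤ) : ℝ)) (H.obs (onV Γ g v))
        = H'.gEn a (fun e => 2 * Real.pi * ((onE Γ g τ e : ℤ) : ℝ)) (H'.obs (onV Γ g v)) := by
    rintro _ _ rfl
    rfl
  exact key _ _ (sec_gr_rlaw Γ g)

/-- the bare law does not see the refinement -/
theorem confRatio_refine (b : ℝ) {s : ℕ} {g' : DGrid (s * m₁) (s * m₂)} {g : DGrid m₁ m₂} (h : Refines s g' g) (Γ : CGeom m₁ m₂)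
    (τ : Bond → ℤ) (v : ℤ × ℤ → ℝ) : confRatio b (refine s Γ) g' noRow τ v = confRatio b Γ g noRow τ v := by
  rw [sec_gr_confRatio, sec_gr_confRatio, cutB_eq, cutB_eq]
  show secGrCR b (g'.region (fine s Γ.T)) (crossB g' (fineF s Γ.cutF)) (↑(g'.region (fine s Γ.pin)) : Set (ℤ × ℤ)) τ v = _
  rw [region_fine h, region_fine h, crossB_fineF h]

theorem confEn_refine (a : ℝ) {s : ℕ} {g' : DGrid (s * m₁) (s * m₂)} {g : DGrid m₁ m₂} (h : Refines s g' g) (Γ : CGeom m₁ m₂)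
    (τ : Bond → ℤ) (v : ℤ × ℤ → ℝ) : confEn a (refine s Γ) g' noRow τ v = confEn a Γ g noRow τ v := by
  rw [sec_gr_confEn, sec_gr_confEn, cutB_eq, cutB_eq]
  show secGrCE a (g'.region (fine s Γ.T)) (crossB g' (fineF s Γ.cutF)) (↑(g'.region (fine s Γ.pin)) : Set (ℤ × ℤ)) τ v = _
  rw [region_fine h, region_fine h, crossB_fineF h]

/-! ### construction of refined grids from a table of positions -/

/-- extension of the grid lines to all indices -/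
def secGrX {m : ℕ} (x : Fin (m + 1) → ℤ) (q : ℕ) : ℤ := x ⟨min q m, by omega⟩

theorem secGrX_val {m : ℕ} (x : Fin (m + 1) → ℤ) (i : Fin (m + 1)) : secGrX x i.1 = x i := by
  unfold secGrX
  congr 1
  ext
  have := i.2
  simp only
  omega

theorem secGrX_side {m : ℕ} (x : Fin (m + 1) → ℤ) (q : Fin m) : secGrX x (q.1 + 1) - secGrX x q.1 = x q.succ - x q.castSucc := by
  rw [← secGrX_val x q.succ, ← secGrX_val x q.castSucc]
  rfl

/-- division with remainder of a successor. -/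
theorem sec_gr_divmod {s : ℕ} (hs : 0 < s) (i : ℕ) :
    (i % s + 1 < s ∧ (i + 1) / s = i / s ∧ (i + 1) % s = i % s + 1) ∨
    (i % s + 1 = s ∧ (i + 1) / s = i / s + 1 ∧ (i + 1) % s = 0) := by
  have h1 := Nat.mod_lt i hs
  have h2 := Nat.div_add_mod i s
  rcases Nat.lt_or_ge (i % s + 1) s with h | h
  · left
    have := (Nat.div_mod_unique hs (a := i + 1) (d := i / s) (c := i % s + 1)).2 ⟨by omega, h⟩
    exact ⟨h, this.1, this.2⟩
  · right
    have e : i % s + 1 = s := by omega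
    have := (Nat.div_mod_unique hs (a := i + 1) (d := i / s + 1) (c := 0)).2 ⟨by rw [Nat.mul_add, Nat.mul_one]; omega, hs⟩
    exact ⟨e, this.1, this.2⟩

theorem sec_gr_build1 {s m : ℕ} (hs : 0 < s) (x : Fin (m + 1) → ℤ) (P : ℕ → ℕ → ℤ) (lo hi : ℤ)
    (h0 : ∀ q, q ≤ m → P q 0 = secGrX x q) (hS : ∀ q, q < m → P q s = secGrX x (q + 1))
    (hP : ∀ q, q < m → ∀ r, r < s → lo ≤ P q (r + 1) - P q r ∧ P q (r + 1) - P q r ≤ hi) :
    (∀ (i : Fin (m + 1)) (i' : Fin (s * m + 1)), i'.1 = s * i.1 → P (i'.1 / s) (i'.1 % s) = x i) ∧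
    (∀ i : Fin (s * m), lo ≤ P (i.succ.1 / s) (i.succ.1 % s) - P (i.castSucc.1 / s) (i.castSucc.1 % s) ∧
      P (i.succ.1 / s) (i.succ.1 % s) - P (i.castSucc.1 / s) (i.castSucc.1 % s) ≤ hi) := by
  constructor
  · intro i i' e
    rw [e, Nat.mul_div_cancel_left _ hs, Nat.mul_mod_right, h0 _ (Nat.lt_succ_iff.1 i.2), secGrX_val]
  · intro i
    have hq : i.1 / s < m := Nat.div_lt_of_lt_mul i.2
    have hr : i.1 % s < s := Nat.mod_lt _ hs
    have e1 : i.succ.1 = i.1 + 1 := rfl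
    have e2 : i.castSucc.1 = i.1 := rfl
    rw [e1, e2]
    rcases sec_gr_divmod hs i.1 with ⟨-, a2, a3⟩ | ⟨a1, a2, a3⟩
    · rw [a2, a3]
      exact hP _ hq _ hr
    · rw [a2, a3, h0 _ hq, ← hS _ hq]
      have := hP _ hq _ hr
      rwa [a1] at this

/-- **the refined grid of two tables of positions.** -/
theorem sec_gr_build {s : ℕ} (hs : 0 < s) (g : DGrid m₁ m₂) (P₁ P₂ : ℕ → ℕ → ℤ) (lo hi : ℕ) (hlo : 0 < lo)
    (h10 : ∀ q, q ≤ m₁ → P₁ q 0 = secGrX g.x₁ q) (h1S : ∀ q, q < m₁ → P₁ q s = secGrX g.x₁ (q + 1))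
    (h1P : ∀ q, q < m₁ → ∀ r, r < s → (lo : ℤ) ≤ P₁ q (r + 1) - P₁ q r ∧ P₁ q (r + 1) - P₁ q r ≤ (hi : ℤ))
    (h20 : ∀ q, q ≤ m₂ → P₂ q 0 = secGrX g.x₂ q) (h2S : ∀ q, q < m₂ → P₂ q s = secGrX g.x₂ (q + 1))
    (h2P : ∀ q, q < m₂ → ∀ r, r < s → (lo : ℤ) ≤ P₂ q (r + 1) - P₂ q r ∧ P₂ q (r + 1) - P₂ q r ≤ (hi : ℤ)) :
    ∃ g' : DGrid (s * m₁) (s * m₂), Refines s g' g ∧ g'.SideGe lo ∧ g'.SideLe hi ∧
      (∀ i', g'.x₁ i' = P₁ (i'.1 / s) (i'.1 % s)) ∧ (∀ j', g'.x₂ j' = P₂ (j'.1 / s) (j'.1 % s)) := by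
  obtain ⟨a1, a2⟩ := sec_gr_build1 hs g.x₁ P₁ lo hi h10 h1S h1P
  obtain ⟨b1, b2⟩ := sec_gr_build1 hs g.x₂ P₂ lo hi h20 h2S h2P
  have hlo' : (0 : ℤ) < lo := by exact_mod_cast hlo
  exact ⟨⟨fun i => P₁ (i.1 / s) (i.1 % s), fun j => P₂ (j.1 / s) (j.1 % s),
      Fin.strictMono_iff_lt_succ.2 (fun i => by have := (a2 i).1; omega),
      Fin.strictMono_iff_lt_succ.2 (fun i => by have := (b2 i).1; omega)⟩,
    ⟨a1, b1⟩, ⟨fun i => (a2 i).1, fun j => (b2 j).1⟩, ⟨fun i => (a2 i).2, fun j => (b2 j).2⟩, fun _ => rfl, fun _ => rfl⟩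

/-- the sides of the equal subdivision. -/
theorem sec_gr_div_gap {s : ℕ} (hs : 0 < s) (L : ℤ) (r ν K : ℕ) (hν : s ≤ ν) (h1 : (ν : ℤ) ≤ L) (h2 : L ≤ ((K * ν : ℕ) : ℤ)) :
    ((ν / s : ℕ) : ℤ) ≤ (((r + 1 : ℕ) : ℤ) * L) / s - ((r : ℤ) * L) / s ∧
    (((r + 1 : ℕ) : ℤ) * L) / s - ((r : ℤ) * L) / s ≤ (((2 * K + 1) * (ν / s) : ℕ) : ℤ) := by
  have hs' : (0 : ℤ) < s := by exact_mod_cast hs
  set A : ℤ := ((r : ℤ) * L) / s with hA
  set B : ℤ := (((r + 1 : ℕ) : ℤ) * L) / s with hB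
  have a1 : (s : ℤ) * A ≤ (r : ℤ) * L := Int.mul_ediv_self_le hs'.ne'
  have a2 : (r : ℤ) * L < (s : ℤ) * A + s := Int.lt_mul_ediv_self_add hs'
  have b1 : (s : ℤ) * B ≤ ((r + 1 : ℕ) : ℤ) * L := Int.mul_ediv_self_le hs'.ne'
  have b2 : ((r + 1 : ℕ) : ℤ) * L < (s : ℤ) * B + s := Int.lt_mul_ediv_self_add hs'
  have e : ((r + 1 : ℕ) : ℤ) * L = (r : ℤ) * L + L := by push_cast; ring
  rw [e] at b1 b2
  have f1 : s * (ν / s) ≤ ν := Nat.mul_div_le _ _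
  have f2 : ν < s * (ν / s) + s := by
    have := Nat.lt_mul_div_succ ν hs
    rwa [Nat.mul_add, Nat.mul_one] at this
  have f3 : 1 ≤ ν / s := (Nat.one_le_div_iff hs).2 hν
  set f : ℕ := ν / s with hf
  have f1' : (s : ℤ) * f ≤ ν := by exact_mod_cast f1
  have f2' : (ν : ℤ) < (s : ℤ) * f + s := by exact_mod_cast f2
  have f3' : (1 : ℤ) ≤ f := by exact_mod_cast f3
  have hK : (0 : ℤ) ≤ K := Int.natCast_nonneg K
  constructor
  · by_contra hc
    have hc' : B + 1 ≤ A + f := by omega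
    have := mul_le_mul_of_nonneg_left hc' hs'.le
    nlinarith
  · by_contra hc
    push_cast at hc h2
    have k1 : (K : ℤ) * ν ≤ K * ((s : ℤ) * f + s) := mul_le_mul_of_nonneg_left f2'.le hK
    have k2 : (K : ℤ) ≤ K * f := by nlinarith
    have hc' : A + (2 * K + 1) * f + 1 ≤ B := by omega
    have := mul_le_mul_of_nonneg_left hc' hs'.le
    nlinarith

/-- equal subdivision -/
theorem exists_refine (s : ℕ) (hs : 1 ≤ s) (K : ℕ) (g : DGrid m₁ m₂) (ν : ℕ) (hν : s ≤ ν) (h : Scale K g ν) :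
    ∃ g' : DGrid (s * m₁) (s * m₂), Refines s g' g ∧ Scale (2 * K + 1) g' (ν / s) := by
  have hs' : (s : ℤ) ≠ 0 := by exact_mod_cast (by omega : s ≠ 0)
  obtain ⟨g', a, b, c, -⟩ := sec_gr_build (s := s) hs g
    (fun q r => secGrX g.x₁ q + ((r : ℤ) * (secGrX g.x₁ (q + 1) - secGrX g.x₁ q)) / s)
    (fun q r => secGrX g.x₂ q + ((r : ℤ) * (secGrX g.x₂ (q + 1) - secGrX g.x₂ q)) / s)
    (ν / s) ((2 * K + 1) * (ν / s)) ((Nat.one_le_div_iff hs).2 hν)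
    (fun q _ => by simp) (fun q _ => by rw [Int.mul_ediv_cancel_left _ hs']; ring)
    (fun q hq r _ => by
      have e := secGrX_side g.x₁ ⟨q, hq⟩
      have := sec_gr_div_gap hs (secGrX g.x₁ (q + 1) - secGrX g.x₁ q) r ν K hν (by rw [e]; exact h.1.1 ⟨q, hq⟩)
        (by rw [e]; exact h.2.1 ⟨q, hq⟩)
      constructor
      · have := this.1; omega
      · have := this.2; omega)
    (fun q _ => by simp) (fun q _ => by rw [Int.mul_ediv_cancel_left _ hs']; ring)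
    (fun q hq r _ => by
      have e := secGrX_side g.x₂ ⟨q, hq⟩
      have := sec_gr_div_gap hs (secGrX g.x₂ (q + 1) - secGrX g.x₂ q) r ν K hν (by rw [e]; exact h.1.2 ⟨q, hq⟩)
        (by rw [e]; exact h.2.2 ⟨q, hq⟩)
      constructor
      · have := this.1; omega
      · have := this.2; omega)
  exact ⟨g', a, b, c⟩

/-- pigeonhole for the fluxes through `n` consecutive lines. -/
theorem sec_gr_pigeon (S : Finset Bond) (w : Bond → ℝ) (p : Bond → Prop) (k : Bond → ℤ) (a : ℤ) (n : ℕ) :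
    ∃ t : ℤ, 0 < n → a ≤ t ∧ t < a + n ∧ (n : ℝ) * ∑ e ∈ S.filter (fun e => p e ∧ k e = t), w e ^ 2 ≤ ∑ e ∈ S, w e ^ 2 := by
  rcases Nat.eq_zero_or_pos n with rfl | hn
  · exact ⟨0, fun h => absurd h (lt_irrefl _)⟩
  have hn' : (0 : ℝ) < n := by exact_mod_cast hn
  have hsum : ∑ t ∈ Finset.Ico a (a + n), ∑ e ∈ S.filter (fun e => p e ∧ k e = t), w e ^ 2 ≤ ∑ e ∈ S, w e ^ 2 := by
    simp_rw [Finset.sum_filter]
    rw [Finset.sum_comm]
    refine Finset.sum_le_sum fun e _ => ?_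
    calc ∑ t ∈ Finset.Ico a (a + n), (if p e ∧ k e = t then w e ^ 2 else 0)
        ≤ ∑ t ∈ Finset.Ico a (a + n), (if k e = t then w e ^ 2 else 0) := by
          refine Finset.sum_le_sum fun t _ => ?_
          by_cases h1 : k e = t
          · by_cases h2 : p e
            · simp [h1, h2]
            · simp [h1, h2, sq_nonneg]
          · simp [h1]
      _ = if k e ∈ Finset.Ico a (a + n) then w e ^ 2 else 0 := Finset.sum_ite_eq _ _ _
      _ ≤ w e ^ 2 := by split_ifs <;> simp [sq_nonneg]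
  have hne : (Finset.Ico a (a + n)).Nonempty := ⟨a, Finset.mem_Ico.2 ⟨le_rfl, by omega⟩⟩
  have hcard : (Finset.Ico a (a + n)).card = n := by simp
  obtain ⟨t, ht, hle⟩ := Finset.exists_le_of_sum_le (s := Finset.Ico a (a + n))
    (f := fun t => ∑ e ∈ S.filter (fun e => p e ∧ k e = t), w e ^ 2) (g := fun _ => (∑ e ∈ S, w e ^ 2) / n) hne (by
      rw [Finset.sum_const, hcard, nsmul_eq_mul, mul_div_cancel₀ _ hn'.ne']
      exact hsum)
  rw [Finset.mem_Ico] at ht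
  refine ⟨t, fun _ => ⟨ht.1, ht.2, ?_⟩⟩
  have := mul_le_mul_of_nonneg_left hle hn'.le
  rwa [mul_div_cancel₀ _ hn'.ne'] at this

/-- the table of positions of the new lines: `T a n` = the chosen line among `a, .., a + n - 1`. -/
def secGrP {m : ℕ} (s : ℕ) (x : Fin (m + 1) → ℤ) (T : ℤ → ℕ → ℤ) (q r : ℕ) : ℤ :=
  if r = 0 then secGrX x q
  else if r < s then
    T (secGrX x q + (2 * (r : ℤ) - 1) * (((secGrX x (q + 1) - secGrX x q).toNat / (2 * s) : ℕ) : ℤ))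
      ((secGrX x (q + 1) - secGrX x q).toNat / (2 * s))
  else secGrX x (q + 1)

/-- numerology of the scales. -/
theorem sec_gr_num {s : ℕ} (hs : 1 ≤ s) (K ν L : ℕ) (hν : 2 * s ≤ ν) (h1 : ν ≤ L) (h2 : L ≤ K * ν) :
    1 ≤ ν / (2 * s) ∧ ν / (2 * s) ≤ L / (2 * s) ∧ 3 * (L / (2 * s)) + 2 * s ≤ (6 * K + 2 * s) * (ν / (2 * s)) ∧
    ν ≤ 4 * s * (L / (2 * s)) ∧ 2 * s * (L / (2 * s)) ≤ L ∧ L < 2 * s * (L / (2 * s)) + 2 * s := by
  have h2s : 0 < 2 * s := by omega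
  have f3 : 1 ≤ ν / (2 * s) := (Nat.one_le_div_iff h2s).2 hν
  have f2 : ν < 2 * s * (ν / (2 * s)) + 2 * s := by
    have := Nat.lt_mul_div_succ ν h2s
    rwa [Nat.mul_add, Nat.mul_one] at this
  have l1 : 2 * s * (L / (2 * s)) ≤ L := Nat.mul_div_le _ _
  have l2 : L < 2 * s * (L / (2 * s)) + 2 * s := by
    have := Nat.lt_mul_div_succ L h2s
    rwa [Nat.mul_add, Nat.mul_one] at this
  have m1 : ν / (2 * s) ≤ L / (2 * s) := Nat.div_le_div_right h1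
  set f := ν / (2 * s) with hf
  set l := L / (2 * s) with hl
  have g1 : 2 * s ≤ 2 * s * f := Nat.le_mul_of_pos_right _ f3
  have g2 : ν ≤ 4 * s * f := by nlinarith
  have g3 : l ≤ 2 * K * f := by
    rw [hl]
    refine Nat.div_le_of_le_mul ?_
    calc L ≤ K * ν := h2
      _ ≤ K * (4 * s * f) := Nat.mul_le_mul_left _ g2
      _ = 2 * s * (2 * K * f) := by ring
  refine ⟨f3, m1, ?_, ?_, l1, l2⟩
  · nlinarith
  · calc ν ≤ 4 * s * f := g2
      _ ≤ 4 * s * l := Nat.mul_le_mul_left _ m1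

/-- the sides of the grid of the chosen lines. -/
theorem sec_gr_P_gap {m : ℕ} {s : ℕ} (hs : 1 ≤ s) (x : Fin (m + 1) → ℤ) (T : ℤ → ℕ → ℤ)
    (hT : ∀ a n, 0 < n → a ≤ T a n ∧ T a n < a + n) (K ν : ℕ) (hν : 2 * s ≤ ν) (q : ℕ)
    (h1 : (ν : ℤ) ≤ secGrX x (q + 1) - secGrX x q) (h2 : secGrX x (q + 1) - secGrX x q ≤ ((K * ν : ℕ) : ℤ)) (r : ℕ) (hr : r < s) :
    ((ν / (2 * s) : ℕ) : ℤ) ≤ secGrP s x T q (r + 1) - secGrP s x T q r ∧
    secGrP s x T q (r + 1) - secGrP s x T q r ≤ (((6 * K + 2 * s) * (ν / (2 * s)) : ℕ) : ℤ) := by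
  obtain ⟨L, hL⟩ : ∃ L : ℕ, secGrX x (q + 1) - secGrX x q = L := ⟨_, (Int.toNat_of_nonneg (by omega)).symm⟩
  have hX : secGrX x (q + 1) = secGrX x q + L := by omega
  have hL1 : ν ≤ L := by omega
  have hL2 : L ≤ K * ν := by rw [hL] at h2; exact_mod_cast h2
  obtain ⟨n1, n2, n3, -, n5, n6⟩ := sec_gr_num hs K ν L hν hL1 hL2
  unfold secGrP
  rw [hL, Int.toNat_natCast]
  set l : ℕ := L / (2 * s) with hl
  set f : ℕ := ν / (2 * s) with hf
  have hlpos : 0 < l := by omega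
  have n2' : (f : ℤ) ≤ l := by exact_mod_cast n2
  have n3' : 3 * (l : ℤ) + 2 * s ≤ (((6 * K + 2 * s) * f : ℕ) : ℤ) := by exact_mod_cast n3
  have n5' : 2 * (s : ℤ) * l ≤ L := by exact_mod_cast n5
  have n6' : (L : ℤ) < 2 * (s : ℤ) * l + 2 * s := by exact_mod_cast n6
  have hl0 : (0 : ℤ) < l := by exact_mod_cast hlpos
  rw [if_neg (Nat.succ_ne_zero r)]
  rcases Nat.eq_zero_or_pos r with rfl | hr0
  · rw [if_pos rfl]
    by_cases h1s : 0 + 1 < s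
    · rw [if_pos h1s]
      have t := hT (secGrX x q + (2 * ((0 + 1 : ℕ) : ℤ) - 1) * (l : ℤ)) l hlpos
      push_cast at t ⊢
      constructor <;> nlinarith [t.1, t.2]
    · rw [if_neg h1s, hX]
      have hs1 : (s : ℤ) = 1 := by
        have : s = 1 := by omega
        exact_mod_cast this
      rw [hs1] at n5' n6' n3'
      constructor <;> linarith
  · rw [if_neg (by omega : r ≠ 0), if_pos hr]
    have t := hT (secGrX x q + (2 * (r : ℤ) - 1) * (l : ℤ)) l hlpos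
    by_cases h1s : r + 1 < s
    · rw [if_pos h1s]
      have t' := hT (secGrX x q + (2 * ((r + 1 : ℕ) : ℤ) - 1) * (l : ℤ)) l hlpos
      push_cast at t' ⊢
      constructor <;> nlinarith [t.1, t.2, t'.1, t'.2]
    · rw [if_neg h1s, hX]
      have hs1 : (s : ℤ) = r + 1 := by
        have : s = r + 1 := by omega
        exact_mod_cast this
      rw [hs1] at n5' n6' n3'
      constructor <;> linarith [t.1, t.2]

/-- the flux through a chosen line. -/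
theorem sec_gr_P_flux {m : ℕ} {s : ℕ} (hs : 1 ≤ s) (x : Fin (m + 1) → ℤ) (T : ℤ → ℕ → ℤ) (S : Finset Bond) (w : Bond → ℝ)
    (p : Bond → Prop) (k : Bond → ℤ)
    (hT : ∀ a n, 0 < n → a ≤ T a n ∧ T a n < a + n ∧
      (n : ℝ) * ∑ e ∈ S.filter (fun e => p e ∧ k e = T a n), w e ^ 2 ≤ ∑ e ∈ S, w e ^ 2)
    (K ν : ℕ) (hν : 2 * s ≤ ν) (q : ℕ)
    (h1 : (ν : ℤ) ≤ secGrX x (q + 1) - secGrX x q) (h2 : secGrX x (q + 1) - secGrX x q ≤ ((K * ν : ℕ) : ℤ))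
    (r : ℕ) (hr0 : r ≠ 0) (hr : r < s) :
    ∑ e ∈ S.filter (fun e => p e ∧ k e = secGrP s x T q r), w e ^ 2 ≤ ((4 * s : ℕ) : ℝ) / ν * ∑ e ∈ S, w e ^ 2 := by
  obtain ⟨L, hL⟩ : ∃ L : ℕ, secGrX x (q + 1) - secGrX x q = L := ⟨_, (Int.toNat_of_nonneg (by omega)).symm⟩
  have hL1 : ν ≤ L := by omega
  have hL2 : L ≤ K * ν := by rw [hL] at h2; exact_mod_cast h2
  obtain ⟨n1, n2, -, n4, -, -⟩ := sec_gr_num hs K ν L hν hL1 hL2
  unfold secGrP
  rw [hL, Int.toNat_natCast, if_neg hr0, if_pos hr]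
  set l : ℕ := L / (2 * s) with hl
  have hlpos : 0 < l := by omega
  have t := (hT (secGrX x q + (2 * (r : ℤ) - 1) * (l : ℤ)) l hlpos).2.2
  set F : ℝ := ∑ e ∈ S.filter (fun e => p e ∧ k e = T (secGrX x q + (2 * (r : ℤ) - 1) * (l : ℤ)) l), w e ^ 2 with hF
  have hF0 : 0 ≤ F := Finset.sum_nonneg fun e _ => sq_nonneg _
  have hν0 : (0 : ℝ) < ν := by exact_mod_cast (by omega : 0 < ν)
  have n4' : (ν : ℝ) ≤ ((4 * s : ℕ) : ℝ) * l := by exact_mod_cast n4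
  rw [div_mul_eq_mul_div, le_div_iff₀ hν0]
  calc F * ν ≤ F * (((4 * s : ℕ) : ℝ) * l) := mul_le_mul_of_nonneg_left n4' hF0
    _ = ((4 * s : ℕ) : ℝ) * ((l : ℝ) * F) := by ring
    _ ≤ ((4 * s : ℕ) : ℝ) * ∑ e ∈ S, w e ^ 2 := mul_le_mul_of_nonneg_left t (Nat.cast_nonneg _)

/-- **pigeonhole** (R3): there is a refinement with comparable sides such that the flow `w` has line flux `≤ C |w|² / ν` through EVERY new line. -/
theorem line_pigeonhole (s : ℕ) (hs : 1 ≤ s) (K : ℕ) : ∃ (C : ℝ) (K' c : ℕ), 0 ≤ C ∧ 1 ≤ c ∧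
    ∀ (g : DGrid m₁ m₂) (ν : ℕ), c ≤ ν → Scale K g ν → ∀ (D : Finset (ℤ × ℤ)) (w : Bond → ℝ),
      ∃ g' : DGrid (s * m₁) (s * m₂), Refines s g' g ∧ Scale K' g' (ν / c) ∧ GoodLines s g' D w (C / ν) := by
  refine ⟨((4 * s : ℕ) : ℝ), 6 * K + 2 * s, 2 * s, Nat.cast_nonneg _, by omega, fun g ν hν h D w => ?_⟩
  choose T₁ hT₁ using fun a n => sec_gr_pigeon (domBonds D ∅) w (fun e => e.2 = true) (fun e => e.1.1 + 1) a n
  choose T₂ hT₂ using fun a n => sec_gr_pigeon (domBonds D ∅) w (fun e => e.2 = false) (fun e => e.1.2 + 1) a n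
  have hs0 : s ≠ 0 := by omega
  have a1 : ∀ q (hq : q < m₁), (ν : ℤ) ≤ secGrX g.x₁ (q + 1) - secGrX g.x₁ q ∧
      secGrX g.x₁ (q + 1) - secGrX g.x₁ q ≤ ((K * ν : ℕ) : ℤ) := fun q hq => by
    rw [secGrX_side g.x₁ ⟨q, hq⟩]
    exact ⟨h.1.1 ⟨q, hq⟩, h.2.1 ⟨q, hq⟩⟩
  have a2 : ∀ q (hq : q < m₂), (ν : ℤ) ≤ secGrX g.x₂ (q + 1) - secGrX g.x₂ q ∧
      secGrX g.x₂ (q + 1) - secGrX g.x₂ q ≤ ((K * ν : ℕ) : ℤ) := fun q hq => by
    rw [secGrX_side g.x₂ ⟨q, hq⟩]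
    exact ⟨h.1.2 ⟨q, hq⟩, h.2.2 ⟨q, hq⟩⟩
  obtain ⟨g', b1, b2, b3, b4, b5⟩ := sec_gr_build (s := s) hs g (secGrP s g.x₁ T₁) (secGrP s g.x₂ T₂)
    (ν / (2 * s)) ((6 * K + 2 * s) * (ν / (2 * s))) ((Nat.one_le_div_iff (by omega)).2 hν)
    (fun q _ => if_pos rfl) (fun q _ => by unfold secGrP; rw [if_neg hs0, if_neg (lt_irrefl s)])
    (fun q hq r hr => sec_gr_P_gap hs g.x₁ T₁ (fun a n hn => ⟨(hT₁ a n hn).1, (hT₁ a n hn).2.1⟩) K ν hν q (a1 q hq).1 (a1 q hq).2 r hr)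
    (fun q _ => if_pos rfl) (fun q _ => by unfold secGrP; rw [if_neg hs0, if_neg (lt_irrefl s)])
    (fun q hq r hr => sec_gr_P_gap hs g.x₂ T₂ (fun a n hn => ⟨(hT₂ a n hn).1, (hT₂ a n hn).2.1⟩) K ν hν q (a2 q hq).1 (a2 q hq).2 r hr)
  refine ⟨g', b1, ⟨b2, b3⟩, fun i' hi => ?_, fun j' hj => ?_⟩
  · have hq : i'.1 / s < m₁ := by
      refine Nat.div_lt_of_lt_mul (lt_of_le_of_ne (Nat.lt_succ_iff.1 i'.2) fun e => hi ?_)
      rw [e, Nat.mul_mod_right]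
    rw [b4 i']
    convert sec_gr_P_flux hs g.x₁ T₁ (domBonds D ∅) w (fun e => e.2 = true) (fun e => e.1.1 + 1) hT₁ K ν hν _
      (a1 _ hq).1 (a1 _ hq).2 _ hi (Nat.mod_lt _ hs)
  · have hq : j'.1 / s < m₂ := by
      refine Nat.div_lt_of_lt_mul (lt_of_le_of_ne (Nat.lt_succ_iff.1 j'.2) fun e => hj ?_)
      rw [e, Nat.mul_mod_right]
    rw [b5 j']
    convert sec_gr_P_flux hs g.x₂ T₂ (domBonds D ∅) w (fun e => e.2 = false) (fun e => e.1.2 + 1) hT₂ K ν hν _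
      (a2 _ hq).1 (a2 _ hq).2 _ hj (Nat.mod_lt _ hs)

end

end Claimed.Agent.R285.Sec
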