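import Claimed.Agent.R285.Sec.Defs
import Claimed.Agent.R285.Base.Height

/-!
# ROW 285, layer Sec, leaf file Fin: [S]L2.7, L2.8, (2), C2.9, (3.3) in graph form.      Paper-free: only `Base/Height` (`lsys_*`, `HLaw.ok_*`) is used.
PLAN.  Everything is `lsys_ratio_mono` for an explicit `LSys.Ref`:
* `recut`: `Ref ((recut H cut').sys b) (H.sys b)`, `iE` = inclusion of the bonds (`domBonds D cut' ⊆ domBonds D cut`), `iO = id`; `map_mem`: the same `h`.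
* smaller domain: `Ref ((freeLaw D' cut').sys b) ((freeLaw D cut).sys b)`; `map_mem`: restrict `h` to `D'`.
* new rows: `Ref ((rlaw Γ g noRow).sys b) ((rlaw Γ g row).sys b)`, `iE = id`, `iO` from `Fin 0`.
* gauge: `lsys_gauge` with `g = coord ψ`.   `ratioL = w α / w 0`, `w α = wT α 0`.
-/

set_option autoImplicit false

namespace Claimed.Agent.R285.Sec

open Filter Topology S23
open scoped Classical

noncomputable section

/-! ### part A (proved): general laws, cuts, the bare ratio.      (`secRatio_union`, `secRatio_translate` of v2 are dropped: no consumer; see helper12's `F3/Transport`.) -/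


theorem sec_w_pos (S : LSys) (hS : S.Ok) (α : S.Amb) : 0 < S.w α := by
  have h1 := lsys_pos S hS α 0
  rwa [Rsd.cs_wT_zero] at h1

theorem ratioL_pos {G : HGraph} (H : HLaw G) (b : ℝ) (hok : (H.sys b).Ok) (α : H.Aff) : 0 < H.ratioL b α :=
  div_pos (sec_w_pos _ hok _) (sec_w_pos _ hok _)

theorem ratioL_le_one {G : HGraph} (H : HLaw G) (b : ℝ) (hok : (H.sys b).Ok) (α : H.Aff) : H.ratioL b α ≤ 1 :=
  (div_le_one (sec_w_pos _ hok _)).2 (lsys_le_centred _ hok _)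

/-- untilted form of `lsys_ratio_mono` -/
theorem sec_ratio_mono {S S' : LSys} (r : LSys.Ref S S') (hS : S.Ok) (hS' : S'.Ok) (α' : S'.Amb) :
    S'.w α' / S'.w 0 ≤ S.w (r.res α') / S.w 0 := by
  have h := lsys_ratio_mono r hS hS' α' 0
  rw [Rsd.cs_wT_zero] at h
  have e : (0 : S.L →+ ℝ).comp r.psi = 0 := rfl
  rwa [e, Rsd.cs_wT_zero] at h

section
variable {D : Finset (ℤ × ℤ)} {cut : Set Bond}

theorem domBonds_anti {cut' : Set Bond} (hcc : cut ⊆ cut') : domBonds D cut' ⊆ domBonds D cut := by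
  intro e he
  rw [domBonds, Finset.mem_filter] at he ⊢
  exact ⟨he.1, he.2.1, fun h => he.2.2 (hcc h)⟩

/-- cutting bonds is a `Ref` -/
def recutRef {cut' : Set Bond} (hcc : cut ⊆ cut') (H : HLaw (domG D cut)) (b : ℝ) : LSys.Ref ((recut H cut').sys b) (H.sys b) where
  iE := (⟨fun e => ⟨e.1, domBonds_anti hcc e.2⟩, fun e e' h => Subtype.ext (by simpa using congrArg Subtype.val h)⟩ :
    {e : Bond // e ∈ domBonds D cut'} ↪ {e : Bond // e ∈ domBonds D cut})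
  iO := Function.Embedding.refl _
  hb _ := rfl
  map_mem := by
    rintro z hz
    obtain ⟨h, hh, rfl⟩ := AddSubgroup.mem_map.1 hz
    exact AddSubgroup.mem_map.2 ⟨h, hh, rfl⟩

theorem recutRef_res {cut' : Set Bond} (hcc : cut ⊆ cut') (H : HLaw (domG D cut)) (b : ℝ) (x : ℤ × ℤ → ℤ) (τ : Bond → ℤ) (c : H.O → ℝ) :
    (recutRef hcc H b).res ((affOf H x τ c).amb b) = (affOf (recut H cut') x τ c).amb b := rfl

theorem cut_comparison {cut' : Set Bond} (hcc : cut ⊆ cut') (H : HLaw (domG D cut)) (b : ℝ)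
    (hok : (H.sys b).Ok) (hok' : ((recut H cut').sys b).Ok) (x : ℤ × ℤ → ℤ) (τ : Bond → ℤ) (c : H.O → ℝ) :
    H.ratioL b (affOf H x τ c) ≤ (recut H cut').ratioL b (affOf (recut H cut') x τ c) :=
  sec_ratio_mono (recutRef hcc H b) hok' hok ((affOf H x τ c).amb b)

theorem restoration {cut' : Set Bond} (hcc : cut ⊆ cut') (H : HLaw (domG D cut)) (b : ℝ)
    (hok : (H.sys b).Ok) (hok' : ((recut H cut').sys b).Ok) (x : ℤ × ℤ → ℤ) (τ : Bond → ℤ) (c : H.O → ℝ) :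
    (H.sys b).w ((affOf H x τ c).amb b) / ((recut H cut').sys b).w ((affOf (recut H cut') x τ c).amb b) ≤
      (H.sys b).w 0 / ((recut H cut').sys b).w 0 := by
  have h := cut_comparison hcc H b hok hok' x τ c
  unfold HLaw.ratioL at h
  rw [div_le_div_iff₀ (sec_w_pos _ hok _) (sec_w_pos _ hok' _)] at h
  rw [div_le_div_iff₀ (sec_w_pos _ hok' _) (sec_w_pos _ hok' _)]
  linarith
end

theorem amb_fst {G : HGraph} {H : HLaw G} (a : H.Aff) (b : ℝ) (e : G.E) : (a.amb b).1 e = a.x (G.tgt e) - a.x (G.src e) + a.τ e := rfl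

theorem amb_snd {G : HGraph} {H : HLaw G} (a : H.Aff) (b : ℝ) (o : H.O) :
    (a.amb b).2 o = ∑ v, H.B o v * (2 * Real.pi * (a.x v : ℝ)) + - a.c o := rfl

theorem coordA_fst {G : HGraph} (H : HLaw G) (b : ℝ) (h : G.V → ℤ) (e : G.E) : (H.coordA b h).1 e = h (G.tgt e) - h (G.src e) := rfl

theorem coordA_snd {G : HGraph} (H : HLaw G) (b : ℝ) (h : G.V → ℤ) (o : H.O) :
    (H.coordA b h).2 o = ∑ v, H.B o v * (2 * Real.pi * (h v : ℝ)) := rfl

/-- general integral gauge change of a height law: `τ ↦ τ + ∇ψ`, `c ↦ c - B (2π ψ)`, `ψ ∈ Λ`. -/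
theorem ratioL_gauge {G : HGraph} (H : HLaw G) (b : ℝ) (x : G.V → ℤ) (τ : G.E → ℤ) (c : H.O → ℝ) (ψ : G.V → ℤ) (hψ : ψ ∈ H.Λ) :
    H.ratioL b ⟨x, fun e => τ e + (ψ (G.tgt e) - ψ (G.src e)), fun o => c o - ∑ v, H.B o v * (2 * Real.pi * (ψ v : ℝ))⟩ = H.ratioL b ⟨x, τ, c⟩ := by
  unfold HLaw.ratioL
  congr 1
  have e : HLaw.Aff.amb (H := H) ⟨x, fun e => τ e + (ψ (G.tgt e) - ψ (G.src e)), fun o => c o - ∑ v, H.B o v * (2 * Real.pi * (ψ v : ℝ))⟩ b
      = HLaw.Aff.amb (H := H) ⟨x, τ, c⟩ b + ((⟨H.coordA b ψ, H.coordA_mem b hψ⟩ : (H.sys b).L) : (H.sys b).Amb) := by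
    refine Prod.ext ?_ ?_
    · funext e
      show x (G.tgt e) - x (G.src e) + (τ e + (ψ (G.tgt e) - ψ (G.src e))) = (x (G.tgt e) - x (G.src e) + τ e) + (ψ (G.tgt e) - ψ (G.src e))
      ring
    · funext o
      show ∑ v, H.B o v * (2 * Real.pi * (x v : ℝ)) + -(c o - ∑ v, H.B o v * (2 * Real.pi * (ψ v : ℝ)))
        = (∑ v, H.B o v * (2 * Real.pi * (x v : ℝ)) + - c o) + ∑ v, H.B o v * (2 * Real.pi * (ψ v : ℝ))
      ring
  rw [e, lsys_gauge]

theorem ratioL_neg {G : HGraph} (H : HLaw G) (b : ℝ) (x : G.V → ℤ) (τ : G.E → ℤ) (c : H.O → ℝ) :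
    H.ratioL b ⟨-x, -τ, -c⟩ = H.ratioL b ⟨x, τ, c⟩ := by
  unfold HLaw.ratioL
  congr 1
  have e : HLaw.Aff.amb (H := H) ⟨-x, -τ, -c⟩ b = - HLaw.Aff.amb (H := H) ⟨x, τ, c⟩ b := by
    simp only [HLaw.Aff.amb, map_neg, neg_add]
    congr 1
  rw [e, lsys_neg]

theorem secRatio_gauge (b : ℝ) (D : Finset (ℤ × ℤ)) (cut : Set Bond) (τ : Bond → ℤ) (ψ : ℤ × ℤ → ℤ) :
    secRatio b D cut (fun e => τ e + (ψ e.snd - ψ e.1)) = secRatio b D cut τ := by
  have h := ratioL_gauge (freeLaw D cut) b 0 (domFnE τ) (fun o => o.elim) (domFn ψ) (fun v hv => hv.elim)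
  unfold secRatio
  rw [← h]
  congr 2
  funext o
  exact o.elim

theorem secRatio_congr (b : ℝ) (D : Finset (ℤ × ℤ)) (cut : Set Bond) (τ τ' : Bond → ℤ)
    (h : ∀ e ∈ domBonds D cut, τ e = τ' e) : secRatio b D cut τ = secRatio b D cut τ' := by
  have e : (domFnE τ : (domG D cut).E → ℤ) = domFnE τ' := by
    funext e
    exact h e.1 e.2
  unfold secRatio
  rw [e]

theorem secRatio_neg (b : ℝ) (D : Finset (ℤ × ℤ)) (cut : Set Bond) (τ : Bond → ℤ) :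
    secRatio b D cut (fun e => - τ e) = secRatio b D cut τ := by
  have h := ratioL_neg (freeLaw D cut) b 0 (domFnE τ) (fun o => o.elim)
  unfold secRatio
  rw [← h]
  congr 2
  funext o
  exact o.elim

instance freeLaw_isEmpty (D : Finset (ℤ × ℤ)) (cut : Set Bond) : IsEmpty (freeLaw D cut).O := inferInstanceAs (IsEmpty Empty)

theorem freeLaw_ok (b : ℝ) (hb : 0 < b) (D : Finset (ℤ × ℤ)) (cut : Set Bond) : ((freeLaw D cut).sys b).Ok :=
  HLaw.ok_of_isEmpty _ b hb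

theorem secRatio_pos (b : ℝ) (hb : 0 < b) (D : Finset (ℤ × ℤ)) (cut : Set Bond) (τ : Bond → ℤ) :
    0 < secRatio b D cut τ := ratioL_pos _ b (freeLaw_ok b hb D cut) _

theorem secRatio_le_one (b : ℝ) (hb : 0 < b) (D : Finset (ℤ × ℤ)) (cut : Set Bond) (τ : Bond → ℤ) :
    secRatio b D cut τ ≤ 1 := ratioL_le_one _ b (freeLaw_ok b hb D cut) _

theorem domBonds_mono {D D' : Finset (ℤ × ℤ)} {cut cut' : Set Bond} (hD : D' ⊆ D) (hc : cut ⊆ cut') : domBonds D' cut' ⊆ domBonds D cut := by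
  intro e he
  rw [domBonds, Finset.mem_filter, Finset.mem_product] at he ⊢
  exact ⟨⟨hD he.1.1, he.1.2⟩, hD he.2.1, fun h => he.2.2 (hc h)⟩

/-- cutting bonds and deleting sites is a `Ref` of the free laws -/
def freeRef (b : ℝ) {D D' : Finset (ℤ × ℤ)} {cut cut' : Set Bond} (hD : D' ⊆ D) (hc : cut ⊆ cut') :
    LSys.Ref ((freeLaw D' cut').sys b) ((freeLaw D cut).sys b) where
  iE := (⟨fun e => ⟨e.1, domBonds_mono hD hc e.2⟩, fun e e' h => Subtype.ext (by simpa using congrArg Subtype.val h)⟩ :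
    {e : Bond // e ∈ domBonds D' cut'} ↪ {e : Bond // e ∈ domBonds D cut})
  iO := Function.Embedding.refl _
  hb _ := rfl
  map_mem := by
    rintro z hz
    obtain ⟨h, hh, rfl⟩ := AddSubgroup.mem_map.1 hz
    refine AddSubgroup.mem_map.2 ⟨fun v : {v : ℤ × ℤ // v ∈ D'} => h ⟨v.1, hD v.2⟩, fun v hv => hv.elim, ?_⟩
    refine Prod.ext rfl ?_
    funext o
    exact o.elim

theorem secRatio_mono (b : ℝ) (hb : 0 < b) {D D' : Finset (ℤ × ℤ)} {cut cut' : Set Bond} (hD : D' ⊆ D) (hc : cut ⊆ cut')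
    (τ : Bond → ℤ) : secRatio b D cut τ ≤ secRatio b D' cut' τ := by
  have h := sec_ratio_mono (freeRef b hD hc) (freeLaw_ok b hb D' cut') (freeLaw_ok b hb D cut)
    (HLaw.Aff.amb (H := freeLaw D cut) ⟨0, domFnE τ, fun o => o.elim⟩ b)
  have e : (freeRef b hD hc).res (HLaw.Aff.amb (H := freeLaw D cut) ⟨0, domFnE τ, fun o => o.elim⟩ b)
      = HLaw.Aff.amb (H := freeLaw D' cut') ⟨0, domFnE τ, fun o => o.elim⟩ b := by
    refine Prod.ext ?_ ?_
    · funext e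
      simp [LSys.Ref.res, HLaw.Aff.amb, freeRef, domFnE, domBond]
      rfl
    · funext o
      exact o.elim
  rw [e] at h
  exact h

/-! ### laws of a geometry -/

section Geo

variable {m₁ m₂ : ℕ}

theorem sec_mem_cell (g : DGrid m₁ m₂) {κ : Cell m₁ m₂} {z : ℤ × ℤ} :
    z ∈ g.cell κ ↔ (g.x₁ κ.1.castSucc ≤ z.1 ∧ z.1 < g.x₁ κ.1.succ) ∧ (g.x₂ κ.2.castSucc ≤ z.2 ∧ z.2 < g.x₂ κ.2.succ) := by
  simp [DGrid.cell, Finset.mem_product, Finset.mem_Ico]

theorem sec_idx_le {m : ℕ} {x : Fin (m + 1) → ℤ} (hx : StrictMono x) {i j : Fin m} {z : ℤ} (h1 : x i.castSucc ≤ z)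
    (h2 : z < x j.succ) : i ≤ j := by
  have h3 : i.castSucc < j.succ := hx.lt_iff_lt.1 (lt_of_le_of_lt h1 h2)
  rw [Fin.lt_def] at h3
  rw [Fin.le_def]
  simp only [Fin.val_castSucc, Fin.val_succ] at h3
  omega

/-- the cells are disjoint -/
theorem sec_cell_unique (g : DGrid m₁ m₂) {κ κ' : Cell m₁ m₂} {z : ℤ × ℤ} (h : z ∈ g.cell κ) (h' : z ∈ g.cell κ') : κ = κ' := by
  rw [sec_mem_cell] at h h'
  apply Prod.ext
  · exact le_antisymm (sec_idx_le g.mono₁ h.1.1 h'.1.2) (sec_idx_le g.mono₁ h'.1.1 h.1.2)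
  · exact le_antisymm (sec_idx_le g.mono₂ h.2.1 h'.2.2) (sec_idx_le g.mono₂ h'.2.1 h.2.2)

/-- inside a cell no bond is cut -/
theorem sec_cell_bond (Γ : CGeom m₁ m₂) (g : DGrid m₁ m₂) {κ : Cell m₁ m₂} (hκ : κ ∈ Γ.T) {e : Bond} (h1 : e.1 ∈ g.cell κ)
    (h2 : e.snd ∈ g.cell κ) : e ∈ domBonds (g.region Γ.T) (Γ.cutB g) := by
  rw [domBonds, Finset.mem_filter, Finset.mem_product]
  refine ⟨⟨Finset.mem_biUnion.2 ⟨κ, hκ, h1⟩, Finset.mem_univ _⟩, Finset.mem_biUnion.2 ⟨κ, hκ, h2⟩, ?_⟩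
  rintro ⟨f, -, -, hf1, hf2⟩
  rw [sec_cell_unique g hf1 h1] at hf2
  exact hf2 h2

/-- a function with zero gradient is constant on every cell -/
theorem sec_cell_const (Γ : CGeom m₁ m₂) (g : DGrid m₁ m₂) (u : (Γ.graph g).V → ℝ)
    (hu : ∀ e, u ((Γ.graph g).tgt e) = u ((Γ.graph g).src e)) {κ : Cell m₁ m₂} (hκ : κ ∈ Γ.T) (x y : (Γ.graph g).V)
    (hx : domPos (D := g.region Γ.T) (cut := Γ.cutB g) x ∈ g.cell κ)
    (hy : domPos (D := g.region Γ.T) (cut := Γ.cutB g) y ∈ g.cell κ) : u x = u y := by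
  obtain ⟨U, hUdef⟩ : ∃ U : ℤ × ℤ → ℝ, ∀ (p : ℤ × ℤ) (hp : p ∈ g.region Γ.T), U p = u ⟨p, hp⟩ :=
    ⟨fun p => if hp : p ∈ g.region Γ.T then u ⟨p, hp⟩ else 0, fun p hp => dif_pos hp⟩
  have hU : ∀ e : Bond, e.1 ∈ g.cell κ → e.snd ∈ g.cell κ → U e.snd = U e.1 := by
    intro e h1 h2
    have he := sec_cell_bond Γ g hκ h1 h2
    rw [hUdef _ (domBonds_snd he), hUdef _ (domBonds_fst he)]
    exact hu ⟨e, he⟩
  have H : ∀ (q n : ℤ), g.x₁ κ.1.castSucc ≤ n → (n, q) ∈ g.cell κ → U (n, q) = U (g.x₁ κ.1.castSucc, q) := by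
    intro q n hn
    induction n, hn using Int.leInduction with
    | base => intro _; rfl
    | succ n hn ih =>
      intro hmem
      have hmem' : (n, q) ∈ g.cell κ := by
        rw [sec_mem_cell] at hmem ⊢
        simp only at hmem ⊢
        exact ⟨⟨hn, by omega⟩, hmem.2⟩
      rw [← ih hmem']
      have hs : Bond.snd ((n, q), true) = (n + 1, q) := by simp [Bond.snd]
      have := hU ((n, q), true) hmem' (by rw [hs]; exact hmem)
      rwa [hs] at this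
  have Vv : ∀ (q n : ℤ), g.x₂ κ.2.castSucc ≤ n → (q, n) ∈ g.cell κ → U (q, n) = U (q, g.x₂ κ.2.castSucc) := by
    intro q n hn
    induction n, hn using Int.leInduction with
    | base => intro _; rfl
    | succ n hn ih =>
      intro hmem
      have hmem' : (q, n) ∈ g.cell κ := by
        rw [sec_mem_cell] at hmem ⊢
        simp only at hmem ⊢
        exact ⟨hmem.1, ⟨hn, by omega⟩⟩
      rw [← ih hmem']
      have hs : Bond.snd ((q, n), false) = (q, n + 1) := by simp [Bond.snd]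
      have := hU ((q, n), false) hmem' (by rw [hs]; exact hmem)
      rwa [hs] at this
  have key : ∀ p : ℤ × ℤ, p ∈ g.cell κ → U p = U (g.x₁ κ.1.castSucc, g.x₂ κ.2.castSucc) := by
    rintro ⟨p1, p2⟩ hp
    have hp' := (sec_mem_cell g).1 hp
    simp only at hp'
    have hc : (g.x₁ κ.1.castSucc, p2) ∈ g.cell κ := by
      rw [sec_mem_cell]
      exact ⟨⟨le_rfl, lt_of_le_of_lt hp'.1.1 hp'.1.2⟩, hp'.2⟩
    rw [H p2 p1 hp'.1.1 hp, Vv _ p2 hp'.2.1 hc]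
  have ex : u x = U (domPos (D := g.region Γ.T) (cut := Γ.cutB g) x) := (hUdef _ x.2).symm
  have ey : u y = U (domPos (D := g.region Γ.T) (cut := Γ.cutB g) y) := (hUdef _ y.2).symm
  rw [ex, ey, key _ hx, key _ hy]

theorem sec_cellRow_B (Γ : CGeom m₁ m₂) (g : DGrid m₁ m₂) (κ : Cell m₁ m₂) (v : (Γ.graph g).V) :
    (rlaw Γ g cellRow).B (finProdFinEquiv κ) v = Γ.avgRow g {κ} v := by
  show ∑ κ', cellRow (finProdFinEquiv κ) κ' * Γ.avgRow g {κ'} v = _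
  rw [Finset.sum_eq_single κ]
  · simp [cellRow]
  · intro κ' _ hne
    simp [cellRow, hne]
  · intro h
    exact absurd (Finset.mem_univ κ) h

/-- zero gradient inside the cells and zero cell averages: the function vanishes -/
theorem sec_cell_inj (Γ : CGeom m₁ m₂) (g : DGrid m₁ m₂) (u : (Γ.graph g).V → ℝ)
    (hu : ∀ e, u ((Γ.graph g).tgt e) = u ((Γ.graph g).src e)) (ho : ∀ o, ∑ v, (rlaw Γ g cellRow).B o v * u v = 0) : u = 0 := by
  funext x
  obtain ⟨κ, hκ, hx⟩ : ∃ κ ∈ Γ.T, domPos (D := g.region Γ.T) (cut := Γ.cutB g) x ∈ g.cell κ := Finset.mem_biUnion.1 x.2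
  have h1 := ho (finProdFinEquiv κ)
  simp only [sec_cellRow_B] at h1
  have hreg : g.region {κ} = g.cell κ := by simp [DGrid.region]
  have hmem : ∀ v : (Γ.graph g).V, v ∈ Γ.sites g {κ} ↔ domPos (D := g.region Γ.T) (cut := Γ.cutB g) v ∈ g.cell κ := by
    intro v
    show domPos v ∈ (↑(g.region {κ}) : Set (ℤ × ℤ)) ↔ _
    rw [hreg, Finset.mem_coe]
  have hc : 0 < ((g.region ({κ} ∩ Γ.T)).card : ℝ)⁻¹ := by
    have e1 : ({κ} ∩ Γ.T : Finset (Cell m₁ m₂)) = {κ} := Finset.inter_eq_left.2 (Finset.singleton_subset_iff.2 hκ)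
    rw [e1, hreg]
    exact inv_pos.2 (Nat.cast_pos.2 (Finset.card_pos.2 ⟨_, hx⟩))
  have h2 : ∀ v, Γ.avgRow g {κ} v * u v = Γ.avgRow g {κ} v * u x := by
    intro v
    unfold CGeom.avgRow
    by_cases hv : v ∈ Γ.sites g {κ}
    · rw [if_pos hv, sec_cell_const Γ g u hu hκ v x ((hmem v).1 hv) hx]
    · rw [if_neg hv, zero_mul, zero_mul]
  simp only [h2] at h1
  rw [← Finset.sum_mul] at h1
  have h3 : 0 < ∑ v, Γ.avgRow g {κ} v := by
    refine Finset.sum_pos' (fun v _ => ?_) ⟨x, Finset.mem_univ _, ?_⟩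
    · unfold CGeom.avgRow
      split_ifs
      exacts [hc.le, le_rfl]
    · unfold CGeom.avgRow
      rw [if_pos ((hmem x).2 hx)]
      exact hc
  exact (mul_eq_zero.1 h1).resolve_left h3.ne'

theorem rlaw_ok_noRow (Γ : CGeom m₁ m₂) (g : DGrid m₁ m₂) (b : ℝ) (hb : 0 < b) : ((rlaw Γ g noRow).sys b).Ok := by
  have : IsEmpty (rlaw Γ g noRow).O := inferInstanceAs (IsEmpty (Fin 0))
  exact HLaw.ok_of_isEmpty _ b hb

/-- one observation per cell: every constant is confined (`HLaw.ok_of_real_injective`: a function with zero gradient inside every cell and zero cell averages vanishes) -/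
theorem rlaw_ok_cell (Γ : CGeom m₁ m₂) (g : DGrid m₁ m₂) (b : ℝ) (hb : 0 < b) : ((rlaw Γ g cellRow).sys b).Ok :=
  HLaw.ok_of_real_injective _ b hb fun u _ hu ho => sec_cell_inj Γ g u hu ho

/-- integer version of `sec_cell_inj` -/
theorem sec_cell_inj_int (Γ : CGeom m₁ m₂) (g : DGrid m₁ m₂) (h : (Γ.graph g).V → ℤ) (h0 : (rlaw Γ g cellRow).coord h = 0) : h = 0 := by
  have h1 : ∀ e, h ((Γ.graph g).tgt e) - h ((Γ.graph g).src e) = 0 := fun e => congrFun (congrArg Prod.fst h0) e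
  have h2 : ∀ o, ∑ v, (rlaw Γ g cellRow).B o v * (2 * Real.pi * (h v : ℝ)) = 0 := fun o => congrFun (congrArg Prod.snd h0) o
  have h3 := sec_cell_inj Γ g (fun v => (h v : ℝ)) (fun e => by
    have := h1 e
    have h4 : h ((Γ.graph g).tgt e) = h ((Γ.graph g).src e) := by omega
    simp only [h4]) (fun o => by
    have := h2 o
    have e1 : ∑ v, (rlaw Γ g cellRow).B o v * (2 * Real.pi * (h v : ℝ)) =
        2 * Real.pi * ∑ v, (rlaw Γ g cellRow).B o v * (h v : ℝ) := by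
      rw [Finset.mul_sum]
      exact Finset.sum_congr rfl fun v _ => by ring
    rw [e1] at this
    exact (mul_eq_zero.1 this).resolve_left (by positivity))
  funext v
  have := congrFun h3 v
  simpa using this

theorem rlaw_proper_cell (Γ : CGeom m₁ m₂) (g : DGrid m₁ m₂) : (rlaw Γ g cellRow).Proper :=
  fun h _ h0 => sec_cell_inj_int Γ g h h0

/-- the same after additional hard pins -/
theorem rlaw_ok_cell_pin (Γ : CGeom m₁ m₂) (g : DGrid m₁ m₂) (b : ℝ) (hb : 0 < b) (A : Set (Γ.graph g).V) :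
    (((rlaw Γ g cellRow).addPin A).sys b).Ok ∧ ((rlaw Γ g cellRow).addPin A).Proper :=
  ⟨HLaw.ok_of_real_injective _ b hb fun u _ hu ho => sec_cell_inj Γ g u hu ho,
    fun h _ h0 => sec_cell_inj_int Γ g h h0⟩

theorem confRatio_pos (b : ℝ) (hb : 0 < b) (Γ : CGeom m₁ m₂) (g : DGrid m₁ m₂) (τ : Bond → ℤ) (v : ℤ × ℤ → ℝ) :
    0 < confRatio b Γ g cellRow τ v ∧ confRatio b Γ g cellRow τ v ≤ 1 ∧ 0 < confRatio b Γ g noRow τ v ∧ confRatio b Γ g noRow τ v ≤ 1 :=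
  ⟨ratioL_pos _ b (rlaw_ok_cell Γ g b hb) _, ratioL_le_one _ b (rlaw_ok_cell Γ g b hb) _,
    ratioL_pos _ b (rlaw_ok_noRow Γ g b hb) _, ratioL_le_one _ b (rlaw_ok_noRow Γ g b hb) _⟩

/-- new rows are a `Ref` -/
def sec_rowRef (Γ : CGeom m₁ m₂) (g : DGrid m₁ m₂) (b : ℝ) {N : ℕ} (row : Fin N → Cell m₁ m₂ → ℝ) :
    LSys.Ref ((rlaw Γ g noRow).sys b) ((rlaw Γ g row).sys b) where
  iE := Function.Embedding.refl _
  iO := (⟨fun o : Fin 0 => o.elim0, fun o => o.elim0⟩ : Fin 0 ↪ Fin N)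
  hb _ := rfl
  map_mem := by
    rintro z hz
    obtain ⟨h, hh, rfl⟩ := AddSubgroup.mem_map.1 hz
    refine AddSubgroup.mem_map.2 ⟨h, hh, ?_⟩
    refine Prod.ext rfl ?_
    funext o
    exact Fin.elim0 o

/-- (3.3) `R^s_{n,d}(v) ≤ F^s`: new penalty coordinates with arbitrary real centres. -/
theorem conf_le_noRow (b : ℝ) (hb : 0 < b) (Γ : CGeom m₁ m₂) (g : DGrid m₁ m₂) (τ : Bond → ℤ) (v v' : ℤ × ℤ → ℝ) :
    confRatio b Γ g cellRow τ v ≤ confRatio b Γ g noRow τ v' := by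
  have h := sec_ratio_mono (sec_rowRef Γ g b cellRow) (rlaw_ok_noRow Γ g b hb) (rlaw_ok_cell Γ g b hb)
    (HLaw.Aff.amb (H := rlaw Γ g cellRow) ⟨0, onE Γ g τ, (rlaw Γ g cellRow).obs (onV Γ g v)⟩ b)
  have e : (sec_rowRef Γ g b cellRow).res
      (HLaw.Aff.amb (H := rlaw Γ g cellRow) ⟨0, onE Γ g τ, (rlaw Γ g cellRow).obs (onV Γ g v)⟩ b)
      = HLaw.Aff.amb (H := rlaw Γ g noRow) ⟨0, onE Γ g τ, (rlaw Γ g noRow).obs (onV Γ g v')⟩ b := by
    refine Prod.ext rfl ?_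
    funext o
    exact Fin.elim0 o
  rw [e] at h
  exact h

/-- integral gauge change with simultaneous change of the centres ([S]s2.1): `ψ` vanishes on the pins. -/
theorem confRatio_gauge (b : ℝ) (Γ : CGeom m₁ m₂) (g : DGrid m₁ m₂) {N : ℕ} (row : Fin N → Cell m₁ m₂ → ℝ) (τ : Bond → ℤ) (v : ℤ × ℤ → ℝ)
    (ψ : ℤ × ℤ → ℤ) (hψ : ∀ x ∈ g.region Γ.pin, ψ x = 0) :
    confRatio b Γ g row (fun e => τ e + (ψ e.snd - ψ e.1)) v = confRatio b Γ g row τ (fun x => v x + 2 * Real.pi * (ψ x : ℝ)) := by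
  have h := ratioL_gauge (rlaw Γ g row) b 0 (onE Γ g τ)
    ((rlaw Γ g row).obs (onV Γ g fun x => v x + 2 * Real.pi * (ψ x : ℝ))) (onV Γ g ψ) (fun x hx => hψ _ hx)
  unfold confRatio
  rw [← h]
  congr 2
  funext o
  show ∑ x, (rlaw Γ g row).B o x * onV Γ g v x =
    ∑ x, (rlaw Γ g row).B o x * onV Γ g (fun x => v x + 2 * Real.pi * (ψ x : ℝ)) x
      - ∑ x, (rlaw Γ g row).B o x * (2 * Real.pi * ((onV Γ g ψ x : ℤ) : ℝ))
  rw [← Finset.sum_sub_distrib]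
  refine Finset.sum_congr rfl fun x _ => ?_
  show _ = (rlaw Γ g row).B o x * (onV Γ g v x + 2 * Real.pi * ((onV Γ g ψ x : ℤ) : ℝ)) - _
  ring

/-- only the bonds and the sites of the geometry matter -/
theorem confRatio_congr (b : ℝ) (Γ : CGeom m₁ m₂) (g : DGrid m₁ m₂) {N : ℕ} (row : Fin N → Cell m₁ m₂ → ℝ) (τ τ' : Bond → ℤ) (v v' : ℤ × ℤ → ℝ)
    (hτ : ∀ e ∈ bonds Γ g, τ e = τ' e) (hv : ∀ x ∈ g.region Γ.T, v x = v' x) :
    confRatio b Γ g row τ v = confRatio b Γ g row τ' v' := by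
  have e1 : onE Γ g τ = onE Γ g τ' := funext fun e => hτ e.1 e.2
  have e2 : onV Γ g v = onV Γ g v' := funext fun x => hv x.1 x.2
  unfold confRatio
  rw [e1, e2]

/-- the same two rules for the reference -/
theorem confEn_gauge (a : ℝ) (ha : 0 < a) (Γ : CGeom m₁ m₂) (g : DGrid m₁ m₂) {N : ℕ} (row : Fin N → Cell m₁ m₂ → ℝ) (τ : Bond → ℤ) (v : ℤ × ℤ → ℝ)
    (ψ : ℤ × ℤ → ℤ) (hψ : ∀ x ∈ g.region Γ.pin, ψ x = 0) :
    confEn a Γ g row (fun e => τ e + (ψ e.snd - ψ e.1)) v = confEn a Γ g row τ (fun x => v x + 2 * Real.pi * (ψ x : ℝ)) := by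
  have hmem : (fun x => 2 * Real.pi * ((onV Γ g ψ x : ℤ) : ℝ)) ∈ (rlaw Γ g row).rspan := by
    have h1 : (fun x => ((onV Γ g ψ x : ℤ) : ℝ)) ∈ (rlaw Γ g row).rspan :=
      Submodule.subset_span ⟨onV Γ g ψ, fun x hx => hψ _ hx, rfl⟩
    exact (rlaw Γ g row).rspan.smul_mem (2 * Real.pi) h1
  unfold confEn HLaw.gEn
  refine (Equiv.addRight (⟨_, hmem⟩ : (rlaw Γ g row).rspan)).iInf_congr fun w => ?_
  congr 1
  · congr 1
    unfold HLaw.en
    refine Finset.sum_congr rfl fun e => fun _ => ?_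
    show ((w : (Γ.graph g).V → ℝ) ((Γ.graph g).tgt e) + 2 * Real.pi * ((onV Γ g ψ ((Γ.graph g).tgt e) : ℤ) : ℝ)
        - ((w : (Γ.graph g).V → ℝ) ((Γ.graph g).src e) + 2 * Real.pi * ((onV Γ g ψ ((Γ.graph g).src e) : ℤ) : ℝ))
        + 2 * Real.pi * ((onE Γ g τ e : ℤ) : ℝ)) ^ 2 =
      ((w : (Γ.graph g).V → ℝ) ((Γ.graph g).tgt e) - (w : (Γ.graph g).V → ℝ) ((Γ.graph g).src e)
        + 2 * Real.pi * (((onE Γ g τ e + (onV Γ g ψ ((Γ.graph g).tgt e) - onV Γ g ψ ((Γ.graph g).src e)) : ℤ)) : ℝ)) ^ 2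
    push_cast
    ring
  · refine Finset.sum_congr rfl fun o _ => ?_
    congr 1
    show ∑ x, (rlaw Γ g row).B o x * ((w : (Γ.graph g).V → ℝ) x + 2 * Real.pi * ((onV Γ g ψ x : ℤ) : ℝ))
        - ∑ x, (rlaw Γ g row).B o x * (onV Γ g v x + 2 * Real.pi * ((onV Γ g ψ x : ℤ) : ℝ)) =
      ∑ x, (rlaw Γ g row).B o x * (w : (Γ.graph g).V → ℝ) x - ∑ x, (rlaw Γ g row).B o x * onV Γ g v x
    rw [← Finset.sum_sub_distrib, ← Finset.sum_sub_distrib]
    exact Finset.sum_congr rfl fun x _ => by ring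

theorem confEn_congr (a : ℝ) (Γ : CGeom m₁ m₂) (g : DGrid m₁ m₂) {N : ℕ} (row : Fin N → Cell m₁ m₂ → ℝ) (τ τ' : Bond → ℤ) (v v' : ℤ × ℤ → ℝ)
    (hτ : ∀ e ∈ bonds Γ g, τ e = τ' e) (hv : ∀ x ∈ g.region Γ.T, v x = v' x) :
    confEn a Γ g row τ v = confEn a Γ g row τ' v' := by
  have e1 : onE Γ g τ = onE Γ g τ' := funext fun e => hτ e.1 e.2
  have e2 : onV Γ g v = onV Γ g v' := funext fun x => hv x.1 x.2
  unfold confEn
  rw [e1, e2]

end Geo

end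

end Claimed.Agent.R285.Sec
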