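import Claimed.Agent.R285.Sec.Defs
import Claimed.Agent.R285.Read.C3
import Claimed.Agent.R285.Tor.Link

/-!
# ROW 285, layer Sec, file Imp: THE IMPORTS of the layer from [C]s2-3 (posts C2, C3), at fixed temperature, in the vocabulary of `Sec/Defs`.      NOT leaves of this layer.
`imp_tilt`, `imp_pin` are the named contracts of `Read/C3.lean` with `Scen` supplied by `scen_fixed` (`rlaw = C3.lawR` by `rfl`; `CGeom.NoDiag` v2 admits all cut geometries of this layer: every cut isolates).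
`scen_fixed` is linked: `Tor.lk_scen` (LINK FREE → PINS) + `C2.scaleCoef_fixed`.
-/

set_option autoImplicit false

namespace Claimed.Agent.R285.Sec

open Filter Topology S23
open scoped Classical

noncomputable section

theorem rlaw_eq {m₁ m₂ : ℕ} (Γ : CGeom m₁ m₂) (g : DGrid m₁ m₂) {N : ℕ} (row : Fin N → Cell m₁ m₂ → ℝ) :
    rlaw Γ g row = C3.lawR Γ g row := rfl

/-- IMPORT (C2 / FREE): [C]T2.4 + T2.5 on rectangles at a fixed temperature with `a(b) > 0`. -/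
theorem scen_fixed (b : ℝ) (hb : 0 < b) (ha : 0 < aLim b) (ν : ℕ → ℕ) (hν : Tendsto ν atTop atTop) :
    C3.Scen (aLim b) (fun _ => b) ν := Tor.lk_scen (C2.scaleCoef_fixed b hb ν hν) ha

variable {m₁ m₂ : ℕ}

/-- IMPORT [C]T3.1 = `C3.mixed_tilt`: hard pins, free or confined constants, moving bounded coefficients and centres. -/
theorem imp_tilt (b : ℝ) (hb : 0 < b) (ha : 0 < aLim b) (Γ : CGeom m₁ m₂) (hΓ : Γ.NoDiag) {N : ℕ} (row : Fin N → Cell m₁ m₂ → ℝ)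
    (K : ℕ) (g : ℕ → DGrid m₁ m₂) (ν : ℕ → ℕ) (hg : Admissible K g ν) (hOk : ∀ k, ((rlaw Γ (g k) row).sys b).Ok)
    (t : ℕ → Cell m₁ m₂ → ℝ) (c : ℕ → Fin N → ℝ) (Tb : ℝ) (ht : ∀ k κ, |t k κ| ≤ Tb) (hc : ∀ k o, |c k o| ≤ Tb)
    (X : ∀ k, ((rlaw Γ (g k) row).sys b).L →+ ℝ) (hX : ∀ k, (rlaw Γ (g k) row).Lift b (Γ.cellTest (g k) (t k)) (X k)) :
    Tendsto (fun k => 2 * Real.log (((rlaw Γ (g k) row).sys b).wT
          (HLaw.Aff.amb (H := rlaw Γ (g k) row) ⟨0, 0, c k⟩ b) (X k) / ((rlaw Γ (g k) row).sys b).w 0)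
        - (rlaw Γ (g k) row).gTilt (aLim b) 0 (c k) (Γ.cellTest (g k) (t k))) atTop (𝓝 0) :=
  C3.mixed_tilt Γ row (scen_fixed b hb ha ν hg.1) hΓ K g hg hOk t c Tb ht hc X hX

/-- IMPORT [C]T3.2, first assertion = `C3.pin_interaction`. -/
theorem imp_pin (b : ℝ) (hb : 0 < b) (ha : 0 < aLim b) (Γ : CGeom m₁ m₂) (hΓ : Γ.NoDiag) (hpin : Γ.pin = ∅) {N : ℕ} (row : Fin N → Cell m₁ m₂ → ℝ)
    (K : ℕ) (g : ℕ → DGrid m₁ m₂) (ν : ℕ → ℕ) (hg : Admissible K g ν)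
    (hP : ∀ k, (rlaw Γ (g k) row).Proper) (hOk : ∀ k, ((rlaw Γ (g k) row).sys b).Ok)
    (A p : Finset (Cell m₁ m₂)) (hsep : CSep A p) :
    Tendsto (fun k => (rlaw Γ (g k) row).dPin b (Γ.sites (g k) A) (Γ.sites (g k) p)
      - (rlaw Γ (g k) row).gPin (aLim b) (Γ.sites (g k) Γ.pin) (Γ.sites (g k) A) (Γ.sites (g k) p)) atTop (𝓝 0) :=
  C3.pin_interaction Γ row (scen_fixed b hb ha ν hg.1) hΓ hpin K g hg hP hOk A p hsep

end

end Claimed.Agent.R285.Sec
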