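import Claimed.Agent.R285.Sec.Defs

/-!
# ROW 285, layer Sec, leaf file Bridge: the quantities of `secDefect` in the vocabulary of the consumers (`F23.Phi`, `F23.En`, `S46.Fsec`, `S46.Men`, `S23.secRatio`, `S23.secEn`).      Paper-free.
PLAN.  For a law without observation `ratioL` and `gEn` depend only on the graph and on `Λ`.  `Γ.cutB g = ∅` if `Γ.cutF = ∅` (rewrite the graph: `subst`/`cast`-free route: prove a general lemma for `domG D cut`, `domG D cut'` with
`domBonds D cut = domBonds D cut'`, by the bijection of the index types of the bonds; `Equiv.tsum_eq`, `Fintype.prod_equiv`, `Equiv.iInf_congr`).  The empty observation types `Fin 0`, `Empty`, `H'.O` are matched by `IsEmpty.elim`.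
-/

set_option autoImplicit false

namespace Claimed.Agent.R285.Sec

open Filter Topology S23
open scoped Classical

noncomputable section

/-- the gradient of an integer height -/
def sec_grad (G : HGraph) : (G.V → ℤ) →+ (G.E → ℤ) where
  toFun h := fun e => h (G.tgt e) - h (G.src e)
  map_zero' := by ext; simp
  map_add' h h' := by ext; simp; ring

/-- the partition sum of a law without observation, as a function of the constraint lattice only -/
def sec_wv {G : HGraph} (Λ : AddSubgroup (G.V → ℤ)) (b : ℝ) (τ : G.E → ℤ) : ℝ :=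
  ∑' y : Λ.map (sec_grad G), ∏ e, bes b ((y : G.E → ℤ) e + τ e)

/-- the Gaussian cost of a law without observation, as a function of the constraint lattice only -/
def sec_gv {G : HGraph} (Λ : AddSubgroup (G.V → ℤ)) (a : ℝ) (θ : G.E → ℝ) : ℝ :=
  ⨅ v : Submodule.span ℝ ((fun h : G.V → ℤ => fun v => (h v : ℝ)) '' (Λ : Set (G.V → ℤ))),
    a⁻¹ * HLaw.en (v : G.V → ℝ) θ

theorem sec_w_eq {G : HGraph} (H : HLaw G) [IsEmpty H.O] (b : ℝ) (α : (H.sys b).Amb) :
    (H.sys b).w α = sec_wv H.Λ b α.1 := by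
  unfold LSys.w LSys.Zf sec_wv
  have hE : IsEmpty (H.sys b).O := inferInstanceAs (IsEmpty H.O)
  let φ : (H.sys b).L ≃ (H.Λ.map (sec_grad G)) :=
    { toFun := fun z => ⟨z.1.1, by
        obtain ⟨h, hh, hz⟩ := AddSubgroup.mem_map.1 z.2
        exact AddSubgroup.mem_map.2 ⟨h, hh, by rw [← hz]; rfl⟩⟩
      invFun := fun y => ⟨(y.1, isEmptyElim), by
        obtain ⟨h, hh, hz⟩ := AddSubgroup.mem_map.1 y.2
        refine AddSubgroup.mem_map.2 ⟨h, hh, ?_⟩
        refine Prod.ext ?_ (funext fun o => isEmptyElim o)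
        rw [← hz]; rfl⟩
      left_inv := fun z => Subtype.ext (Prod.ext rfl (funext fun o => isEmptyElim o))
      right_inv := fun y => rfl }
  rw [← φ.tsum_eq]
  apply tsum_congr
  intro z
  have h0 : (∑ o : (H.sys b).O, (((z : (H.sys b).Amb) + α).2 o) ^ 2) = 0 :=
    Finset.sum_eq_zero fun o _ => isEmptyElim (α := H.O) o
  unfold LSys.W
  rw [h0]
  simp only [neg_zero, zero_div, Real.exp_zero, mul_one, one_mul]
  rfl

theorem sec_gEn_eq {G : HGraph} (H : HLaw G) [IsEmpty H.O] (a : ℝ) (θ : G.E → ℝ) (c : H.O → ℝ) :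
    H.gEn a θ c = sec_gv H.Λ a θ := by
  unfold HLaw.gEn sec_gv
  apply iInf_congr
  intro v
  rw [Finset.sum_eq_zero fun o _ => isEmptyElim o, add_zero]

theorem sec_ratioL_eq {G : HGraph} (H : HLaw G) [IsEmpty H.O] (b : ℝ) (τ : G.E → ℤ) (c : H.O → ℝ) :
    H.ratioL b ⟨0, τ, c⟩ = sec_wv H.Λ b τ / sec_wv H.Λ b 0 := by
  unfold HLaw.ratioL
  rw [sec_w_eq, sec_w_eq]
  have h1 : ((⟨0, τ, c⟩ : H.Aff).amb b).1 = τ := by
    unfold HLaw.Aff.amb
    rw [map_zero, zero_add]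
  rw [h1]
  rfl

theorem sec_bridge_aux (b a : ℝ) (D : Finset (ℤ × ℤ)) (cut : Set Bond) (hc : cut = ∅) (A : Set (ℤ × ℤ)) (τ : Bond → ℤ)
    (H : HLaw (domG D cut)) [IsEmpty H.O] (hH : H.Λ = HLaw.pinned (domSet A)) (c : H.O → ℝ)
    (H' : HLaw (domG D ∅)) [IsEmpty H'.O] (hH' : H'.Λ = HLaw.pinned (domSet A)) (c' : H'.O → ℝ) :
    H.ratioL b ⟨0, domFnE τ, c⟩ = H'.ratioL b ⟨0, domFnE τ, c'⟩ ∧
      H.gEn a (fun e => 2 * Real.pi * ((domFnE τ e : ℤ) : ℝ)) c
        = H'.gEn a (fun e => 2 * Real.pi * ((domFnE τ e : ℤ) : ℝ)) c' := by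
  subst hc
  rw [sec_ratioL_eq, sec_ratioL_eq, sec_gEn_eq, sec_gEn_eq, hH, hH']
  exact ⟨rfl, rfl⟩

/-- bridge to any law without observation on `domG (region T) ∅` with hard pins on the pinned cells -/
theorem secDefect_eq (b : ℝ) {m₁ m₂ r : ℕ} (Γ : CGeom m₁ m₂) (hcut : Γ.cutF = ∅) (g : DGrid m₁ m₂) (R : Fin r → Ray)
    (H' : HLaw (domG (g.region Γ.T) ∅)) [IsEmpty H'.O] (hΛ : H'.Λ = HLaw.pinned (domSet (↑(g.region Γ.pin) : Set (ℤ × ℤ)))) (c : H'.O → ℝ) :
    secDefect b Γ g R = -2 * Real.log (H'.ratioL b ⟨0, domFnE (connB g R), c⟩)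
      - H'.gEn (aLim b) (fun e => 2 * Real.pi * ((domFnE (connB g R) e : ℤ) : ℝ)) c := by
  have hc : Γ.cutB g = ∅ := by
    ext e
    simp [CGeom.cutB, hcut]
  have : IsEmpty (rlaw Γ g noRow).O := inferInstanceAs (IsEmpty (Fin 0))
  obtain ⟨h1, h2⟩ := sec_bridge_aux b (aLim b) (g.region Γ.T) (Γ.cutB g) hc (↑(g.region Γ.pin) : Set (ℤ × ℤ)) (connB g R)
    (rlaw Γ g noRow) rfl 0 H' hΛ c
  unfold secDefect
  rw [← h1, ← h2]
  rfl

/-- without observation the coefficient factors out -/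
theorem gEn_scale {G : HGraph} (H : HLaw G) [IsEmpty H.O] (a : ℝ) (ha : 0 < a) (θ : G.E → ℝ) (c : H.O → ℝ) :
    H.gEn a θ c = a⁻¹ * H.gEn 1 θ c := by
  rw [sec_gEn_eq, sec_gEn_eq]
  unfold sec_gv
  rw [Real.mul_iInf_of_nonneg (inv_nonneg.2 ha.le)]
  simp

end

end Claimed.Agent.R285.Sec
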