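import Claimed.Agent.R285.Sec.LocSys

/-!
# ROW 285, POT-SEC-LOC, file 2: [S]L3.2 in reference form (architect helper126).   Paper-free, no sorry in this file.

`loc_localization` = the statement of `Sec.pot_localization` (without the unused hypotheses `NoDiag`, `pin = ∅`):  `loc_gPin_le` on the `s`-fold refined array with `r = s - 3`
(`CSep A A'` ⇒ index distance `≥ s + 1` of `fine s A`, `fine s A'`), number of cells `s² m₁ m₂`, and `s² e^{-c s} → 0`.   `N = 1`: uniform in the mesh.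
-/

set_option autoImplicit false

namespace Claimed.Agent.R285.Sec

open Filter Topology S23 Pot
open scoped Classical

noncomputable section

theorem loc_div_far {s a b : ℕ} (hs : 0 < s) (h : a / s + 1 < b / s) : a + s + 1 ≤ b := by
  have h1 := Nat.div_add_mod a s
  have h2 := Nat.div_add_mod b s
  have h3 := Nat.mod_lt a hs
  have h4 : s * (a / s + 2) ≤ s * (b / s) := Nat.mul_le_mul_left s h
  rw [Nat.mul_add] at h4
  omega

/-- separated coarse unions are at index distance `> s` in the `s`-fold refined array -/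
theorem loc_fine_dist {m₁ m₂ s : ℕ} {A A' : Finset (Cell m₁ m₂)} (hsep : CSep A A') {κ κ' : Cell (s * m₁) (s * m₂)}
    (h : κ ∈ fine s A) (h' : κ' ∈ fine s A') : s + 1 ≤ geoDist κ' κ := by
  have hs : 0 < s := by
    rcases Nat.eq_zero_or_pos s with h0 | h0
    · have h1 := κ.1.2
      have h2 : s * m₁ = 0 := by rw [h0, Nat.zero_mul]
      omega
    · exact h0
  have hA : coarse s κ ∈ A := (Finset.mem_filter.1 h).2
  have hA' : coarse s κ' ∈ A' := (Finset.mem_filter.1 h').2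
  by_contra hlt
  have hle : geoDist κ' κ ≤ s := by omega
  rw [geo_dist_le_iff] at hle
  have h4 : κ.1.1 / s + 1 < κ'.1.1 / s ∨ κ'.1.1 / s + 1 < κ.1.1 / s ∨ κ.2.1 / s + 1 < κ'.2.1 / s ∨ κ'.2.1 / s + 1 < κ.2.1 / s :=
    hsep _ hA _ hA'
  rcases h4 with h5 | h5 | h5 | h5 <;> have h6 := loc_div_far hs h5 <;> omega

theorem loc_limit (c C : ℝ) (hc : 0 < c) (ε : ℝ) (hε : 0 < ε) :
    ∃ s₀ : ℕ, ∀ s : ℕ, s₀ ≤ s → C * (s : ℝ) ^ 2 * Real.exp (-(c * s)) ≤ ε := by
  have h1 : Tendsto (fun s : ℕ => c * (s : ℝ)) atTop atTop :=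
    Tendsto.const_mul_atTop hc tendsto_natCast_atTop_atTop
  have h2 := (Real.tendsto_pow_mul_exp_neg_atTop_nhds_zero 2).comp h1
  have h3 : Tendsto (fun s : ℕ => C / c ^ 2 * ((c * (s : ℝ)) ^ 2 * Real.exp (-(c * s)))) atTop (𝓝 0) := by
    have := h2.const_mul (C / c ^ 2)
    rwa [mul_zero] at this
  obtain ⟨s₀, hs₀⟩ := eventually_atTop.1 (h3.eventually_le_const hε)
  refine ⟨s₀, fun s hs => le_trans (le_of_eq ?_) (hs₀ s hs)⟩
  field_simp

variable {m₁ m₂ : ℕ}

/-- **[S]L3.2 in reference form.** -/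
theorem loc_localization (a : ℝ) (ha : 0 < a) (Γ : CGeom m₁ m₂) (A A' : Finset (Cell m₁ m₂)) (hsep : CSep A A') (K : ℕ) (ε : ℝ) (hε : 0 < ε) :
    ∃ s₀ : ℕ, ∀ s, s₀ ≤ s → ∃ N : ℕ, ∀ (g : DGrid (s * m₁) (s * m₂)) (ν : ℕ), N ≤ ν → Scale K g ν →
      (rlaw (refine s Γ) g cellRow).gPin a ∅ ((refine s Γ).sites g (fine s A)) ((refine s Γ).sites g (fine s A')) ≤ ε := by
  set M : ℝ := pdM (locCP K a) (locK a) with hM
  set D : ℝ := M + 16 / 3 * (2 * locK a * locCR K a) ^ 2 with hD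
  have hM0 : 0 < M + 1 := by
    rw [hM]
    unfold pdM locCP locK
    positivity
  set c : ℝ := 1 / (3 * (M + 1)) with hc
  have hc0 : 0 < c := by positivity
  obtain ⟨s₀, hs₀⟩ := loc_limit c ((m₁ : ℝ) * m₂ * 3 * Real.exp (3 * c) * D / 2) hc0 ε hε
  refine ⟨max s₀ 4, fun s hs => ⟨1, fun g ν hν hg => ?_⟩⟩
  have hs4 : 4 ≤ s := le_trans (le_max_right _ _) hs
  have h1 := loc_gPin_le (refine s Γ) hν hg ha (fine s A) (fine s A') (r := s - 3) (by omega)
    (fun κ hκ κ' hκ' => by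
      have := loc_fine_dist hsep hκ hκ'
      omega)
  refine h1.trans (le_trans (le_of_eq ?_) (hs₀ s (le_trans (le_max_left _ _) hs)))
  have h2 : pdE (locCP K a) (locK a) (s - 3) = 3 * (Real.exp (3 * c) * Real.exp (-(c * s))) := by
    unfold pdE
    rw [← Real.exp_add, ← hM, Nat.cast_sub (by omega : 3 ≤ s)]
    congr 2
    rw [hc]
    push_cast
    field_simp
    ring
  rw [h2, ← hM, ← hD]
  push_cast
  ring

end

end Claimed.Agent.R285.Sec
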