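import Claimed.Agent.R285.Sec.Fin

/-!
# ROW 285, layer Sec: kit for centred pins (helper31).  `sec_pin_assoc` = positive association of centred pins, `sec_pPin_eq` = pin probability as a ratio of lattice sums.
-/

set_option autoImplicit false
namespace Claimed.Agent.R285.Sec
open Filter Topology S23
open scoped Classical
noncomputable section

/-- the same coordinates and temperatures with another lattice -/
def secWithL (S : LSys) (M : AddSubgroup S.Amb) : LSys := { E := S.E, O := S.O, b := S.b, L := M }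

/-- the image lattice of the heights pinned on `A` -/
def secPinL {G : HGraph} (H : HLaw G) (b : ℝ) (A : Set G.V) : AddSubgroup (H.sys b).Amb :=
  (H.Λ ⊓ HLaw.pinned A).map H.coord

theorem sec_addPin_sys {G : HGraph} (H : HLaw G) (b : ℝ) (A : Set G.V) :
    (H.addPin A).sys b = secWithL (H.sys b) (secPinL H b A) := rfl

theorem sec_sub_eq (S : LSys) (M : AddSubgroup S.Amb) : S.sub M = secWithL S (S.L ⊓ M) := rfl

theorem secPinL_le {G : HGraph} (H : HLaw G) (b : ℝ) (A : Set G.V) : secPinL H b A ≤ (H.sys b).L :=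
  AddSubgroup.map_mono inf_le_left

theorem sec_addPin_sys_sub {G : HGraph} (H : HLaw G) (b : ℝ) (A : Set G.V) :
    (H.addPin A).sys b = (H.sys b).sub (secPinL H b A) := by
  rw [sec_addPin_sys, sec_sub_eq, inf_eq_right.2 (secPinL_le H b A)]

theorem sec_addPin_ok {G : HGraph} (H : HLaw G) (b : ℝ) (hok : (H.sys b).Ok) (A : Set G.V) : ((H.addPin A).sys b).Ok := by
  rw [sec_addPin_sys_sub]
  exact lsys_ok_sub _ hok _

theorem sec_addPin_proper {G : HGraph} (H : HLaw G) (hP : H.Proper) (A : Set G.V) : (H.addPin A).Proper :=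
  fun h hh h0 => hP h hh.1 h0

theorem sec_amb_zero {G : HGraph} (H : HLaw G) (b : ℝ) : (HLaw.Aff.zero H).amb b = 0 := by
  unfold HLaw.Aff.amb HLaw.Aff.zero
  rw [map_zero, zero_add]
  refine Prod.ext rfl (funext fun o => ?_)
  show -(0 : ℝ) = 0
  simp

theorem sec_Z_zero {G : HGraph} (H : HLaw G) (hP : H.Proper) (b : ℝ) :
    H.Z b (HLaw.Aff.zero H) (fun _ => 1) = (H.sys b).w 0 := by
  rw [H.Z_eq_w hP, sec_amb_zero]

theorem sec_pPin_eq {G : HGraph} (H : HLaw G) (hP : H.Proper) (b : ℝ) (A : Set G.V) :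
    H.pPin b A = ((H.addPin A).sys b).w 0 / (H.sys b).w 0 := by
  unfold HLaw.pPin
  rw [sec_Z_zero H hP, sec_Z_zero _ (sec_addPin_proper H hP A)]

theorem sec_pinned_union {G : HGraph} (A A' : Set G.V) :
    (HLaw.pinned A ⊓ HLaw.pinned A' : AddSubgroup (G.V → ℤ)) = HLaw.pinned (A ∪ A') := by
  ext h
  constructor
  · rintro ⟨h1, h2⟩ v (hv | hv)
    · exact h1 v hv
    · exact h2 v hv
  · intro h1
    exact ⟨fun v hv => h1 v (Or.inl hv), fun v hv => h1 v (Or.inr hv)⟩

theorem sec_addPin_addPin {G : HGraph} (H : HLaw G) (A A' : Set G.V) : (H.addPin A).addPin A' = H.addPin (A ∪ A') := by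
  unfold HLaw.addPin
  simp only [inf_assoc, sec_pinned_union]

/-- the identity refinement to a pinned law -/
def secPinRef {G : HGraph} (H : HLaw G) (b : ℝ) (A : Set G.V) : LSys.Ref (H.sys b) ((H.addPin A).sys b) where
  iE := Function.Embedding.refl _
  iO := Function.Embedding.refl _
  hb _ := rfl
  map_mem := fun _ hz => secPinL_le H b A hz

theorem secPinL_inter {G : HGraph} (H : HLaw G) (hP : H.Proper) (b : ℝ) (A A' : Set G.V) :
    secPinL H b A' ⊓ secPinL H b A = secPinL H b (A ∪ A') := by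
  ext z
  constructor
  · rintro ⟨h1, h2⟩
    obtain ⟨h, hh, rfl⟩ := AddSubgroup.mem_map.1 h1
    obtain ⟨h', hh', he⟩ := AddSubgroup.mem_map.1 h2
    have : h' - h = 0 := hP _ (H.Λ.sub_mem hh'.1 hh.1) (by rw [map_sub]; exact sub_eq_zero.2 he)
    have e : h' = h := sub_eq_zero.1 this
    subst e
    refine AddSubgroup.mem_map.2 ⟨h', ⟨hh.1, ?_⟩, rfl⟩
    rw [← sec_pinned_union]
    exact ⟨hh'.2, hh.2⟩
  · intro h1
    obtain ⟨h, hh, rfl⟩ := AddSubgroup.mem_map.1 h1
    rw [← sec_pinned_union] at hh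
    exact ⟨AddSubgroup.mem_map.2 ⟨h, ⟨hh.1, hh.2.2⟩, rfl⟩, AddSubgroup.mem_map.2 ⟨h, ⟨hh.1, hh.2.1⟩, rfl⟩⟩

/-- **(K)** positive association of centred pins -/
theorem sec_pin_assoc {G : HGraph} (H : HLaw G) (b : ℝ) (hok : (H.sys b).Ok) (hP : H.Proper) (A A' : Set G.V) :
    ((H.addPin A).sys b).w 0 * ((H.addPin A').sys b).w 0 ≤ ((H.addPin (A ∪ A')).sys b).w 0 * (H.sys b).w 0 := by
  have h := lsys_event_mono (secPinRef H b A') hok (sec_addPin_ok H b hok A') (secPinL H b A)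
  have e1 : (H.sys b).sub (secPinL H b A) = (H.addPin A).sys b := (sec_addPin_sys_sub H b A).symm
  have e2 : ((H.addPin A').sys b).sub ((secPinL H b A).comap (secPinRef H b A').res) = (H.addPin (A ∪ A')).sys b := by
    rw [sec_addPin_sys H b (A ∪ A'), ← secPinL_inter H hP b A A']
    rfl
  rw [e1, e2, div_le_div_iff₀ (sec_w_pos _ hok _) (sec_w_pos _ (sec_addPin_ok H b hok A') _)] at h
  exact h

/-! ### cutting bonds and pins -/

section
variable {D : Finset (ℤ × ℤ)} {cut : Set Bond}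

theorem sec_recut_comap {cut' : Set Bond} (hcc : cut ⊆ cut') (H : HLaw (domG D cut)) (b : ℝ) (hP' : (recut H cut').Proper)
    (A : Set (domG D cut).V) :
    (H.sys b).L ⊓ (secPinL (recut H cut') b A).comap (recutRef hcc H b).res = secPinL H b A := by
  ext z
  constructor
  · rintro ⟨h1, h2⟩
    obtain ⟨h, hh, rfl⟩ := AddSubgroup.mem_map.1 h1
    obtain ⟨h', hh', he⟩ := AddSubgroup.mem_map.1 (AddSubgroup.mem_comap.1 h2)
    have key : ∀ k : (domG D cut').V → ℤ, k ∈ (recut H cut').Λ → (recut H cut').coord h' = (recut H cut').coord k → h' = k := by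
      intro k hk he'
      have : h' - k = 0 := hP' _ ((recut H cut').Λ.sub_mem hh'.1 hk) (by rw [map_sub]; exact sub_eq_zero.2 he')
      exact sub_eq_zero.1 this
    have e : h' = h := key h hh he
    subst e
    exact AddSubgroup.mem_map.2 ⟨h', hh', rfl⟩
  · intro h1
    obtain ⟨h, hh, rfl⟩ := AddSubgroup.mem_map.1 h1
    exact ⟨AddSubgroup.mem_map.2 ⟨h, hh.1, rfl⟩, AddSubgroup.mem_comap.2 (AddSubgroup.mem_map.2 ⟨h, hh, rfl⟩)⟩

/-- the probability of a centred pin increases when bonds are restored -/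
theorem sec_pin_recut {cut' : Set Bond} (hcc : cut ⊆ cut') (H : HLaw (domG D cut)) (b : ℝ)
    (hok : (H.sys b).Ok) (hok' : ((recut H cut').sys b).Ok) (hP' : (recut H cut').Proper) (A : Set (domG D cut).V) :
    (((recut H cut').addPin A).sys b).w 0 / ((recut H cut').sys b).w 0 ≤ ((H.addPin A).sys b).w 0 / (H.sys b).w 0 := by
  have h := lsys_event_mono (recutRef hcc H b) hok' hok (secPinL (recut H cut') b A)
  have e1 : ((recut H cut').sys b).sub (secPinL (recut H cut') b A) = ((recut H cut').addPin A).sys b :=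
    (sec_addPin_sys_sub (recut H cut') b A).symm
  have e2 : (H.sys b).sub ((secPinL (recut H cut') b A).comap (recutRef hcc H b).res) = (H.addPin A).sys b := by
    rw [sec_addPin_sys H b A, sec_sub_eq, sec_recut_comap hcc H b hP' A]
  rw [e1, e2] at h
  exact h

/-- the weight of a height function which is constant along the restored bonds -/
theorem sec_W_recut {cut' : Set Bond} (hcc : cut ⊆ cut') (H : HLaw (domG D cut)) (b : ℝ) (h : (domG D cut).V → ℤ)
    (hh : ∀ e : (domG D cut).E, domBond e ∈ cut' → h ((domG D cut).tgt e) = h ((domG D cut).src e)) :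
    (H.sys b).W (H.coordA b h) = bes b 0 ^ ((Finset.univ.map (recutRef hcc H b).iE)ᶜ).card
      * ((recut H cut').sys b).W ((recut H cut').coordA b h) := by
  unfold LSys.W
  rw [← mul_assoc]
  congr 1
  rw [← Finset.prod_mul_prod_compl (Finset.univ.map (recutRef hcc H b).iE), Finset.prod_map, mul_comm]
  congr 1
  rw [← Finset.prod_const]
  refine Finset.prod_congr rfl fun e he => ?_
  have h1 : domBond e ∈ cut' := by
    by_contra hc
    apply (Finset.mem_compl.1 he)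
    have hmem : domBond e ∈ domBonds D cut' := by
      have h2 : domBond e ∈ domBonds D cut := e.2
      rw [domBonds, Finset.mem_filter] at h2 ⊢
      exact ⟨h2.1, h2.2.1, hc⟩
    exact Finset.mem_map.2 ⟨⟨domBond e, hmem⟩, Finset.mem_univ _, rfl⟩
  show bes b (h ((domG D cut).tgt e) - h ((domG D cut).src e)) = bes b 0
  rw [hh e h1, sub_self]

theorem sec_w_recut {cut' : Set Bond} (hcc : cut ⊆ cut') (H : HLaw (domG D cut)) (b : ℝ)
    (hP : H.Proper) (hP' : (recut H cut').Proper) (X : Set (domG D cut).V)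
    (hX : ∀ e : (domG D cut).E, domBond e ∈ cut' → (domG D cut).tgt e ∈ X ∧ (domG D cut).src e ∈ X) :
    ((H.addPin X).sys b).w 0 = bes b 0 ^ ((Finset.univ.map (recutRef hcc H b).iE)ᶜ).card
      * (((recut H cut').addPin X).sys b).w 0 := by
  rw [← sec_Z_zero _ (sec_addPin_proper H hP X), ← sec_Z_zero _ (sec_addPin_proper _ hP' X)]
  unfold HLaw.Z
  rw [← tsum_mul_left]
  refine tsum_congr fun h => ?_
  rw [sec_amb_zero, sec_amb_zero, add_zero, add_zero, one_mul, one_mul]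
  exact sec_W_recut hcc H b h.1 fun e he => by
    rw [h.2.2 _ (hX e he).1, h.2.2 _ (hX e he).2]

end


variable {m₁ m₂ : ℕ}

theorem sec_cutB_mono (Γ : CGeom m₁ m₂) (F : Finset (CFace m₁ m₂)) (g : DGrid m₁ m₂) : Γ.cutB g ⊆ (addCut Γ F).cutB g := by
  rintro e ⟨f, hf, h⟩
  exact ⟨f, Finset.mem_union_left _ hf, h⟩

theorem sec_recut_rlaw (Γ : CGeom m₁ m₂) (F : Finset (CFace m₁ m₂)) (g : DGrid m₁ m₂) :
    recut (D := g.region Γ.T) (cut := Γ.cutB g) (rlaw Γ g cellRow) ((addCut Γ F).cutB g) = rlaw (addCut Γ F) g cellRow := rfl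

theorem sec_recut_rlaw_pin (Γ : CGeom m₁ m₂) (F : Finset (CFace m₁ m₂)) (g : DGrid m₁ m₂) (p : Finset (Cell m₁ m₂)) :
    recut (D := g.region Γ.T) (cut := Γ.cutB g) ((rlaw Γ g cellRow).addPin (Γ.sites g p)) ((addCut Γ F).cutB g)
      = (rlaw (addCut Γ F) g cellRow).addPin ((addCut Γ F).sites g p) := rfl

theorem sec_zG_zero (b : ℝ) (Γ : CGeom m₁ m₂) (g : DGrid m₁ m₂) (p : Finset (Cell m₁ m₂)) :
    zG b Γ g p 0 0 0 = (((rlaw Γ g cellRow).addPin (Γ.sites g p)).sys b).w 0 := by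
  unfold zG
  congr 1
  have := sec_amb_zero ((rlaw Γ g cellRow).addPin (Γ.sites g p)) b
  rw [← this]
  unfold HLaw.Aff.zero
  congr 2
  funext o
  show ∑ x, (rlaw Γ g cellRow).B o x * (0 : ℝ) = 0
  simp

theorem sec_zT_zero (b : ℝ) (Γ : CGeom m₁ m₂) (g : DGrid m₁ m₂) :
    zT b Γ g 0 0 = ((rlaw Γ g cellRow).sys b).w 0 := by
  unfold zT
  congr 1
  have := sec_amb_zero (rlaw Γ g cellRow) b
  rw [← this]
  unfold HLaw.Aff.zero
  congr 2
  funext o
  show ∑ x, (rlaw Γ g cellRow).B o x * (0 : ℝ) = 0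
  simp


/-- a bond of the geometry which crosses the face `f` ends in the neighbour cell -/
theorem sec_cross_nbr (g : DGrid m₁ m₂) {f : CFace m₁ m₂} {e : Bond} {κ : Cell m₁ m₂} (h2 : e.2 = f.2) (h1 : e.1 ∈ g.cell f.1)
    (h3 : e.snd ∉ g.cell f.1) (h4 : e.snd ∈ g.cell κ) : FaceNbr f κ := by
  obtain ⟨⟨x, y⟩, d⟩ := e
  obtain ⟨⟨i, j⟩, d'⟩ := f
  obtain ⟨i', j'⟩ := κ
  simp only at h2
  subst h2
  rw [sec_mem_cell] at h1 h3 h4
  cases d
  · simp only [Bond.snd, Bool.false_eq_true, if_false] at h1 h3 h4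
    simp only [FaceNbr, Bool.false_eq_true, if_false]
    have hy : y + 1 = g.x₂ j.succ := by
      by_contra hne
      exact h3 ⟨h1.1, by omega, by omega⟩
    refine ⟨le_antisymm (sec_idx_le g.mono₁ h4.1.1 h1.1.2) (sec_idx_le g.mono₁ h1.1.1 h4.1.2), ?_⟩
    have a1 : j'.castSucc ≤ j.succ := g.mono₂.le_iff_le.1 (by rw [← hy]; exact h4.2.1)
    have a2 : j.succ < j'.succ := g.mono₂.lt_iff_lt.1 (by rw [← hy]; exact h4.2.2)
    rw [Fin.le_def] at a1
    rw [Fin.lt_def] at a2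
    simp only [Fin.val_castSucc, Fin.val_succ] at a1 a2
    omega
  · simp only [Bond.snd, if_true] at h1 h3 h4
    simp only [FaceNbr, if_true]
    have hx : x + 1 = g.x₁ i.succ := by
      by_contra hne
      exact h3 ⟨⟨by omega, by omega⟩, h1.2⟩
    refine ⟨?_, le_antisymm (sec_idx_le g.mono₂ h4.2.1 h1.2.2) (sec_idx_le g.mono₂ h1.2.1 h4.2.2)⟩
    have a1 : i'.castSucc ≤ i.succ := g.mono₁.le_iff_le.1 (by rw [← hx]; exact h4.1.1)
    have a2 : i.succ < i'.succ := g.mono₁.lt_iff_lt.1 (by rw [← hx]; exact h4.1.2)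
    rw [Fin.le_def] at a1
    rw [Fin.lt_def] at a2
    simp only [Fin.val_castSucc, Fin.val_succ] at a1 a2
    omega

theorem sec_restored_ends (Γ : CGeom m₁ m₂) (F : Finset (CFace m₁ m₂)) (g : DGrid m₁ m₂) (A : Finset (Cell m₁ m₂))
    (hF : ∀ f ∈ F, ∀ κ', FaceNbr f κ' → f.1 ∈ A ∧ κ' ∈ A) (e : (Γ.graph g).E)
    (he : domBond (D := g.region Γ.T) (cut := Γ.cutB g) e ∈ (addCut Γ F).cutB g) :
    (Γ.graph g).tgt e ∈ Γ.sites g A ∧ (Γ.graph g).src e ∈ Γ.sites g A := by
  obtain ⟨f, hf, h2, h1, h3⟩ := he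
  have hb : domBond (D := g.region Γ.T) (cut := Γ.cutB g) e ∈ domBonds (g.region Γ.T) (Γ.cutB g) := e.2
  have hfF : f ∈ F := by
    rcases Finset.mem_union.1 hf with h | h
    · exact absurd ⟨f, h, h2, h1, h3⟩ (Finset.mem_filter.1 hb).2.2
    · exact h
  obtain ⟨κ, hκ, h4⟩ := Finset.mem_biUnion.1 (domBonds_snd hb)
  have hn := hF f hfF κ (sec_cross_nbr g h2 h1 h3 h4)
  exact ⟨Finset.mem_coe.2 (Finset.mem_biUnion.2 ⟨κ, hn.2, h4⟩), Finset.mem_coe.2 (Finset.mem_biUnion.2 ⟨f.1, hn.1, h1⟩)⟩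

theorem sec_exp_dPin {G : HGraph} (H : HLaw G) (b : ℝ) (hok : (H.sys b).Ok) (hP : H.Proper) (A A' : Set G.V) :
    Real.exp (H.dPin b A A') = ((H.addPin (A ∪ A')).sys b).w 0 * (H.sys b).w 0 / (((H.addPin A).sys b).w 0 * ((H.addPin A').sys b).w 0) := by
  unfold HLaw.dPin
  rw [sec_pPin_eq H hP, sec_pPin_eq H hP, sec_pPin_eq H hP]
  have h0 := sec_w_pos _ hok 0
  have h1 := sec_w_pos _ (sec_addPin_ok H b hok A) 0
  have h2 := sec_w_pos _ (sec_addPin_ok H b hok A') 0
  have h3 := sec_w_pos _ (sec_addPin_ok H b hok (A ∪ A')) 0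
  rw [Real.exp_sub, Real.exp_sub, Real.exp_log (div_pos h3 h0), Real.exp_log (div_pos h1 h0), Real.exp_log (div_pos h2 h0)]
  field_simp


end

end Claimed.Agent.R285.Sec
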