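import Claimed.Agent.R285.Sec.Ref

/-!
# ROW 285, layer Sec, file Flow: sums over the graph of a geometry as sums over `ℤ²`; the reference space of a pinned law; the exact discrete minimiser and its flow (route R2); divergences of flows carried by few bonds.      NO sorry.
-/

set_option autoImplicit false

namespace Claimed.Agent.R285.Sec

open Filter Topology S23
open scoped Classical

noncomputable section

/-! ### the reference space of coordinate pins -/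

theorem mem_rspan_pinned {G : HGraph} (H : HLaw G) (P : Set G.V) (hΛ : H.Λ = HLaw.pinned P) (u : G.V → ℝ) :
    u ∈ H.rspan ↔ ∀ x ∈ P, u x = 0 := by
  constructor
  · intro hu
    unfold HLaw.rspan at hu
    induction hu using Submodule.span_induction with
    | mem y hy =>
      obtain ⟨h, hh, rfl⟩ := hy
      intro x hx
      rw [hΛ] at hh
      have : h x = 0 := hh x hx
      simp [this]
    | zero => intro x _; rfl
    | add y z _ _ hy hz => intro x hx; simp [hy x hx, hz x hx]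
    | smul t y _ hy => intro x hx; simp [hy x hx]
  · intro hu
    have e : u = ∑ x, u x • (fun v => (((Pi.single x (1 : ℤ) : G.V → ℤ) v : ℤ) : ℝ)) := by
      funext v
      simp only [Finset.sum_apply, Pi.smul_apply, smul_eq_mul]
      rw [Finset.sum_eq_single v]
      · simp
      · intro x _ hx
        simp [Ne.symm hx]
      · intro h; exact absurd (Finset.mem_univ v) h
    rw [e]
    refine Submodule.sum_mem _ fun x _ => ?_
    by_cases hx : x ∈ P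
    · rw [hu x hx, zero_smul]; exact Submodule.zero_mem _
    · refine Submodule.smul_mem _ _ (Submodule.subset_span ⟨Pi.single x 1, ?_, rfl⟩)
      rw [hΛ]
      intro y hy
      have : y ≠ x := fun h => hx (h ▸ hy)
      simp [this]

variable {m₁ m₂ : ℕ}

/-! ### sums over the graph -/

theorem sum_E (Γ : CGeom m₁ m₂) (g : DGrid m₁ m₂) (F : Bond → ℝ) :
    ∑ e : (Γ.graph g).E, F (domBond (D := g.region Γ.T) (cut := Γ.cutB g) e) = ∑ e ∈ bonds Γ g, F e :=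
  Finset.sum_coe_sort (bonds Γ g) F

theorem sum_V (Γ : CGeom m₁ m₂) (g : DGrid m₁ m₂) (F : ℤ × ℤ → ℝ) :
    ∑ x : (Γ.graph g).V, F (domPos (D := g.region Γ.T) (cut := Γ.cutB g) x) = ∑ x ∈ g.region Γ.T, F x :=
  Finset.sum_coe_sort (g.region Γ.T) F

theorem onV_mem_rspan (Γ : CGeom m₁ m₂) (g : DGrid m₁ m₂) {N : ℕ} (row : Fin N → Cell m₁ m₂ → ℝ) (u : ℤ × ℤ → ℝ)
    (hu : ∀ x ∈ g.region Γ.pin, u x = 0) : onV Γ g u ∈ (rlaw Γ g row).rspan :=
  (mem_rspan_pinned (rlaw Γ g row) (Γ.sites g Γ.pin) rfl _).2 fun _ hx => hu _ hx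

/-- extension by zero -/
def extV (Γ : CGeom m₁ m₂) (g : DGrid m₁ m₂) (v : (Γ.graph g).V → ℝ) : ℤ × ℤ → ℝ :=
  fun x => if h : x ∈ g.region Γ.T then v (⟨x, h⟩ : {x : ℤ × ℤ // x ∈ g.region Γ.T}) else 0

theorem onV_extV (Γ : CGeom m₁ m₂) (g : DGrid m₁ m₂) (v : (Γ.graph g).V → ℝ) : onV Γ g (extV Γ g v) = v := by
  funext x
  have hx : domPos (D := g.region Γ.T) (cut := Γ.cutB g) x ∈ g.region Γ.T := x.2
  show extV Γ g v (domPos (D := g.region Γ.T) (cut := Γ.cutB g) x) = v x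
  unfold extV
  rw [dif_pos hx]
  rfl

theorem extV_pin (Γ : CGeom m₁ m₂) (g : DGrid m₁ m₂) {N : ℕ} (row : Fin N → Cell m₁ m₂ → ℝ) (v : (Γ.graph g).V → ℝ)
    (hv : v ∈ (rlaw Γ g row).rspan) (x : ℤ × ℤ) (hx : x ∈ g.region Γ.pin) : extV Γ g v x = 0 := by
  unfold extV
  split_ifs with h
  · exact (mem_rspan_pinned (rlaw Γ g row) (Γ.sites g Γ.pin) rfl _).1 hv _ hx
  · rfl

theorem extV_off (Γ : CGeom m₁ m₂) (g : DGrid m₁ m₂) (v : (Γ.graph g).V → ℝ) (x : ℤ × ℤ) (hx : x ∉ g.region Γ.T) : extV Γ g v x = 0 := by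
  unfold extV
  rw [dif_neg hx]

/-- the gradient of a restricted function -/
theorem onV_grad (Γ : CGeom m₁ m₂) (g : DGrid m₁ m₂) (u : ℤ × ℤ → ℝ) (e : (Γ.graph g).E) :
    onV Γ g u ((Γ.graph g).tgt e) - onV Γ g u ((Γ.graph g).src e)
      = u (domBond (D := g.region Γ.T) (cut := Γ.cutB g) e).snd - u (domBond (D := g.region Γ.T) (cut := Γ.cutB g) e).1 := rfl

theorem secDefect_eq_conf (b : ℝ) {r : ℕ} (Γ : CGeom m₁ m₂) (g : DGrid m₁ m₂) (R : Fin r → Ray) :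
    secDefect b Γ g R = -2 * Real.log (confRatio b Γ g noRow (connB g R) 0) - confEn (aLim b) Γ g noRow (connB g R) 0 := by
  have e : ((rlaw Γ g noRow).obs (onV Γ g (0 : ℤ × ℤ → ℝ))) = 0 := by
    funext o; exact o.elim0
  unfold secDefect confRatio confEn
  rw [e]
  rfl

/-- **the exact discrete minimiser and its flow** (route R2). -/
theorem exists_min_flow (a : ℝ) (ha : 0 < a) (Γ : CGeom m₁ m₂) (g : DGrid m₁ m₂) (τ : Bond → ℤ) :
    ∃ (v : ℤ × ℤ → ℝ) (w : Bond → ℝ),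
      (∀ x ∈ g.region Γ.pin, v x = 0) ∧
      (∀ e ∈ bonds Γ g, w e = a⁻¹ * (v e.snd - v e.1 + 2 * Real.pi * (τ e : ℝ))) ∧
      (∀ e, e ∉ bonds Γ g → w e = 0) ∧
      confEn a Γ g noRow τ 0 = a * ∑ e ∈ bonds Γ g, w e ^ 2 ∧
      ∑ e ∈ bonds Γ g, w e * (2 * Real.pi * (τ e : ℝ)) = confEn a Γ g noRow τ 0 ∧
      ∀ u : ℤ × ℤ → ℝ, (∀ x ∈ g.region Γ.pin, u x = 0) → ∑ e ∈ bonds Γ g, w e * (u e.snd - u e.1) = 0 := by
  set H := rlaw Γ g noRow with hH
  set θ : (Γ.graph g).E → ℝ := fun e => 2 * Real.pi * ((onE Γ g τ e : ℤ) : ℝ) with hθ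
  obtain ⟨v, hv, hE, hEL⟩ := gEn_min H a ha θ (H.obs (onV Γ g (0 : ℤ × ℤ → ℝ)))
  have hai : a⁻¹ ≠ 0 := (inv_pos.2 ha).ne'
  set v' := extV Γ g v with hv'
  set w : Bond → ℝ := fun e => if e ∈ bonds Γ g then a⁻¹ * (v' e.snd - v' e.1 + 2 * Real.pi * (τ e : ℝ)) else 0 with hw
  have hw1 : ∀ e ∈ bonds Γ g, w e = a⁻¹ * (v' e.snd - v' e.1 + 2 * Real.pi * (τ e : ℝ)) := fun e he => by
    simp only [hw, if_pos he]
  have hvv : onV Γ g v' = v := onV_extV Γ g v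
  -- gradient of `v` through `v'`
  have hgr : ∀ e : (Γ.graph g).E, v ((Γ.graph g).tgt e) - v ((Γ.graph g).src e) + θ e
      = a * w (domBond (D := g.region Γ.T) (cut := Γ.cutB g) e) := by
    intro e
    have he : domBond (D := g.region Γ.T) (cut := Γ.cutB g) e ∈ bonds Γ g := e.2
    rw [hw1 _ he, ← mul_assoc, mul_inv_cancel₀ ha.ne', one_mul, ← onV_grad, hvv]
    rfl
  have hsum0 : ∀ F : H.O → ℝ, ∑ o, F o = 0 := fun F => Finset.sum_eq_zero fun o _ => o.elim0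
  -- Euler-Lagrange
  have hEL' : ∀ u : ℤ × ℤ → ℝ, (∀ x ∈ g.region Γ.pin, u x = 0) → ∑ e ∈ bonds Γ g, w e * (u e.snd - u e.1) = 0 := by
    intro u hu
    have h1 := hEL _ (onV_mem_rspan Γ g noRow u hu)
    rw [hsum0, add_zero] at h1
    have h2 : ∑ e : (Γ.graph g).E, (v ((Γ.graph g).tgt e) - v ((Γ.graph g).src e) + θ e) * (onV Γ g u ((Γ.graph g).tgt e) - onV Γ g u ((Γ.graph g).src e))
        = a * ∑ e ∈ bonds Γ g, w e * (u e.snd - u e.1) := by
      rw [← sum_E Γ g (fun e => w e * (u e.snd - u e.1)), Finset.mul_sum]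
      refine Finset.sum_congr rfl fun e _ => ?_
      rw [hgr e, onV_grad]; ring
    rw [h2] at h1
    have h3 := (mul_eq_zero.1 h1).resolve_left hai
    exact (mul_eq_zero.1 h3).resolve_left ha.ne'
  have hen : HLaw.en v θ = a ^ 2 * ∑ e ∈ bonds Γ g, w e ^ 2 := by
    rw [← sum_E Γ g (fun e => w e ^ 2), Finset.mul_sum, HLaw.en]
    refine Finset.sum_congr rfl fun e _ => ?_
    rw [hgr e]; ring
  have hE' : confEn a Γ g noRow τ 0 = a * ∑ e ∈ bonds Γ g, w e ^ 2 := by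
    have : confEn a Γ g noRow τ 0 = H.gEn a θ (H.obs (onV Γ g (0 : ℤ × ℤ → ℝ))) := rfl
    rw [this, hE, hsum0, add_zero, hen]
    field_simp
  have hpin : ∀ x ∈ g.region Γ.pin, v' x = 0 := fun x hx => extV_pin Γ g noRow v hv x hx
  refine ⟨v', w, hpin, hw1, fun e he => by simp only [hw, if_neg he], hE', ?_, hEL'⟩
  -- `∑ w θ = a ∑ w² - ∑ w ∇v = a ∑ w²`
  rw [hE']
  have h4 := hEL' v' hpin
  have h5 : ∑ e ∈ bonds Γ g, w e * (2 * Real.pi * (τ e : ℝ)) + ∑ e ∈ bonds Γ g, w e * (v' e.snd - v' e.1) = a * ∑ e ∈ bonds Γ g, w e ^ 2 := by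
    rw [← Finset.sum_add_distrib, Finset.mul_sum]
    refine Finset.sum_congr rfl fun e he => ?_
    have : v' e.snd - v' e.1 + 2 * Real.pi * (τ e : ℝ) = a * w e := by
      rw [hw1 e he, ← mul_assoc, mul_inv_cancel₀ ha.ne', one_mul]
    calc w e * (2 * Real.pi * (τ e : ℝ)) + w e * (v' e.snd - v' e.1) = w e * (v' e.snd - v' e.1 + 2 * Real.pi * (τ e : ℝ)) := by ring
      _ = a * w e ^ 2 := by rw [this]; ring
  rw [h4, add_zero] at h5
  exact h5

/-! ### divergences -/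

/-- the row vector of `u ↦ ∑_{e ∈ B} w_e ∇_e u` -/
def bdiv (B : Finset Bond) (w : Bond → ℝ) : ℤ × ℤ → ℝ :=
  fun x => ∑ e ∈ B, w e * ((if e.snd = x then 1 else 0) - (if e.1 = x then 1 else 0))

theorem sum_bdiv (B : Finset Bond) (w : Bond → ℝ) (X : Finset (ℤ × ℤ)) (hX : ∀ e ∈ B, e.1 ∈ X ∧ e.snd ∈ X) (u : ℤ × ℤ → ℝ) :
    ∑ x ∈ X, bdiv B w x * u x = ∑ e ∈ B, w e * (u e.snd - u e.1) := by
  unfold bdiv
  simp only [Finset.sum_mul]
  rw [Finset.sum_comm]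
  refine Finset.sum_congr rfl fun e he => ?_
  have h1 : ∑ x ∈ X, (if e.snd = x then (1 : ℝ) else 0) * u x = u e.snd := by
    simp [(hX e he).2]
  have h2 : ∑ x ∈ X, (if e.1 = x then (1 : ℝ) else 0) * u x = u e.1 := by
    simp [(hX e he).1]
  calc ∑ x ∈ X, w e * ((if e.snd = x then 1 else 0) - (if e.1 = x then 1 else 0)) * u x
      = w e * (∑ x ∈ X, (if e.snd = x then (1 : ℝ) else 0) * u x - ∑ x ∈ X, (if e.1 = x then (1 : ℝ) else 0) * u x) := by
        rw [← Finset.sum_sub_distrib, Finset.mul_sum]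
        exact Finset.sum_congr rfl fun x _ => by ring
    _ = _ := by rw [h1, h2]

theorem bdiv_support (B : Finset Bond) (w : Bond → ℝ) (x : ℤ × ℤ) (hx : bdiv B w x ≠ 0) : ∃ e ∈ B, e.1 = x ∨ e.snd = x := by
  by_contra hcon
  push Not at hcon
  apply hx
  unfold bdiv
  refine Finset.sum_eq_zero fun e he => ?_
  rw [if_neg (hcon e he).2, if_neg (hcon e he).1]; ring

theorem bond_snd_injOn (d : Bool) : Set.InjOn Bond.snd {e : Bond | e.2 = d} := by
  rintro ⟨⟨x, y⟩, d1⟩ h1 ⟨⟨x', y'⟩, d2⟩ h2 h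
  have h1' : d1 = d := h1
  have h2' : d2 = d := h2
  subst h1'; subst h2'
  cases d2 <;> simp [Bond.snd] at h <;> simp [h.1, h.2]

/-- every site is an endpoint of at most four bonds -/
theorem sum_endpoints_le (B : Finset Bond) (X : Finset (ℤ × ℤ)) (hX : ∀ e ∈ B, e.1 ∈ X ∧ e.snd ∈ X) (φ : ℤ × ℤ → ℝ) :
    ∑ e ∈ B, (φ e.1 ^ 2 + φ e.snd ^ 2) ≤ 4 * ∑ x ∈ X, φ x ^ 2 := by
  have key : ∀ (d : Bool) (p : Bond → ℤ × ℤ), Set.InjOn p {e : Bond | e.2 = d} → (∀ e ∈ B, p e ∈ X) →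
      ∑ e ∈ B.filter (fun e => e.2 = d), φ (p e) ^ 2 ≤ ∑ x ∈ X, φ x ^ 2 := by
    intro d p hp hpX
    have hinj : Set.InjOn p (↑(B.filter fun e => e.2 = d) : Set Bond) := fun e he e' he' h =>
      hp (Finset.mem_filter.1 he).2 (Finset.mem_filter.1 he').2 h
    rw [← Finset.sum_image (f := fun x => φ x ^ 2) hinj]
    refine Finset.sum_le_sum_of_subset_of_nonneg ?_ fun x _ _ => sq_nonneg _
    intro x hx
    obtain ⟨e, he, rfl⟩ := Finset.mem_image.1 hx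
    exact hpX e (Finset.mem_filter.1 he).1
  have hfst : ∀ d : Bool, Set.InjOn (fun e : Bond => e.1) {e : Bond | e.2 = d} := by
    rintro d ⟨x, d1⟩ h1 ⟨x', d2⟩ h2 h
    have h1' : d1 = d := h1
    have h2' : d2 = d := h2
    have h' : x = x' := h
    rw [h', h1', h2']
  have split : ∀ F : Bond → ℝ, ∑ e ∈ B, F e = ∑ e ∈ B.filter (fun e => e.2 = true), F e + ∑ e ∈ B.filter (fun e => e.2 = false), F e := by
    intro F
    rw [← Finset.sum_filter_add_sum_filter_not B (fun e => e.2 = true)]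
    congr 1
    refine Finset.sum_congr ?_ fun _ _ => rfl
    ext e; simp
  rw [Finset.sum_add_distrib, split (fun e => φ e.1 ^ 2), split (fun e => φ e.snd ^ 2)]
  have a1 := key true (fun e => e.1) (hfst true) fun e he => (hX e he).1
  have a2 := key false (fun e => e.1) (hfst false) fun e he => (hX e he).1
  have a3 := key true Bond.snd (bond_snd_injOn true) fun e he => (hX e he).2
  have a4 := key false Bond.snd (bond_snd_injOn false) fun e he => (hX e he).2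
  linarith

/-- Cauchy-Schwarz for a flow carried by `B` against a gradient: only the values at the endpoints matter -/
theorem flow_pair_sq_le (B : Finset Bond) (w : Bond → ℝ) (X : Finset (ℤ × ℤ)) (hX : ∀ e ∈ B, e.1 ∈ X ∧ e.snd ∈ X) (φ : ℤ × ℤ → ℝ) :
    (∑ e ∈ B, w e * (φ e.snd - φ e.1)) ^ 2 ≤ 8 * (∑ e ∈ B, w e ^ 2) * ∑ x ∈ X, φ x ^ 2 := by
  have h1 := Finset.sum_mul_sq_le_sq_mul_sq B w (fun e => φ e.snd - φ e.1)
  have h2 : ∑ e ∈ B, (φ e.snd - φ e.1) ^ 2 ≤ 2 * ∑ e ∈ B, (φ e.1 ^ 2 + φ e.snd ^ 2) := by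
    rw [Finset.mul_sum]
    refine Finset.sum_le_sum fun e _ => ?_
    nlinarith [sq_nonneg (φ e.snd + φ e.1)]
  have h3 := sum_endpoints_le B X hX φ
  have h4 : 0 ≤ ∑ e ∈ B, w e ^ 2 := Finset.sum_nonneg fun e _ => sq_nonneg _
  calc (∑ e ∈ B, w e * (φ e.snd - φ e.1)) ^ 2 ≤ (∑ e ∈ B, w e ^ 2) * ∑ e ∈ B, (φ e.snd - φ e.1) ^ 2 := h1
    _ ≤ (∑ e ∈ B, w e ^ 2) * (8 * ∑ x ∈ X, φ x ^ 2) := mul_le_mul_of_nonneg_left (by linarith) h4
    _ = _ := by ring

theorem bdiv_sq_le (B : Finset Bond) (w : Bond → ℝ) (X : Finset (ℤ × ℤ)) (hX : ∀ e ∈ B, e.1 ∈ X ∧ e.snd ∈ X) :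
    ∑ x ∈ X, bdiv B w x ^ 2 ≤ 8 * ∑ e ∈ B, w e ^ 2 := by
  set S := ∑ x ∈ X, bdiv B w x ^ 2 with hS
  have h1 : S = ∑ e ∈ B, w e * (bdiv B w e.snd - bdiv B w e.1) := by
    rw [← sum_bdiv B w X hX, hS]
    exact Finset.sum_congr rfl fun x _ => by ring
  have h2 := flow_pair_sq_le B w X hX (bdiv B w)
  rw [← h1, ← hS] at h2
  have hS0 : 0 ≤ S := Finset.sum_nonneg fun x _ => sq_nonneg _
  by_contra hcon
  push Not at hcon
  have hpos : 0 < S := lt_of_le_of_lt (by positivity) hcon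
  nlinarith

end

end Claimed.Agent.R285.Sec
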