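import Claimed.Agent.R285.Sec.Grid
import Claimed.Agent.R285.Sec.Flow

/-!
# ROW 285, layer Sec, file RectPot: the explicit ramp in the corridors of a system of strings; `pot_sector_bdd` (SEC-RECT-C).      NO sorry.
Trial function of one string: `π chg (δ + 1)/h` below, `- π chg δ'/h'` above the string inside the corridor, `0` elsewhere.  Every bond of the graph then carries `|∇ v + θ| ≤ π |chg| / ν`
(behind both ends of the corridor there is no cell), and the graph has at most `2 m₁ m₂ (K ν)²` bonds.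
-/

set_option autoImplicit false

namespace Claimed.Agent.R285.Sec

open Filter Topology S23
open scoped Classical

noncomputable section

variable {m₁ m₂ r : ℕ}

/-! ### grid lines with natural indices -/

theorem secGrX_mono {m : ℕ} {x : Fin (m + 1) → ℤ} (hx : StrictMono x) : Monotone (secGrX x) := by
  intro a b hab
  unfold secGrX
  refine hx.monotone (Fin.le_def.2 ?_)
  show min a m ≤ min b m
  omega

theorem secGrX_lt {m : ℕ} {x : Fin (m + 1) → ℤ} (hx : StrictMono x) {a b : ℕ} (hab : a < b) (hb : b ≤ m) :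
    secGrX x a < secGrX x b := by
  unfold secGrX
  refine hx (Fin.lt_def.2 ?_)
  show min a m < min b m
  omega

theorem sec_rp_mem_cell (g : DGrid m₁ m₂) (κ : Cell m₁ m₂) (x : ℤ × ℤ) :
    x ∈ g.cell κ ↔ (secGrX g.x₁ κ.1.1 ≤ x.1 ∧ x.1 < secGrX g.x₁ (κ.1.1 + 1)) ∧
      (secGrX g.x₂ κ.2.1 ≤ x.2 ∧ x.2 < secGrX g.x₂ (κ.2.1 + 1)) := by
  rw [sec_gr_mem_cell, ← secGrX_val g.x₁ κ.1.castSucc, ← secGrX_val g.x₁ κ.1.succ, ← secGrX_val g.x₂ κ.2.castSucc,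
    ← secGrX_val g.x₂ κ.2.succ]
  rfl

/-- the index of the interval of a point: lower bound -/
theorem sec_rp_ge {X : ℕ → ℤ} (hX : Monotone X) {a i : ℕ} {t : ℤ} (h1 : X a ≤ t) (h2 : t < X (i + 1)) : a ≤ i := by
  by_contra h
  have := hX (show i + 1 ≤ a by omega)
  omega

/-- the index of the interval of a point: upper bound -/
theorem sec_rp_lt {X : ℕ → ℤ} (hX : Monotone X) {b i : ℕ} {t : ℤ} (h1 : X i ≤ t) (h2 : t < X b) : i < b := by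
  by_contra h
  have := hX (show b ≤ i by omega)
  omega

/-- a point between two lines lies in an interval between them -/
theorem sec_rp_find {m : ℕ} (x : Fin (m + 1) → ℤ) {a b : ℕ} (hab : a ≤ b) (hb : b ≤ m) {t : ℤ} (h1 : secGrX x a ≤ t)
    (h2 : t < secGrX x b) : ∃ i : Fin m, a ≤ i.1 ∧ i.1 < b ∧ secGrX x i.1 ≤ t ∧ t < secGrX x (i.1 + 1) := by
  obtain ⟨i, a1, a2, a3, a4⟩ := sec_gr_find x t a b (by omega) (by omega)
    (by rw [← secGrX_val x ⟨a, by omega⟩]; exact h1) (by rw [← secGrX_val x ⟨b, by omega⟩]; exact h2) hab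
  refine ⟨i, a1, a2, ?_, ?_⟩
  · rw [← secGrX_val x i.castSucc] at a3; exact a3
  · rw [← secGrX_val x i.succ] at a4; exact a4

/-! ### the ramp -/

/-- the profile across the corridor `[y₀, y₂)` with the string at `y₁` -/
def secRamp (c : ℝ) (y₀ y₁ y₂ : ℤ) (y : ℤ) : ℝ :=
  if y₀ ≤ y ∧ y < y₁ then c * ((y - y₀ + 1 : ℤ) : ℝ) / ((y₁ - y₀ : ℤ) : ℝ)
  else if y₁ ≤ y ∧ y < y₂ then -(c * ((y₂ - y : ℤ) : ℝ) / ((y₂ - y₁ : ℤ) : ℝ))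
  else 0

theorem secRamp_low (c : ℝ) {y₀ y₁ y₂ y : ℤ} (h1 : y₀ ≤ y) (h2 : y < y₁) :
    secRamp c y₀ y₁ y₂ y = c * ((y - y₀ + 1 : ℤ) : ℝ) / ((y₁ - y₀ : ℤ) : ℝ) := if_pos ⟨h1, h2⟩

theorem secRamp_up (c : ℝ) {y₀ y₁ y₂ y : ℤ} (h1 : y₁ ≤ y) (h2 : y < y₂) :
    secRamp c y₀ y₁ y₂ y = -(c * ((y₂ - y : ℤ) : ℝ) / ((y₂ - y₁ : ℤ) : ℝ)) := by
  unfold secRamp
  rw [if_neg (by omega), if_pos ⟨h1, h2⟩]

theorem secRamp_out (c : ℝ) {y₀ y₁ y₂ y : ℤ} (h : y < y₀ ∨ y₂ ≤ y) (h01 : y₀ ≤ y₁) (h12 : y₁ ≤ y₂) :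
    secRamp c y₀ y₁ y₂ y = 0 := by
  unfold secRamp
  rw [if_neg (by omega), if_neg (by omega)]

theorem sec_rp_div_le (c : ℝ) {A : ℤ} {ν : ℕ} (hν : 1 ≤ ν) (hA : (ν : ℤ) ≤ A) : |c / (A : ℝ)| ≤ |c| / ν := by
  have h1 : (0 : ℝ) < ν := by exact_mod_cast hν
  have h2 : (ν : ℝ) ≤ (A : ℝ) := by exact_mod_cast hA
  rw [abs_div, abs_of_pos (lt_of_lt_of_le h1 h2)]
  exact div_le_div_of_nonneg_left (abs_nonneg c) h1 h2

/-- one step across the corridor -/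
theorem secRamp_step (c : ℝ) (y₀ y₁ y₂ : ℤ) (ν : ℕ) (hν : 1 ≤ ν) (h1 : (ν : ℤ) ≤ y₁ - y₀) (h2 : (ν : ℤ) ≤ y₂ - y₁) (y : ℤ) :
    |secRamp c y₀ y₁ y₂ (y + 1) - secRamp c y₀ y₁ y₂ y + (if y + 1 = y₁ then 2 * c else 0)| ≤ |c| / ν := by
  have hν' : (1 : ℤ) ≤ ν := by exact_mod_cast hν
  have h0 : 0 ≤ |c| / ν := by positivity
  have hA : ((y₁ - y₀ : ℤ) : ℝ) ≠ 0 := by
    have : y₁ - y₀ ≠ 0 := by omega
    exact_mod_cast this
  have hB : ((y₂ - y₁ : ℤ) : ℝ) ≠ 0 := by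
    have : y₂ - y₁ ≠ 0 := by omega
    exact_mod_cast this
  rcases lt_trichotomy (y + 1) y₀ with a | a | a
  · rw [secRamp_out c (Or.inl a) (by omega) (by omega), secRamp_out c (Or.inl (by omega)) (by omega) (by omega),
      if_neg (by omega)]
    simpa using h0
  · rw [secRamp_low c (by omega) (by omega), secRamp_out c (Or.inl (by omega)) (by omega) (by omega), if_neg (by omega)]
    have e : ((y + 1 - y₀ + 1 : ℤ) : ℝ) = 1 := by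
      have : y + 1 - y₀ + 1 = 1 := by omega
      exact_mod_cast this
    rw [e, mul_one, sub_zero, add_zero]
    exact sec_rp_div_le c hν h1
  rcases lt_trichotomy (y + 1) y₁ with b | b | b
  · rw [secRamp_low c (by omega) b, secRamp_low c (by omega) (by omega), if_neg (by omega), add_zero, ← sub_div, ← mul_sub]
    have e : ((y + 1 - y₀ + 1 : ℤ) : ℝ) - ((y - y₀ + 1 : ℤ) : ℝ) = 1 := by push_cast; ring
    rw [e, mul_one]
    exact sec_rp_div_le c hν h1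
  · rw [secRamp_up c (by omega) (by omega), secRamp_low c (by omega) (by omega), if_pos b]
    have e1 : ((y₂ - (y + 1) : ℤ) : ℝ) = ((y₂ - y₁ : ℤ) : ℝ) := by rw [b]
    have e2 : ((y - y₀ + 1 : ℤ) : ℝ) = ((y₁ - y₀ : ℤ) : ℝ) := by
      have : y - y₀ + 1 = y₁ - y₀ := by omega
      rw [this]
    rw [e1, e2, mul_div_cancel_right₀ _ hA, mul_div_cancel_right₀ _ hB]
    have : -c - c + 2 * c = 0 := by ring
    rw [this, abs_zero]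
    exact h0
  rcases lt_trichotomy (y + 1) y₂ with d | d | d
  · rw [secRamp_up c (by omega) d, secRamp_up c (by omega) (by omega), if_neg (by omega), add_zero]
    have e : -(c * ((y₂ - (y + 1) : ℤ) : ℝ) / ((y₂ - y₁ : ℤ) : ℝ)) - -(c * ((y₂ - y : ℤ) : ℝ) / ((y₂ - y₁ : ℤ) : ℝ))
        = c / ((y₂ - y₁ : ℤ) : ℝ) := by
      push_cast
      ring
    rw [e]
    exact sec_rp_div_le c hν h2
  · rw [secRamp_out c (Or.inr (by omega)) (by omega) (by omega), secRamp_up c (by omega) (by omega), if_neg (by omega), add_zero]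
    have e : ((y₂ - y : ℤ) : ℝ) = 1 := by
      have : y₂ - y = 1 := by omega
      exact_mod_cast this
    rw [e, mul_one, zero_sub, neg_neg]
    exact sec_rp_div_le c hν h2
  · rw [secRamp_out c (Or.inr (by omega)) (by omega) (by omega), secRamp_out c (Or.inr (by omega)) (by omega) (by omega),
      if_neg (by omega)]
    simpa using h0

/-! ### the trial function in the coordinates (along, across) -/

/-- the ramp over the columns `[a₀, a₁)` -/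
def secTr (c : ℝ) (a₀ a₁ y₀ y₁ y₂ : ℤ) (al ac : ℤ) : ℝ := if a₀ ≤ al ∧ al < a₁ then secRamp c y₀ y₁ y₂ ac else 0

theorem secTr_off (c : ℝ) {a₀ a₁ y₀ y₁ y₂ al ac : ℤ} (h01 : y₀ ≤ y₁) (h12 : y₁ ≤ y₂)
    (h : ¬ ((a₀ ≤ al ∧ al < a₁) ∧ (y₀ ≤ ac ∧ ac < y₂))) : secTr c a₀ a₁ y₀ y₁ y₂ al ac = 0 := by
  unfold secTr
  by_cases h1 : a₀ ≤ al ∧ al < a₁
  · rw [if_pos h1]
    exact secRamp_out c (by
      by_contra h2
      exact h ⟨h1, by omega⟩) h01 h12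
  · rw [if_neg h1]

/-- a bond across the corridor -/
theorem secTr_across (c : ℝ) (a₀ a₁ y₀ y₁ y₂ : ℤ) (ν : ℕ) (hν : 1 ≤ ν) (h1 : (ν : ℤ) ≤ y₁ - y₀) (h2 : (ν : ℤ) ≤ y₂ - y₁)
    (al ac : ℤ) :
    |secTr c a₀ a₁ y₀ y₁ y₂ al (ac + 1) - secTr c a₀ a₁ y₀ y₁ y₂ al ac
      + (if (a₀ ≤ al ∧ al < a₁) ∧ ac + 1 = y₁ then 2 * c else 0)| ≤ |c| / ν := by
  unfold secTr
  by_cases h : a₀ ≤ al ∧ al < a₁
  · rw [if_pos h, if_pos h]
    have e : (if (a₀ ≤ al ∧ al < a₁) ∧ ac + 1 = y₁ then 2 * c else 0) = if ac + 1 = y₁ then 2 * c else 0 :=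
      if_congr (and_iff_right h) rfl rfl
    rw [e]
    exact secRamp_step c y₀ y₁ y₂ ν hν h1 h2 ac
  · rw [if_neg h, if_neg h, if_neg (fun h' => h h'.1)]
    have h0 : 0 ≤ |c| / ν := by positivity
    simpa using h0

/-- a bond along the corridor -/
theorem secTr_along (c : ℝ) {a₀ a₁ y₀ y₁ y₂ : ℤ} (h01 : y₀ ≤ y₁) (h12 : y₁ ≤ y₂) (al ac : ℤ)
    (hlo : ¬ (al + 1 = a₀ ∧ y₀ ≤ ac ∧ ac < y₂)) (hhi : ¬ (al + 1 = a₁ ∧ y₀ ≤ ac ∧ ac < y₂)) :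
    secTr c a₀ a₁ y₀ y₁ y₂ (al + 1) ac - secTr c a₀ a₁ y₀ y₁ y₂ al ac = 0 := by
  by_cases hy : y₀ ≤ ac ∧ ac < y₂
  · have e : (a₀ ≤ al + 1 ∧ al + 1 < a₁) ↔ (a₀ ≤ al ∧ al < a₁) := by
      have n1 : al + 1 ≠ a₀ := fun h => hlo ⟨h, hy⟩
      have n2 : al + 1 ≠ a₁ := fun h => hhi ⟨h, hy⟩
      omega
    unfold secTr
    rw [if_congr e rfl rfl, sub_self]
  · rw [secTr_off c h01 h12 (fun h => hy h.2), secTr_off c h01 h12 (fun h => hy h.2), sub_zero]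

/-- the trial function of a string -/
def secTrial (g : DGrid m₁ m₂) (ρ : Ray) (x : ℤ × ℤ) : ℝ :=
  if ρ.hor then secTr (Real.pi * ρ.chg) (secGrX g.x₁ ρ.lo) (secGrX g.x₁ ρ.hi) (secGrX g.x₂ ρ.pos) (secGrX g.x₂ (ρ.pos + 1))
      (secGrX g.x₂ (ρ.pos + 2)) x.1 x.2
  else secTr (Real.pi * ρ.chg) (secGrX g.x₂ ρ.lo) (secGrX g.x₂ ρ.hi) (secGrX g.x₁ ρ.pos) (secGrX g.x₁ (ρ.pos + 1))
      (secGrX g.x₁ (ρ.pos + 2)) x.2 x.1

/-! ### index arithmetic -/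

/-- the interval just before the line `lo` -/
theorem sec_rp_before {m : ℕ} {x : Fin (m + 1) → ℤ} (hx : StrictMono x) {lo i : ℕ} (hlo : lo ≤ m) {t : ℤ}
    (h1 : secGrX x i ≤ t) (h2 : t < secGrX x (i + 1)) (h3 : t + 1 = secGrX x lo) : i + 1 = lo := by
  have a1 : i < lo := sec_rp_lt (secGrX_mono hx) h1 (by omega)
  by_contra h
  have := secGrX_lt hx (show i + 1 < lo by omega) hlo
  omega

/-- the interval starting at the line `hi` -/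
theorem sec_rp_at {m : ℕ} {x : Fin (m + 1) → ℤ} (hx : StrictMono x) {hi i : ℕ} (hi' : i ≤ m) {t : ℤ}
    (h1 : secGrX x i ≤ t) (h2 : t < secGrX x (i + 1)) (h3 : t = secGrX x hi) : i = hi := by
  have a1 : hi ≤ i := sec_rp_ge (secGrX_mono hx) h3.ge h2
  by_contra h
  have := secGrX_lt hx (show hi < i by omega) hi'
  omega

theorem sec_rp_side {m : ℕ} {x : Fin (m + 1) → ℤ} {ν : ℕ} (h : ∀ i : Fin m, (ν : ℤ) ≤ x i.succ - x i.castSucc) {q : ℕ} (hq : q < m) :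
    (ν : ℤ) ≤ secGrX x (q + 1) - secGrX x q := by
  rw [secGrX_side x ⟨q, hq⟩]
  exact h ⟨q, hq⟩

/-! ### horizontal strings -/

theorem sec_rp_snd_f (x : ℤ × ℤ) : Bond.snd (x, false) = (x.1, x.2 + 1) := by
  simp [Bond.snd]

theorem sec_rp_snd_t (x : ℤ × ℤ) : Bond.snd (x, true) = (x.1 + 1, x.2) := by
  simp [Bond.snd]

/-- the size of the array around a horizontal string -/
theorem sec_rp_dim_hor (Γ : CGeom m₁ m₂) (ρ : Ray) (hρ : ρ.Ok Γ) (hh : ρ.hor = true) : ρ.hi ≤ m₁ ∧ ρ.pos + 2 ≤ m₂ := by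
  obtain ⟨hlh, hin, -, -⟩ := hρ
  obtain ⟨κ, -, hκ⟩ := (hin (ρ.hi - 1) (by omega) (by omega)).2
  rw [if_pos hh] at hκ
  have a := κ.1.2
  have b := κ.2.2
  omega

theorem sec_rp_cross_hor (g : DGrid m₁ m₂) (ρ : Ray) (hh : ρ.hor = true) (hlh : ρ.lo ≤ ρ.hi) (hhi : ρ.hi ≤ m₁) (hpos : ρ.pos + 1 ≤ m₂)
    (e : Bond) : e ∈ crossB g (ρ.faces : Finset (CFace m₁ m₂)) ↔
      e.2 = false ∧ (secGrX g.x₁ ρ.lo ≤ e.1.1 ∧ e.1.1 < secGrX g.x₁ ρ.hi) ∧ e.1.2 + 1 = secGrX g.x₂ (ρ.pos + 1) := by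
  obtain ⟨x, d⟩ := e
  constructor
  · rintro ⟨f, hf, e2, c1, c2⟩
    unfold Ray.faces at hf
    rw [Finset.mem_filter, if_pos hh] at hf
    obtain ⟨-, f2, fp, fl, fh⟩ := hf
    have hd : d = false := e2.trans f2
    subst hd
    rw [sec_rp_snd_f] at c2
    rw [sec_rp_mem_cell] at c1 c2
    rw [fp] at c1 c2
    simp only at c1 c2 ⊢
    have m1 := secGrX_mono g.mono₁ fl
    have m2 := secGrX_mono g.mono₁ (show f.1.1.1 + 1 ≤ ρ.hi by omega)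
    refine ⟨trivial, ⟨by omega, by omega⟩, ?_⟩
    by_contra hne
    exact c2 ⟨c1.1, by omega, by omega⟩
  · rintro ⟨e2, ⟨a1, a2⟩, a3⟩
    simp only at e2 a1 a2 a3
    subst e2
    obtain ⟨i, i1, i2, i3, i4⟩ := sec_rp_find g.x₁ hlh hhi a1 a2
    have s1 := secGrX_lt g.mono₂ (show ρ.pos < ρ.pos + 1 by omega) hpos
    refine ⟨((i, ⟨ρ.pos, by omega⟩), false), ?_, rfl, ?_, ?_⟩
    · unfold Ray.faces
      rw [Finset.mem_filter, if_pos hh]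
      exact ⟨Finset.mem_univ _, rfl, rfl, i1, i2⟩
    · rw [sec_rp_mem_cell]
      exact ⟨⟨i3, i4⟩, by simp only; omega, by simp only; omega⟩
    · rw [sec_rp_snd_f, sec_rp_mem_cell]
      intro h
      have := h.2.2
      simp only at this
      omega

/-- no bond of the graph leaves the corridor of a horizontal string through its ends -/
theorem sec_rp_ends_hor (Γ : CGeom m₁ m₂) (g : DGrid m₁ m₂) (ρ : Ray) (hρ : ρ.Ok Γ) (hh : ρ.hor = true) (x : ℤ × ℤ)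
    (h1 : x ∈ g.region Γ.T) (h2 : (x.1 + 1, x.2) ∈ g.region Γ.T)
    (hy : secGrX g.x₂ ρ.pos ≤ x.2 ∧ x.2 < secGrX g.x₂ (ρ.pos + 2)) :
    x.1 + 1 ≠ secGrX g.x₁ ρ.lo ∧ x.1 + 1 ≠ secGrX g.x₁ ρ.hi := by
  obtain ⟨hhi, hpos⟩ := sec_rp_dim_hor Γ ρ hρ hh
  obtain ⟨hlh, -, hout, -⟩ := hρ
  constructor
  · intro hx
    obtain ⟨κ, hκ, hc⟩ := Finset.mem_biUnion.1 h1
    rw [sec_rp_mem_cell] at hc
    have i1 : κ.1.1 + 1 = ρ.lo := sec_rp_before g.mono₁ (by omega) hc.1.1 hc.1.2 hx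
    have j1 : ρ.pos ≤ κ.2.1 := sec_rp_ge (secGrX_mono g.mono₂) hy.1 hc.2.2
    have j2 : κ.2.1 < ρ.pos + 2 := sec_rp_lt (secGrX_mono g.mono₂) hc.2.1 hy.2
    have := hout κ.1.1 (Or.inl i1)
    rcases (show κ.2.1 = ρ.pos ∨ κ.2.1 = ρ.pos + 1 by omega) with j | j
    · exact this.1 ⟨κ, hκ, by rw [if_pos hh]; exact ⟨rfl, j⟩⟩
    · exact this.2 ⟨κ, hκ, by rw [if_pos hh]; exact ⟨rfl, j⟩⟩
  · intro hx
    obtain ⟨κ, hκ, hc⟩ := Finset.mem_biUnion.1 h2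
    rw [sec_rp_mem_cell] at hc
    simp only at hc
    have i1 : κ.1.1 = ρ.hi := sec_rp_at g.mono₁ κ.1.2.le hc.1.1 hc.1.2 hx
    have j1 : ρ.pos ≤ κ.2.1 := sec_rp_ge (secGrX_mono g.mono₂) hy.1 hc.2.2
    have j2 : κ.2.1 < ρ.pos + 2 := sec_rp_lt (secGrX_mono g.mono₂) hc.2.1 hy.2
    have := hout κ.1.1 (Or.inr i1)
    rcases (show κ.2.1 = ρ.pos ∨ κ.2.1 = ρ.pos + 1 by omega) with j | j
    · exact this.1 ⟨κ, hκ, by rw [if_pos hh]; exact ⟨rfl, j⟩⟩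
    · exact this.2 ⟨κ, hκ, by rw [if_pos hh]; exact ⟨rfl, j⟩⟩

theorem sec_rp_bond_hor (Γ : CGeom m₁ m₂) (g : DGrid m₁ m₂) (ρ : Ray) (hρ : ρ.Ok Γ) (hh : ρ.hor = true) (ν : ℕ) (hν : 1 ≤ ν)
    (hg : g.SideGe ν) (e : Bond) (h1 : e.1 ∈ g.region Γ.T) (h2 : e.snd ∈ g.region Γ.T) :
    |secTrial g ρ e.snd - secTrial g ρ e.1
      + 2 * Real.pi * (((if e ∈ crossB g (ρ.faces : Finset (CFace m₁ m₂)) then ρ.chg else 0 : ℤ) : ℤ) : ℝ)| ≤ |Real.pi * ρ.chg| / ν := by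
  obtain ⟨hhi, hpos⟩ := sec_rp_dim_hor Γ ρ hρ hh
  have s1 : (ν : ℤ) ≤ secGrX g.x₂ (ρ.pos + 1) - secGrX g.x₂ ρ.pos := sec_rp_side hg.2 (by omega)
  have s2 : (ν : ℤ) ≤ secGrX g.x₂ (ρ.pos + 2) - secGrX g.x₂ (ρ.pos + 1) := sec_rp_side hg.2 (q := ρ.pos + 1) (by omega)
  have hν' : (1 : ℤ) ≤ ν := by exact_mod_cast hν
  have hcr := sec_rp_cross_hor g ρ hh hρ.1.le hhi (by omega) e
  obtain ⟨x, d⟩ := e
  unfold secTrial
  rw [if_pos hh, if_pos hh]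
  cases d
  · rw [sec_rp_snd_f]
    have e1 : 2 * Real.pi * (((if ((x, false) : Bond) ∈ crossB g (ρ.faces : Finset (CFace m₁ m₂)) then ρ.chg else 0 : ℤ) : ℤ) : ℝ)
        = if (secGrX g.x₁ ρ.lo ≤ x.1 ∧ x.1 < secGrX g.x₁ ρ.hi) ∧ x.2 + 1 = secGrX g.x₂ (ρ.pos + 1) then 2 * (Real.pi * ρ.chg) else 0 := by
      by_cases hc : (secGrX g.x₁ ρ.lo ≤ x.1 ∧ x.1 < secGrX g.x₁ ρ.hi) ∧ x.2 + 1 = secGrX g.x₂ (ρ.pos + 1)
      · rw [if_pos hc, if_pos (hcr.2 ⟨rfl, hc⟩)]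
        ring
      · rw [if_neg hc, if_neg (fun h => hc (hcr.1 h).2)]
        simp
    rw [e1]
    exact secTr_across _ _ _ _ _ _ ν hν s1 s2 x.1 x.2
  · rw [sec_rp_snd_t] at h2 ⊢
    rw [if_neg (fun h => by simpa using (hcr.1 h).1)]
    have e1 := secTr_along (Real.pi * ρ.chg) (a₀ := secGrX g.x₁ ρ.lo) (a₁ := secGrX g.x₁ ρ.hi) (y₀ := secGrX g.x₂ ρ.pos)
      (y₁ := secGrX g.x₂ (ρ.pos + 1)) (y₂ := secGrX g.x₂ (ρ.pos + 2)) (by omega) (by omega) x.1 x.2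
      (fun h => (sec_rp_ends_hor Γ g ρ hρ hh x h1 h2 h.2).1 h.1) (fun h => (sec_rp_ends_hor Γ g ρ hρ hh x h1 h2 h.2).2 h.1)
    simp only
    rw [e1]
    have h0 : 0 ≤ |Real.pi * ρ.chg| / ν := by positivity
    simpa using h0

theorem sec_rp_pin_hor (Γ : CGeom m₁ m₂) (g : DGrid m₁ m₂) (ρ : Ray) (hρ : ρ.Ok Γ) (hh : ρ.hor = true) (x : ℤ × ℤ)
    (hx : x ∈ g.region Γ.pin) : secTrial g ρ x = 0 := by
  obtain ⟨hhi, hpos⟩ := sec_rp_dim_hor Γ ρ hρ hh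
  unfold secTrial
  rw [if_pos hh]
  refine secTr_off _ (secGrX_mono g.mono₂ (by omega)) (secGrX_mono g.mono₂ (by omega)) fun h => ?_
  obtain ⟨κ, hκ, hc⟩ := Finset.mem_biUnion.1 hx
  rw [sec_rp_mem_cell] at hc
  have i1 : ρ.lo ≤ κ.1.1 := sec_rp_ge (secGrX_mono g.mono₁) h.1.1 hc.1.2
  have i2 : κ.1.1 < ρ.hi := sec_rp_lt (secGrX_mono g.mono₁) hc.1.1 h.1.2
  have j1 : ρ.pos ≤ κ.2.1 := sec_rp_ge (secGrX_mono g.mono₂) h.2.1 hc.2.2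
  have j2 : κ.2.1 < ρ.pos + 2 := sec_rp_lt (secGrX_mono g.mono₂) hc.2.1 h.2.2
  refine Finset.disjoint_left.1 hρ.2.2.2 ?_ hκ
  unfold Ray.corr
  rw [Finset.mem_filter, if_pos hh]
  exact ⟨Finset.mem_univ _, by omega, i1, i2⟩

/-! ### vertical strings -/

/-- the size of the array around a vertical string -/
theorem sec_rp_dim_ver (Γ : CGeom m₁ m₂) (ρ : Ray) (hρ : ρ.Ok Γ) (hh : ρ.hor = false) : ρ.hi ≤ m₂ ∧ ρ.pos + 2 ≤ m₁ := by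
  have hn : ¬ (ρ.hor = true) := by simp [hh]
  obtain ⟨hlh, hin, -, -⟩ := hρ
  obtain ⟨κ, -, hκ⟩ := (hin (ρ.hi - 1) (by omega) (by omega)).2
  rw [if_neg hn] at hκ
  have a := κ.1.2
  have b := κ.2.2
  omega

theorem sec_rp_cross_ver (g : DGrid m₁ m₂) (ρ : Ray) (hh : ρ.hor = false) (hlh : ρ.lo ≤ ρ.hi) (hhi : ρ.hi ≤ m₂) (hpos : ρ.pos + 1 ≤ m₁)
    (e : Bond) : e ∈ crossB g (ρ.faces : Finset (CFace m₁ m₂)) ↔
      e.2 = true ∧ (secGrX g.x₂ ρ.lo ≤ e.1.2 ∧ e.1.2 < secGrX g.x₂ ρ.hi) ∧ e.1.1 + 1 = secGrX g.x₁ (ρ.pos + 1) := by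
  have hn : ¬ (ρ.hor = true) := by simp [hh]
  obtain ⟨x, d⟩ := e
  constructor
  · rintro ⟨f, hf, e2, c1, c2⟩
    unfold Ray.faces at hf
    rw [Finset.mem_filter, if_neg hn] at hf
    obtain ⟨-, f2, fp, fl, fh⟩ := hf
    have hd : d = true := e2.trans f2
    subst hd
    rw [sec_rp_snd_t] at c2
    rw [sec_rp_mem_cell] at c1 c2
    rw [fp] at c1 c2
    simp only at c1 c2 ⊢
    have m1 := secGrX_mono g.mono₂ fl
    have m2 := secGrX_mono g.mono₂ (show f.1.2.1 + 1 ≤ ρ.hi by omega)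
    refine ⟨trivial, ⟨by omega, by omega⟩, ?_⟩
    by_contra hne
    exact c2 ⟨⟨by omega, by omega⟩, c1.2⟩
  · rintro ⟨e2, ⟨a1, a2⟩, a3⟩
    simp only at e2 a1 a2 a3
    subst e2
    obtain ⟨i, i1, i2, i3, i4⟩ := sec_rp_find g.x₂ hlh hhi a1 a2
    have s1 := secGrX_lt g.mono₁ (show ρ.pos < ρ.pos + 1 by omega) hpos
    refine ⟨((⟨ρ.pos, by omega⟩, i), true), ?_, rfl, ?_, ?_⟩
    · unfold Ray.faces
      rw [Finset.mem_filter, if_neg hn]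
      exact ⟨Finset.mem_univ _, rfl, rfl, i1, i2⟩
    · rw [sec_rp_mem_cell]
      exact ⟨⟨by simp only; omega, by simp only; omega⟩, i3, i4⟩
    · rw [sec_rp_snd_t, sec_rp_mem_cell]
      intro h
      have := h.1.2
      simp only at this
      omega

/-- no bond of the graph leaves the corridor of a vertical string through its ends -/
theorem sec_rp_ends_ver (Γ : CGeom m₁ m₂) (g : DGrid m₁ m₂) (ρ : Ray) (hρ : ρ.Ok Γ) (hh : ρ.hor = false) (x : ℤ × ℤ)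
    (h1 : x ∈ g.region Γ.T) (h2 : (x.1, x.2 + 1) ∈ g.region Γ.T)
    (hy : secGrX g.x₁ ρ.pos ≤ x.1 ∧ x.1 < secGrX g.x₁ (ρ.pos + 2)) :
    x.2 + 1 ≠ secGrX g.x₂ ρ.lo ∧ x.2 + 1 ≠ secGrX g.x₂ ρ.hi := by
  have hn : ¬ (ρ.hor = true) := by simp [hh]
  obtain ⟨hhi, hpos⟩ := sec_rp_dim_ver Γ ρ hρ hh
  obtain ⟨hlh, -, hout, -⟩ := hρ
  constructor
  · intro hx
    obtain ⟨κ, hκ, hc⟩ := Finset.mem_biUnion.1 h1
    rw [sec_rp_mem_cell] at hc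
    have i1 : κ.2.1 + 1 = ρ.lo := sec_rp_before g.mono₂ (by omega) hc.2.1 hc.2.2 hx
    have j1 : ρ.pos ≤ κ.1.1 := sec_rp_ge (secGrX_mono g.mono₁) hy.1 hc.1.2
    have j2 : κ.1.1 < ρ.pos + 2 := sec_rp_lt (secGrX_mono g.mono₁) hc.1.1 hy.2
    have := hout κ.2.1 (Or.inl i1)
    rcases (show κ.1.1 = ρ.pos ∨ κ.1.1 = ρ.pos + 1 by omega) with j | j
    · exact this.1 ⟨κ, hκ, by rw [if_neg hn]; exact ⟨j, rfl⟩⟩
    · exact this.2 ⟨κ, hκ, by rw [if_neg hn]; exact ⟨j, rfl⟩⟩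
  · intro hx
    obtain ⟨κ, hκ, hc⟩ := Finset.mem_biUnion.1 h2
    rw [sec_rp_mem_cell] at hc
    simp only at hc
    have i1 : κ.2.1 = ρ.hi := sec_rp_at g.mono₂ κ.2.2.le hc.2.1 hc.2.2 hx
    have j1 : ρ.pos ≤ κ.1.1 := sec_rp_ge (secGrX_mono g.mono₁) hy.1 hc.1.2
    have j2 : κ.1.1 < ρ.pos + 2 := sec_rp_lt (secGrX_mono g.mono₁) hc.1.1 hy.2
    have := hout κ.2.1 (Or.inr i1)
    rcases (show κ.1.1 = ρ.pos ∨ κ.1.1 = ρ.pos + 1 by omega) with j | j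
    · exact this.1 ⟨κ, hκ, by rw [if_neg hn]; exact ⟨j, rfl⟩⟩
    · exact this.2 ⟨κ, hκ, by rw [if_neg hn]; exact ⟨j, rfl⟩⟩

theorem sec_rp_bond_ver (Γ : CGeom m₁ m₂) (g : DGrid m₁ m₂) (ρ : Ray) (hρ : ρ.Ok Γ) (hh : ρ.hor = false) (ν : ℕ) (hν : 1 ≤ ν)
    (hg : g.SideGe ν) (e : Bond) (h1 : e.1 ∈ g.region Γ.T) (h2 : e.snd ∈ g.region Γ.T) :
    |secTrial g ρ e.snd - secTrial g ρ e.1
      + 2 * Real.pi * (((if e ∈ crossB g (ρ.faces : Finset (CFace m₁ m₂)) then ρ.chg else 0 : ℤ) : ℤ) : ℝ)| ≤ |Real.pi * ρ.chg| / ν := by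
  have hn : ¬ (ρ.hor = true) := by simp [hh]
  obtain ⟨hhi, hpos⟩ := sec_rp_dim_ver Γ ρ hρ hh
  have s1 : (ν : ℤ) ≤ secGrX g.x₁ (ρ.pos + 1) - secGrX g.x₁ ρ.pos := sec_rp_side hg.1 (by omega)
  have s2 : (ν : ℤ) ≤ secGrX g.x₁ (ρ.pos + 2) - secGrX g.x₁ (ρ.pos + 1) := sec_rp_side hg.1 (q := ρ.pos + 1) (by omega)
  have hν' : (1 : ℤ) ≤ ν := by exact_mod_cast hν
  have hcr := sec_rp_cross_ver g ρ hh hρ.1.le hhi (by omega) e
  obtain ⟨x, d⟩ := e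
  unfold secTrial
  rw [if_neg hn, if_neg hn]
  cases d
  · rw [sec_rp_snd_f] at h2 ⊢
    rw [if_neg (fun h => by simpa using (hcr.1 h).1)]
    have e1 := secTr_along (Real.pi * ρ.chg) (a₀ := secGrX g.x₂ ρ.lo) (a₁ := secGrX g.x₂ ρ.hi) (y₀ := secGrX g.x₁ ρ.pos)
      (y₁ := secGrX g.x₁ (ρ.pos + 1)) (y₂ := secGrX g.x₁ (ρ.pos + 2)) (by omega) (by omega) x.2 x.1
      (fun h => (sec_rp_ends_ver Γ g ρ hρ hh x h1 h2 h.2).1 h.1) (fun h => (sec_rp_ends_ver Γ g ρ hρ hh x h1 h2 h.2).2 h.1)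
    simp only
    rw [e1]
    have h0 : 0 ≤ |Real.pi * ρ.chg| / ν := by positivity
    simpa using h0
  · rw [sec_rp_snd_t]
    have e1 : 2 * Real.pi * (((if ((x, true) : Bond) ∈ crossB g (ρ.faces : Finset (CFace m₁ m₂)) then ρ.chg else 0 : ℤ) : ℤ) : ℝ)
        = if (secGrX g.x₂ ρ.lo ≤ x.2 ∧ x.2 < secGrX g.x₂ ρ.hi) ∧ x.1 + 1 = secGrX g.x₁ (ρ.pos + 1) then 2 * (Real.pi * ρ.chg) else 0 := by
      by_cases hc : (secGrX g.x₂ ρ.lo ≤ x.2 ∧ x.2 < secGrX g.x₂ ρ.hi) ∧ x.1 + 1 = secGrX g.x₁ (ρ.pos + 1)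
      · rw [if_pos hc, if_pos (hcr.2 ⟨rfl, hc⟩)]
        ring
      · rw [if_neg hc, if_neg (fun h => hc (hcr.1 h).2)]
        simp
    rw [e1]
    exact secTr_across _ _ _ _ _ _ ν hν s1 s2 x.2 x.1

theorem sec_rp_pin_ver (Γ : CGeom m₁ m₂) (g : DGrid m₁ m₂) (ρ : Ray) (hρ : ρ.Ok Γ) (hh : ρ.hor = false) (x : ℤ × ℤ)
    (hx : x ∈ g.region Γ.pin) : secTrial g ρ x = 0 := by
  have hn : ¬ (ρ.hor = true) := by simp [hh]
  obtain ⟨hhi, hpos⟩ := sec_rp_dim_ver Γ ρ hρ hh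
  unfold secTrial
  rw [if_neg hn]
  refine secTr_off _ (secGrX_mono g.mono₁ (by omega)) (secGrX_mono g.mono₁ (by omega)) fun h => ?_
  obtain ⟨κ, hκ, hc⟩ := Finset.mem_biUnion.1 hx
  rw [sec_rp_mem_cell] at hc
  have i1 : ρ.lo ≤ κ.2.1 := sec_rp_ge (secGrX_mono g.mono₂) h.1.1 hc.2.2
  have i2 : κ.2.1 < ρ.hi := sec_rp_lt (secGrX_mono g.mono₂) hc.2.1 h.1.2
  have j1 : ρ.pos ≤ κ.1.1 := sec_rp_ge (secGrX_mono g.mono₁) h.2.1 hc.1.2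
  have j2 : κ.1.1 < ρ.pos + 2 := sec_rp_lt (secGrX_mono g.mono₁) hc.1.1 h.2.2
  refine Finset.disjoint_left.1 hρ.2.2.2 ?_ hκ
  unfold Ray.corr
  rw [Finset.mem_filter, if_neg hn]
  exact ⟨Finset.mem_univ _, by omega, i1, i2⟩

/-! ### both orientations -/

theorem sec_rp_bond (Γ : CGeom m₁ m₂) (g : DGrid m₁ m₂) (ρ : Ray) (hρ : ρ.Ok Γ) (ν : ℕ) (hν : 1 ≤ ν)
    (hg : g.SideGe ν) (e : Bond) (h1 : e.1 ∈ g.region Γ.T) (h2 : e.snd ∈ g.region Γ.T) :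
    |secTrial g ρ e.snd - secTrial g ρ e.1
      + 2 * Real.pi * (((if e ∈ crossB g (ρ.faces : Finset (CFace m₁ m₂)) then ρ.chg else 0 : ℤ) : ℤ) : ℝ)| ≤ |Real.pi * ρ.chg| / ν := by
  rcases Bool.eq_false_or_eq_true ρ.hor with hh | hh
  · exact sec_rp_bond_hor Γ g ρ hρ hh ν hν hg e h1 h2
  · exact sec_rp_bond_ver Γ g ρ hρ hh ν hν hg e h1 h2

theorem sec_rp_pin (Γ : CGeom m₁ m₂) (g : DGrid m₁ m₂) (ρ : Ray) (hρ : ρ.Ok Γ) (x : ℤ × ℤ)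
    (hx : x ∈ g.region Γ.pin) : secTrial g ρ x = 0 := by
  rcases Bool.eq_false_or_eq_true ρ.hor with hh | hh
  · exact sec_rp_pin_hor Γ g ρ hρ hh x hx
  · exact sec_rp_pin_ver Γ g ρ hρ hh x hx

/-! ### counting -/

theorem sec_rp_card_cell (g : DGrid m₁ m₂) (n : ℕ) (hg : g.SideLe n) (κ : Cell m₁ m₂) : (g.cell κ).card ≤ n * n := by
  unfold DGrid.cell
  rw [Finset.card_product, Int.card_Ico, Int.card_Ico]
  have a := hg.1 κ.1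
  have b := hg.2 κ.2
  exact Nat.mul_le_mul (by omega) (by omega)

theorem sec_rp_card_bonds (Γ : CGeom m₁ m₂) (g : DGrid m₁ m₂) (n : ℕ) (hg : g.SideLe n) :
    (bonds Γ g).card ≤ m₁ * m₂ * (n * n) * 2 := by
  have h1 : (g.region Γ.T).card ≤ m₁ * m₂ * (n * n) := by
    unfold DGrid.region
    calc (Γ.T.biUnion g.cell).card ≤ ∑ κ ∈ Γ.T, (g.cell κ).card := Finset.card_biUnion_le
      _ ≤ ∑ _κ ∈ Γ.T, n * n := Finset.sum_le_sum fun κ _ => sec_rp_card_cell g n hg κ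
      _ = Γ.T.card * (n * n) := by rw [Finset.sum_const, smul_eq_mul]
      _ ≤ m₁ * m₂ * (n * n) := by
        refine Nat.mul_le_mul_right _ ?_
        have := Finset.card_le_univ Γ.T
        simpa using this
  unfold bonds domBonds
  calc _ ≤ ((g.region Γ.T) ×ˢ (Finset.univ : Finset Bool)).card := Finset.card_filter_le _ _
    _ = (g.region Γ.T).card * 2 := by rw [Finset.card_product]; simp
    _ ≤ _ := Nat.mul_le_mul_right _ h1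

/-- POT (easy, explicit ramp in the corridors): the reference cost of a system of strings is bounded. -/
theorem sec_pot_sector_bdd (a : ℝ) (ha : 0 < a) (Γ : CGeom m₁ m₂) (R : Fin r → Ray) (hR : RaysOk Γ R) (K : ℕ) :
    ∃ C : ℝ, ∀ (g : DGrid m₁ m₂) (ν : ℕ), 1 ≤ ν → Scale K g ν → (rlaw Γ g noRow).gEn a (connR Γ g R) 0 ≤ C := by
  set M : ℝ := ∑ i, |Real.pi * (R i).chg| with hM
  have hM0 : 0 ≤ M := Finset.sum_nonneg fun i _ => abs_nonneg _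
  refine ⟨a⁻¹ * (((m₁ * m₂ * (K * K) * 2 : ℕ) : ℝ) * M ^ 2), fun g ν hν hg => ?_⟩
  have hν0 : (0 : ℝ) < ν := by exact_mod_cast hν
  set v : ℤ × ℤ → ℝ := fun x => ∑ i, secTrial g (R i) x with hv
  have hpin : ∀ x ∈ g.region Γ.pin, v x = 0 := fun x hx =>
    Finset.sum_eq_zero fun i _ => sec_rp_pin Γ g (R i) (hR.1 i) x hx
  have h1 := gEn_le (rlaw Γ g noRow) a ha (connR Γ g R) 0 (onV Γ g v) (onV_mem_rspan Γ g noRow v hpin)
  have h2 : ∑ o, ((rlaw Γ g noRow).obs (onV Γ g v) o - (0 : (rlaw Γ g noRow).O → ℝ) o) ^ 2 = 0 :=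
    Finset.sum_eq_zero fun o _ => Fin.elim0 o
  have h3 : HLaw.en (onV Γ g v) (connR Γ g R) = ∑ e ∈ bonds Γ g, (v e.snd - v e.1 + 2 * Real.pi * ((connB g R e : ℤ) : ℝ)) ^ 2 := by
    rw [← sum_E Γ g (fun e => (v e.snd - v e.1 + 2 * Real.pi * ((connB g R e : ℤ) : ℝ)) ^ 2)]
    rfl
  have h4 : ∀ e ∈ bonds Γ g, (v e.snd - v e.1 + 2 * Real.pi * ((connB g R e : ℤ) : ℝ)) ^ 2 ≤ (M / ν) ^ 2 := by
    intro e he
    have e1 : v e.snd - v e.1 + 2 * Real.pi * ((connB g R e : ℤ) : ℝ)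
        = ∑ i, (secTrial g (R i) e.snd - secTrial g (R i) e.1
          + 2 * Real.pi * (((if e ∈ crossB g ((R i).faces : Finset (CFace m₁ m₂)) then (R i).chg else 0 : ℤ) : ℤ) : ℝ)) := by
      rw [Finset.sum_add_distrib, Finset.sum_sub_distrib, ← Finset.mul_sum]
      unfold connB
      push_cast
      rfl
    have e2 : |v e.snd - v e.1 + 2 * Real.pi * ((connB g R e : ℤ) : ℝ)| ≤ M / ν := by
      rw [e1, hM, Finset.sum_div]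
      exact (Finset.abs_sum_le_sum_abs _ _).trans (Finset.sum_le_sum fun i _ =>
        sec_rp_bond Γ g (R i) (hR.1 i) ν hν hg.1 e (domBonds_fst he) (domBonds_snd he))
    exact sq_le_sq' (by linarith [(abs_le.1 e2).1]) (abs_le.1 e2).2
  have h5 : ((bonds Γ g).card : ℝ) ≤ ((m₁ * m₂ * (K * ν * (K * ν)) * 2 : ℕ) : ℝ) := by
    exact_mod_cast sec_rp_card_bonds Γ g (K * ν) hg.2
  have h6 : HLaw.en (onV Γ g v) (connR Γ g R) ≤ ((m₁ * m₂ * (K * K) * 2 : ℕ) : ℝ) * M ^ 2 := by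
    rw [h3]
    calc ∑ e ∈ bonds Γ g, (v e.snd - v e.1 + 2 * Real.pi * ((connB g R e : ℤ) : ℝ)) ^ 2
        ≤ ∑ _e ∈ bonds Γ g, (M / ν) ^ 2 := Finset.sum_le_sum h4
      _ = ((bonds Γ g).card : ℝ) * (M / ν) ^ 2 := by rw [Finset.sum_const, nsmul_eq_mul]
      _ ≤ ((m₁ * m₂ * (K * ν * (K * ν)) * 2 : ℕ) : ℝ) * (M / ν) ^ 2 := mul_le_mul_of_nonneg_right h5 (sq_nonneg _)
      _ = ((m₁ * m₂ * (K * K) * 2 : ℕ) : ℝ) * M ^ 2 := by
        push_cast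
        field_simp
  rw [h2, add_zero] at h1
  exact h1.trans (mul_le_mul_of_nonneg_left h6 (inv_pos.2 ha).le)

end

end Claimed.Agent.R285.Sec
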