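import Claimed.Agent.R285.Sec.Defs
import Claimed.Agent.R285.Pot.LinDual

/-!
# ROW 285, layer Sec, file Ref: finite dimensional quadratic calculus of the references `gEn`, `gVar`.      NO sorry.
Everything is in `Pot/LinVar.lean`, `Pot/LinDual.lean` (POT-LIN, helper83; prefix `pl_`): USE THOSE LEMMAS DIRECTLY (`pl_gVar_smul`, `pl_gVar_add_le_eps`, `pl_gVar_nonneg`, `pl_gEn_gauge`, `pl_gTilt_test_zero`, `pl_gVar_flow_exists`, ...).
Here: the forms quoted in the plans of the layer, and `gEn_obs_ge` (completing the square; replaces the weak compactness of [S]L3.3).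
-/

set_option autoImplicit false

namespace Claimed.Agent.R285.Sec

open Filter Topology S23
open scoped Classical

noncomputable section

variable {G : HGraph} (H : HLaw G)

theorem gEn_nonneg (a : ℝ) (ha : 0 < a) (θ : G.E → ℝ) (c : H.O → ℝ) : 0 ≤ H.gEn a θ c := Pot.pl_gEn_nonneg H ha θ c

/-- every trial function bounds the reference cost from above -/
theorem gEn_le (a : ℝ) (ha : 0 < a) (θ : G.E → ℝ) (c : H.O → ℝ) (v : G.V → ℝ) (hv : v ∈ H.rspan) :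
    H.gEn a θ c ≤ a⁻¹ * HLaw.en v θ + ∑ o, (H.obs v o - c o) ^ 2 := Pot.pl_gEn_le H ha θ c v hv

/-- every flow which is divergence free (against the reference space) bounds it from below -/
theorem le_gEn (a : ℝ) (ha : 0 < a) (θ : G.E → ℝ) (c : H.O → ℝ) (w : G.E → ℝ)
    (hw : ∀ v ∈ H.rspan, ∑ e, w e * (v (G.tgt e) - v (G.src e)) = 0) :
    2 * ∑ e, w e * θ e - a * ∑ e, w e ^ 2 ≤ H.gEn a θ c := Pot.pl_le_gEn H ha θ c w hw

/-- the minimum is attained; Euler-Lagrange equation. -/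
theorem gEn_min (a : ℝ) (ha : 0 < a) (θ : G.E → ℝ) (c : H.O → ℝ) :
    ∃ v ∈ H.rspan, H.gEn a θ c = a⁻¹ * HLaw.en v θ + ∑ o, (H.obs v o - c o) ^ 2 ∧
      ∀ u ∈ H.rspan, a⁻¹ * ∑ e, (v (G.tgt e) - v (G.src e) + θ e) * (u (G.tgt e) - u (G.src e))
        + ∑ o, (H.obs v o - c o) * H.obs u o = 0 := by
  obtain ⟨v, hv, e⟩ := Pot.pl_gEn_min_exists H ha θ c
  exact ⟨v, hv.1, e, ((Pot.pl_opt_row_iff H θ c v).1 hv).2⟩

/-- completing the square (replaces the weak compactness in [S]L3.3): if `u ↦ ∑_e ∇_e v ∇_e u` has squared norm `≤ M` for the reference form, then `B v` costs almost the full energy of `v`. -/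
theorem gEn_obs_ge (a : ℝ) (ha : 0 < a) (v : G.V → ℝ) (hv : v ∈ H.rspan) (M : ℝ) (hM0 : 0 ≤ M)
    (hM : ∀ u ∈ H.rspan, (∑ e, (v (G.tgt e) - v (G.src e)) * (u (G.tgt e) - u (G.src e))) ^ 2 ≤ M * H.form a u) :
    a⁻¹ * HLaw.en v 0 - a⁻¹ ^ 2 * M ≤ H.gEn a 0 (H.obs v) := by
  refine le_ciInf fun u => ?_
  set φ : G.V → ℝ := (u : G.V → ℝ) - v with hφ
  have hφm : φ ∈ H.rspan := H.rspan.sub_mem u.2 hv
  set P : ℝ := ∑ e, (v (G.tgt e) - v (G.src e)) * (φ (G.tgt e) - φ (G.src e)) with hP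
  have hF : 0 ≤ H.form a φ := Pot.pl_form_nonneg H ha φ
  have hPM := hM φ hφm
  have e1 : HLaw.en (u : G.V → ℝ) 0 = HLaw.en v 0 + 2 * P + HLaw.en φ 0 := by
    rw [hP, HLaw.en, HLaw.en, HLaw.en, Finset.mul_sum, ← Finset.sum_add_distrib, ← Finset.sum_add_distrib]
    refine Finset.sum_congr rfl fun e _ => ?_
    simp only [hφ, Pi.sub_apply, Pi.zero_apply]
    ring
  have e2 : ∑ o, (H.obs (u : G.V → ℝ) o - H.obs v o) ^ 2 = ∑ o, H.obs φ o ^ 2 := by
    refine Finset.sum_congr rfl fun o _ => ?_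
    rw [hφ, Pot.pl_obs_sub]
  have e3 : a⁻¹ * HLaw.en (u : G.V → ℝ) 0 + ∑ o, (H.obs (u : G.V → ℝ) o - H.obs v o) ^ 2
      = a⁻¹ * HLaw.en v 0 + 2 * a⁻¹ * P + H.form a φ := by
    rw [e1, e2, HLaw.form]; ring
  rw [e3]
  have hai : 0 < a⁻¹ := inv_pos.2 ha
  -- `|2 a⁻¹ P| ≤ F + a⁻² M`
  have h4 : (2 * a⁻¹ * P) ^ 2 ≤ (H.form a φ + a⁻¹ ^ 2 * M) ^ 2 := by
    have h5 : (2 * a⁻¹ * P) ^ 2 ≤ 4 * a⁻¹ ^ 2 * (M * H.form a φ) := by
      have : (2 * a⁻¹ * P) ^ 2 = 4 * a⁻¹ ^ 2 * P ^ 2 := by ring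
      rw [this]
      exact mul_le_mul_of_nonneg_left hPM (by positivity)
    nlinarith [sq_nonneg (H.form a φ - a⁻¹ ^ 2 * M)]
  have h6 : 0 ≤ H.form a φ + a⁻¹ ^ 2 * M := by positivity
  have h7 := abs_le_of_sq_le_sq' h4 h6
  linarith [h7.1]

/-- a test which is the divergence of a flow has reference variance at most `a |w|²`. -/
theorem gVar_le_flow (a : ℝ) (ha : 0 < a) (f : G.V → ℝ) (w : G.E → ℝ)
    (hf : ∀ u ∈ H.rspan, ∑ x, f x * u x = ∑ e, w e * (u (G.tgt e) - u (G.src e))) :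
    H.gVar a f ≤ a * ∑ e, w e ^ 2 := by
  have h : Pot.plRep H f w 0 := fun u hu => by
    simpa [HLaw.pair, Pot.plGrad] using hf u hu
  simpa using Pot.pl_gVar_le_flow H ha h

/-- such a test is admissible (finite reference variance) -/
theorem adm_of_flow (f : G.V → ℝ) (w : G.E → ℝ)
    (hf : ∀ u ∈ H.rspan, ∑ x, f x * u x = ∑ e, w e * (u (G.tgt e) - u (G.src e))) : Pot.plAdm H f := by
  have h : Pot.plRep H f w 0 := fun u hu => by
    simpa [HLaw.pair, Pot.plGrad] using hf u hu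
  exact Pot.pl_adm_of_rep H h

/-- `√gVar` is a seminorm: triangle inequality in the form used with Hoelder (`p > 1`): `gVar (f + f') ≤ p gVar f + p/(p-1) gVar f'`. -/
theorem gVar_add_le (a : ℝ) (ha : 0 < a) (f f' : G.V → ℝ) (p : ℝ) (hp : 1 < p) (hf : Pot.plAdm H f) (hf' : Pot.plAdm H f') :
    H.gVar a (f + f') ≤ p * H.gVar a f + p / (p - 1) * H.gVar a f' := by
  have hε : 0 < p - 1 := by linarith
  have h := Pot.pl_gVar_add_le_eps H ha hf hf' hε
  have e1 : 1 + (p - 1) = p := by ring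
  have e2 : 1 + (p - 1)⁻¹ = p / (p - 1) := by field_simp; ring
  rwa [e1, e2] at h

end

end Claimed.Agent.R285.Sec
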