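import Claimed.Agent.R285.Sec.Grid
import Claimed.Agent.R285.Sec.Ref
import Claimed.Agent.R285.Sec.RectPot

/-!
# ROW 285, layer Sec, leaf file Rect: the explicit rectangles of a system of strings (route R4 of Read/S23).      Paper-free, combinatorial (`Fin`, `omega`, `Finset.mem_filter`).
Picture for a horizontal string (`hor = true`): corridor = rows `pos`, `pos+1`, columns `lo ≤ i < hi` of the coarse array; in the 16-fold refined array the string is the line between the rows `16(pos+1) - 1` and `16(pos+1)`;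
`δ` = distance of a fine cell from this line (`0,..,15` on both sides).  Behind both ends of the corridor there is no cell of `T`, so a fine cell of a band has no neighbour in `T` in the direction of the string outside the band.
`pot_sector_bdd`: trial function `v = 2π chg (-½ + δ'/(2h))` above, `2π chg (½ - δ'/(2h))` below the string inside the corridor (`δ'` = lattice distance to the string, `h` = height of the coarse row), `0` elsewhere; `gEn_le`.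
-/

set_option autoImplicit false

namespace Claimed.Agent.R285.Sec

open Filter Topology S23
open scoped Classical

noncomputable section

variable {m₁ m₂ r : ℕ}

/-! ### kit 1: cells and bonds of a grid -/

theorem sec_rc_1d_uniq {n : ℕ} {y : Fin (n + 1) → ℤ} (hy : StrictMono y) {i j : Fin n} {t : ℤ}
    (h1 : y i.castSucc ≤ t) (h2 : t < y i.succ) (h3 : y j.castSucc ≤ t) (h4 : t < y j.succ) : i = j := by
  rcases lt_trichotomy i j with h | h | h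
  · have : y i.succ ≤ y j.castSucc := hy.monotone (Fin.le_def.2 (by simpa using Nat.succ_le_of_lt (Fin.lt_def.1 h)))
    omega
  · exact h
  · have : y j.succ ≤ y i.castSucc := hy.monotone (Fin.le_def.2 (by simpa using Nat.succ_le_of_lt (Fin.lt_def.1 h)))
    omega

theorem sec_rc_1d_next {n : ℕ} {y : Fin (n + 1) → ℤ} (hy : StrictMono y) {i j : Fin n} {t : ℤ}
    (h1 : y i.castSucc ≤ t) (h2 : t < y i.succ) (h3 : y j.castSucc ≤ t + 1) (h4 : t + 1 < y j.succ) :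
    i = j ∨ (j.1 = i.1 + 1 ∧ t + 1 = y i.succ ∧ t + 1 = y j.castSucc) := by
  rcases lt_trichotomy i j with h | h | h
  · right
    have h5 : y i.succ ≤ y j.castSucc := hy.monotone (Fin.le_def.2 (by simpa using Nat.succ_le_of_lt (Fin.lt_def.1 h)))
    refine ⟨?_, by omega, by omega⟩
    by_contra hne
    have h6 : i.succ < j.castSucc := Fin.lt_def.2 (by
      have := Fin.lt_def.1 h
      simp only [Fin.val_succ, Fin.val_castSucc]
      omega)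
    have := hy h6
    omega
  · exact Or.inl h
  · have : y j.succ ≤ y i.castSucc := hy.monotone (Fin.le_def.2 (by simpa using Nat.succ_le_of_lt (Fin.lt_def.1 h)))
    omega

section kit1

variable {M₁ M₂ : ℕ} (g : DGrid M₁ M₂)

theorem sec_rc_cell_uniq {κ κ' : Cell M₁ M₂} {x : ℤ × ℤ} (h : x ∈ g.cell κ) (h' : x ∈ g.cell κ') : κ = κ' := by
  rw [sec_gr_mem_cell] at h h'
  exact Prod.ext (sec_rc_1d_uniq g.mono₁ h.1.1 h.1.2 h'.1.1 h'.1.2) (sec_rc_1d_uniq g.mono₂ h.2.1 h.2.2 h'.2.1 h'.2.2)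

theorem sec_rc_mem_region {κ : Cell M₁ M₂} {x : ℤ × ℤ} (h : x ∈ g.cell κ) (A : Finset (Cell M₁ M₂)) : x ∈ g.region A ↔ κ ∈ A := by
  unfold DGrid.region
  rw [Finset.mem_biUnion]
  constructor
  · rintro ⟨κ', h1, h2⟩
    rwa [sec_rc_cell_uniq g h h2]
  · exact fun h1 => ⟨κ, h1, h⟩

theorem sec_rc_region_cell {x : ℤ × ℤ} {A : Finset (Cell M₁ M₂)} (h : x ∈ g.region A) : ∃ κ ∈ A, x ∈ g.cell κ := by
  unfold DGrid.region at h
  exact Finset.mem_biUnion.1 h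

theorem sec_rc_snd_true {e : Bond} (h : e.2 = true) : e.snd = (e.1.1 + 1, e.1.2) := by
  unfold Bond.snd; rw [h]; rfl

theorem sec_rc_snd_false {e : Bond} (h : e.2 = false) : e.snd = (e.1.1, e.1.2 + 1) := by
  unfold Bond.snd; rw [h]; rfl

/-- the two cells of a bond are equal or neighbours across the face in the direction of the bond -/
theorem sec_rc_bond {e : Bond} {κ₁ κ₂ : Cell M₁ M₂} (h1 : e.1 ∈ g.cell κ₁) (h2 : e.snd ∈ g.cell κ₂) :
    κ₁ = κ₂ ∨ FaceNbr (κ₁, e.2) κ₂ := by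
  rw [sec_gr_mem_cell] at h1 h2
  unfold FaceNbr
  cases hb : e.2 with
  | true =>
    rw [sec_rc_snd_true hb] at h2
    have e2 : κ₁.2 = κ₂.2 := sec_rc_1d_uniq g.mono₂ h1.2.1 h1.2.2 h2.2.1 h2.2.2
    rcases sec_rc_1d_next g.mono₁ h1.1.1 h1.1.2 h2.1.1 h2.1.2 with h | h
    · exact Or.inl (Prod.ext h e2)
    · exact Or.inr (by simpa using ⟨h.1, e2.symm⟩)
  | false =>
    rw [sec_rc_snd_false hb] at h2
    have e2 : κ₁.1 = κ₂.1 := sec_rc_1d_uniq g.mono₁ h1.1.1 h1.1.2 h2.1.1 h2.1.2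
    rcases sec_rc_1d_next g.mono₂ h1.2.1 h1.2.2 h2.2.1 h2.2.2 with h | h
    · exact Or.inl (Prod.ext e2 h)
    · exact Or.inr (by simpa using ⟨e2.symm, h.1⟩)

theorem sec_rc_mem_crossB {e : Bond} {κ₁ κ₂ : Cell M₁ M₂} (h1 : e.1 ∈ g.cell κ₁) (h2 : e.snd ∈ g.cell κ₂) (F : Finset (CFace M₁ M₂)) :
    e ∈ crossB g F ↔ κ₁ ≠ κ₂ ∧ (κ₁, e.2) ∈ F := by
  unfold crossB
  simp only [Set.mem_ofPred_eq]
  constructor
  · rintro ⟨f, hf, h3, h4, h5⟩
    have e1 : f.1 = κ₁ := sec_rc_cell_uniq g h4 h1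
    refine ⟨fun h => h5 ?_, ?_⟩
    · rw [e1, h]; exact h2
    · rw [← e1, h3]; exact hf
  · rintro ⟨h3, h4⟩
    exact ⟨_, h4, rfl, h1, fun h5 => h3 (sec_rc_cell_uniq g h5 h2)⟩

end kit1

/-! ### kit 2: coordinates along / across a string -/

section kit2

variable {M₁ M₂ : ℕ}

/-- coordinate of a cell along the string -/
def secAl (ρ : Ray) (κ : Cell M₁ M₂) : ℕ := if ρ.hor then κ.1.1 else κ.2.1

/-- coordinate of a cell across the string -/
def secAc (ρ : Ray) (κ : Cell M₁ M₂) : ℕ := if ρ.hor then κ.2.1 else κ.1.1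

theorem sec_rc_ext (ρ : Ray) {κ κ' : Cell M₁ M₂} (h1 : secAl ρ κ = secAl ρ κ') (h2 : secAc ρ κ = secAc ρ κ') : κ = κ' := by
  unfold secAl at h1
  unfold secAc at h2
  cases hb : ρ.hor <;> simp only [hb, if_true, Bool.false_eq_true, if_false] at h1 h2
  · exact Prod.ext (Fin.ext h2) (Fin.ext h1)
  · exact Prod.ext (Fin.ext h1) (Fin.ext h2)

theorem sec_rc_mem_corr (ρ : Ray) (κ : Cell M₁ M₂) :
    κ ∈ (ρ.corr : Finset (Cell M₁ M₂)) ↔ (secAc ρ κ = ρ.pos ∨ secAc ρ κ = ρ.pos + 1) ∧ ρ.lo ≤ secAl ρ κ ∧ secAl ρ κ < ρ.hi := by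
  unfold Ray.corr secAl secAc
  cases ρ.hor <;> simp

theorem sec_rc_mem_faces (ρ : Ray) (f : CFace M₁ M₂) :
    f ∈ (ρ.faces : Finset (CFace M₁ M₂)) ↔ f.2 = !ρ.hor ∧ secAc ρ f.1 = ρ.pos ∧ ρ.lo ≤ secAl ρ f.1 ∧ secAl ρ f.1 < ρ.hi := by
  unfold Ray.faces secAl secAc
  cases ρ.hor <;> simp

theorem sec_rc_has (ρ : Ray) (T : Finset (Cell M₁ M₂)) (i j : ℕ) : ρ.has T i j ↔ ∃ κ ∈ T, secAl ρ κ = i ∧ secAc ρ κ = j := by
  unfold Ray.has secAl secAc
  cases ρ.hor <;> simp [and_comm]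

theorem sec_rc_coarse (ρ : Ray) (s : ℕ) (κ : Cell (s * M₁) (s * M₂)) :
    secAl ρ (coarse s κ) = secAl ρ κ / s ∧ secAc ρ (coarse s κ) = secAc ρ κ / s := by
  unfold secAl secAc coarse
  cases ρ.hor <;> simp

theorem sec_rc_nbr (ρ : Ray) {f : CFace M₁ M₂} {κ' : Cell M₁ M₂} (h : FaceNbr f κ') :
    (f.2 = (!ρ.hor) ∧ secAl ρ κ' = secAl ρ f.1 ∧ secAc ρ κ' = secAc ρ f.1 + 1) ∨
    (f.2 = ρ.hor ∧ secAl ρ κ' = secAl ρ f.1 + 1 ∧ secAc ρ κ' = secAc ρ f.1) := by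
  unfold FaceNbr at h
  unfold secAl secAc
  cases hb : ρ.hor <;> cases hf : f.2 <;> simp only [hf, if_true, Bool.false_eq_true, if_false] at h <;> simp [h.1, h.2]

theorem sec_rc_mem_band (ρ : Ray) (α β : ℕ) (κ : Cell (16 * M₁) (16 * M₂)) :
    κ ∈ (ρ.band α β : Finset (Cell (16 * M₁) (16 * M₂))) ↔ 16 * ρ.lo ≤ secAl ρ κ ∧ secAl ρ κ < 16 * ρ.hi ∧
      ((16 * (ρ.pos + 1) + α ≤ secAc ρ κ ∧ secAc ρ κ < 16 * (ρ.pos + 1) + β) ∨
       (secAc ρ κ + α < 16 * (ρ.pos + 1) ∧ 16 * (ρ.pos + 1) ≤ secAc ρ κ + β)) := by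
  unfold Ray.band secAl secAc
  simp only [Finset.mem_filter, Finset.mem_univ, true_and]

theorem sec_rc_mem_bandUp (ρ : Ray) (β : ℕ) (κ : Cell (16 * M₁) (16 * M₂)) :
    κ ∈ (ρ.bandUp β : Finset (Cell (16 * M₁) (16 * M₂))) ↔ 16 * ρ.lo ≤ secAl ρ κ ∧ secAl ρ κ < 16 * ρ.hi ∧
      16 * (ρ.pos + 1) ≤ secAc ρ κ ∧ secAc ρ κ < 16 * (ρ.pos + 1) + β := by
  unfold Ray.bandUp
  rw [Finset.mem_filter, sec_rc_mem_band]
  change _ ∧ 16 * (ρ.pos + 1) ≤ secAc ρ κ ↔ _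
  omega

theorem sec_rc_mem_lineF (ρ : Ray) (d : ℕ) (f : CFace (16 * M₁) (16 * M₂)) :
    f ∈ (ρ.lineF d : Finset (CFace (16 * M₁) (16 * M₂))) ↔ f.2 = (!ρ.hor) ∧ 16 * ρ.lo ≤ secAl ρ f.1 ∧ secAl ρ f.1 < 16 * ρ.hi ∧
      (secAc ρ f.1 + 1 = 16 * (ρ.pos + 1) + d ∨ secAc ρ f.1 + 1 + d = 16 * (ρ.pos + 1)) := by
  unfold Ray.lineF secAl secAc
  simp only [Finset.mem_filter, Finset.mem_univ, true_and]

theorem sec_rc_mem_fine (s : ℕ) (A : Finset (Cell M₁ M₂)) (κ : Cell (s * M₁) (s * M₂)) : κ ∈ fine s A ↔ coarse s κ ∈ A := by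
  unfold fine
  simp only [Finset.mem_filter, Finset.mem_univ, true_and]

/-- consequences of `Ray.Ok` -/
theorem sec_rc_corr_sub {ρ : Ray} {Γ : CGeom M₁ M₂} (h : ρ.Ok Γ) : (ρ.corr : Finset (Cell M₁ M₂)) ⊆ Γ.T := by
  intro κ hκ
  rw [sec_rc_mem_corr] at hκ
  have h1 := h.2.1 (secAl ρ κ) hκ.2.1 hκ.2.2
  rw [sec_rc_has, sec_rc_has] at h1
  rcases hκ.1 with h2 | h2
  · obtain ⟨κ', a, b, c⟩ := h1.1
    rwa [sec_rc_ext ρ b.symm (h2.trans c.symm)]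
  · obtain ⟨κ', a, b, c⟩ := h1.2
    rwa [sec_rc_ext ρ b.symm (h2.trans c.symm)]

theorem sec_rc_end {ρ : Ray} {Γ : CGeom M₁ M₂} (h : ρ.Ok Γ) {κ : Cell M₁ M₂} (hκ : κ ∈ Γ.T)
    (hac : secAc ρ κ = ρ.pos ∨ secAc ρ κ = ρ.pos + 1) : secAl ρ κ + 1 ≠ ρ.lo ∧ secAl ρ κ ≠ ρ.hi := by
  have key : ∀ i, i + 1 = ρ.lo ∨ i = ρ.hi → secAl ρ κ ≠ i := by
    intro i hi e
    have h1 := h.2.2.1 i hi
    rw [sec_rc_has, sec_rc_has] at h1
    rcases hac with h2 | h2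
    · exact h1.1 ⟨κ, hκ, e, h2⟩
    · exact h1.2 ⟨κ, hκ, e, h2⟩
  exact ⟨fun e => key _ (Or.inl e) rfl, fun e => key _ (Or.inr e) rfl⟩

/-- a band lies in the corridor -/
theorem sec_rc_band_corr (ρ : Ray) {α β : ℕ} (hβ : β ≤ 16) {κ : Cell (16 * M₁) (16 * M₂)} (h : κ ∈ (ρ.band α β : Finset (Cell (16 * M₁) (16 * M₂)))) :
    coarse 16 κ ∈ (ρ.corr : Finset (Cell M₁ M₂)) := by
  rw [sec_rc_mem_band] at h
  rw [sec_rc_mem_corr, (sec_rc_coarse ρ 16 κ).1, (sec_rc_coarse ρ 16 κ).2]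
  omega

/-- behind the ends of the corridor there is no fine cell -/
theorem sec_rc_fine_end {ρ : Ray} {Γ : CGeom M₁ M₂} (h : ρ.Ok Γ) {κ : Cell (16 * M₁) (16 * M₂)} (hκ : κ ∈ fine 16 Γ.T)
    (h1 : 16 * ρ.pos ≤ secAc ρ κ) (h2 : secAc ρ κ < 16 * (ρ.pos + 2)) : secAl ρ κ + 1 ≠ 16 * ρ.lo ∧ secAl ρ κ ≠ 16 * ρ.hi := by
  rw [sec_rc_mem_fine] at hκ
  have h3 := sec_rc_end h hκ (by rw [(sec_rc_coarse ρ 16 κ).2]; omega)
  rw [(sec_rc_coarse ρ 16 κ).1] at h3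
  omega

end kit2

theorem stage_zero (Γ : CGeom m₁ m₂) (R : Fin r → Ray) : stage Γ R 0 = refine 16 Γ := by
  unfold stage addCut
  simp

theorem stage_full (Γ : CGeom m₁ m₂) (R : Fin r → Ray) : stage Γ R r = addCut (refine 16 Γ) (Finset.univ.biUnion fun j => (R j).lineF 2) := by
  unfold stage
  rw [Finset.filter_true_of_mem fun j _ => j.2]

theorem stage_succ (Γ : CGeom m₁ m₂) (R : Fin r → Ray) (i : Fin r) : stage Γ R (i.1 + 1) = addCut (stage Γ R i.1) ((R i).lineF 2) := by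
  unfold stage addCut
  have e : (Finset.univ.filter fun j : Fin r => j.1 < i.1 + 1) = insert i (Finset.univ.filter fun j : Fin r => j.1 < i.1) := by
    ext j
    simp only [Finset.mem_filter, Finset.mem_univ, true_and, Finset.mem_insert, Fin.ext_iff]
    omega
  simp only [e, Finset.biUnion_insert]
  congr 1
  rw [Finset.union_assoc, Finset.union_comm ((R i).lineF 2)]

/-- the patch lies in the geometry and carries no pin -/
theorem patch_sub (Γ : CGeom m₁ m₂) (R : Fin r → Ray) (hR : RaysOk Γ R) (i : Fin r) :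
    (R i).patch.W ⊆ fine 16 Γ.T ∧ Disjoint (R i).patch.W (fine 16 Γ.pin) := by
  have key : ∀ κ ∈ (R i).patch.W, coarse 16 κ ∈ ((R i).corr : Finset (Cell m₁ m₂)) := by
    intro κ hκ
    unfold Patch.W Ray.patch at hκ
    simp only [Finset.mem_union] at hκ
    rcases hκ with (h | h) | h <;> exact sec_rc_band_corr _ (by norm_num) h
  refine ⟨fun κ hκ => (sec_rc_mem_fine _ _ _).2 (sec_rc_corr_sub (hR.1 i) (key κ hκ)), ?_⟩
  rw [Finset.disjoint_left]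
  intro κ hκ h2
  exact Finset.disjoint_left.1 (hR.1 i).2.2.2 (key κ hκ) ((sec_rc_mem_fine _ _ _).1 h2)

/-! ### kit 3: patches -/

section kit3

variable {M₁ M₂ : ℕ}

theorem sec_rc_mem_fineF (s : ℕ) (F : Finset (CFace M₁ M₂)) (f : CFace (s * M₁) (s * M₂)) :
    f ∈ fineF s F ↔ (coarse s f.1, f.2) ∈ F ∧ (if f.2 then (f.1.1.1 + 1) % s = 0 else (f.1.2.1 + 1) % s = 0) := by
  unfold fineF
  simp only [Finset.mem_filter, Finset.mem_univ, true_and]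

/-- a fine face is interior to a coarse cell or lies on a coarse face -/
theorem sec_rc_nbr_coarse {s : ℕ} {f : CFace (s * M₁) (s * M₂)} {κ' : Cell (s * M₁) (s * M₂)} (h : FaceNbr f κ') :
    (coarse s f.1 = coarse s κ' ∧ ¬ (if f.2 then (f.1.1.1 + 1) % s = 0 else (f.1.2.1 + 1) % s = 0)) ∨
    (FaceNbr (coarse s f.1, f.2) (coarse s κ') ∧ (if f.2 then (f.1.1.1 + 1) % s = 0 else (f.1.2.1 + 1) % s = 0)) := by
  unfold FaceNbr at h ⊢
  cases hf : f.2 with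
  | true =>
    simp only [hf, if_true] at h ⊢
    by_cases hm : (f.1.1.1 + 1) % s = 0
    · right
      refine ⟨⟨?_, ?_⟩, hm⟩
      · show κ'.1.1 / s = f.1.1.1 / s + 1
        rw [h.1, Nat.succ_div, if_pos (Nat.dvd_of_mod_eq_zero hm)]
      · show (⟨κ'.2.1 / s, _⟩ : Fin M₂) = ⟨f.1.2.1 / s, _⟩
        rw [Fin.mk.injEq, h.2]
    · left
      refine ⟨Prod.ext (Fin.ext ?_) (Fin.ext ?_), hm⟩
      · show f.1.1.1 / s = κ'.1.1 / s
        rw [h.1, Nat.succ_div, if_neg (fun hd => hm (Nat.mod_eq_zero_of_dvd hd)), add_zero]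
      · show f.1.2.1 / s = κ'.2.1 / s
        rw [h.2]
  | false =>
    simp only [hf, Bool.false_eq_true, if_false] at h ⊢
    by_cases hm : (f.1.2.1 + 1) % s = 0
    · right
      refine ⟨⟨?_, ?_⟩, hm⟩
      · show (⟨κ'.1.1 / s, _⟩ : Fin M₁) = ⟨f.1.1.1 / s, _⟩
        rw [Fin.mk.injEq, h.1]
      · show κ'.2.1 / s = f.1.2.1 / s + 1
        rw [h.2, Nat.succ_div, if_pos (Nat.dvd_of_mod_eq_zero hm)]
    · left
      refine ⟨Prod.ext (Fin.ext ?_) (Fin.ext ?_), hm⟩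
      · show f.1.1.1 / s = κ'.1.1 / s
        rw [h.1]
      · show f.1.2.1 / s = κ'.2.1 / s
        rw [h.2, Nat.succ_div, if_neg (fun hd => hm (Nat.mod_eq_zero_of_dvd hd)), add_zero]

theorem sec_rc_fine_mono (s : ℕ) {A B : Finset (Cell M₁ M₂)} (h : A ⊆ B) : fine s A ⊆ fine s B := by
  intro κ hκ
  rw [sec_rc_mem_fine] at hκ ⊢
  exact h hκ

theorem sec_rc_fine_disj (s : ℕ) {A B : Finset (Cell M₁ M₂)} (h : Disjoint A B) : Disjoint (fine s A) (fine s B) := by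
  rw [Finset.disjoint_left] at h ⊢
  intro κ hκ hκ'
  rw [sec_rc_mem_fine] at hκ hκ'
  exact h hκ hκ'

theorem sec_rc_fine_W (s : ℕ) (P : Patch M₁ M₂) : (P.fine s).W = fine s P.W := by
  unfold Patch.W Patch.fine
  rw [fine_union, fine_union]

/-- admissibility of a patch passes to refinements -/
theorem sec_rc_patch_fine {P : Patch M₁ M₂} {Γ : CGeom M₁ M₂} (h : P.Ok Γ) (s : ℕ) : (P.fine s).Ok (refine s Γ) := by
  obtain ⟨a1, a2, a3, a4, a5, a6, a7, a8, a9, a10, a11, a12⟩ := h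
  have hW := sec_rc_fine_W s P
  refine ⟨?_, sec_rc_fine_disj s a2, sec_rc_fine_disj s a3, sec_rc_fine_disj s a4, ?_, sec_rc_fine_mono s a6, ?_, sec_rc_fine_mono s a8, ?_, ?_, ?_, ?_⟩
  · rw [hW]; exact sec_rc_fine_mono s a1
  · rw [hW]; exact sec_rc_fine_disj s a5
  · rw [hW]
    show fine s P.H' ∩ fine s P.W ⊆ fine s P.J
    rw [← fine_inter]
    exact sec_rc_fine_mono s a7
  · intro f hf κ' hn
    have hf' := (sec_rc_mem_fineF s P.S f).1 hf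
    rcases sec_rc_nbr_coarse hn with h1 | h1
    · exact absurd hf'.2 h1.2
    · have := a9 _ hf'.1 _ h1.1
      exact ⟨(sec_rc_mem_fine _ _ _).2 this.1, (sec_rc_mem_fine _ _ _).2 this.2⟩
  · intro f hf κ' hn
    have hf' := (sec_rc_mem_fineF s P.bW f).1 hf
    rcases sec_rc_nbr_coarse hn with h1 | h1
    · exact absurd hf'.2 h1.2
    · have := a10 _ hf'.1 _ h1.1
      exact ⟨(sec_rc_mem_fine _ _ _).2 this.1, (sec_rc_mem_fine _ _ _).2 this.2⟩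
  · intro f κ' hn hc h1 h2
    rw [hW]
    show (f.1 ∈ fine s P.I → κ' ∈ fine s P.I ∪ fine s P.p) ∧ (κ' ∈ fine s P.I → f.1 ∈ fine s P.I ∪ fine s P.p) ∧
      ((f.1 ∈ fine s P.W ∧ κ' ∉ fine s P.W) ∨ (f.1 ∉ fine s P.W ∧ κ' ∈ fine s P.W) → f ∈ fineF s P.bW)
    rw [← fine_union]
    simp only [sec_rc_mem_fine]
    have h1' : coarse s f.1 ∈ Γ.T := (sec_rc_mem_fine _ _ _).1 h1
    have h2' : coarse s κ' ∈ Γ.T := (sec_rc_mem_fine _ _ _).1 h2
    rcases sec_rc_nbr_coarse hn with h3 | h3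
    · rw [h3.1]
      refine ⟨fun h => Finset.mem_union_left _ h, fun h => Finset.mem_union_left _ h, ?_⟩
      rintro (h | h)
      · exact absurd h.1 h.2
      · exact absurd h.2 h.1
    · have hc' : (coarse s f.1, f.2) ∉ Γ.cutF := fun hh => hc ((sec_rc_mem_fineF s Γ.cutF f).2 ⟨hh, h3.2⟩)
      have := a11 _ _ h3.1 hc' h1' h2'
      exact ⟨this.1, this.2.1, fun h => (sec_rc_mem_fineF s P.bW f).2 ⟨this.2.2 h, h3.2⟩⟩
  · intro f hf κ' hn
    have hf' := (sec_rc_mem_fineF s P.bW f).1 hf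
    rw [hW]
    simp only [sec_rc_mem_fine]
    rcases sec_rc_nbr_coarse hn with h1 | h1
    · exact absurd hf'.2 h1.2
    · exact a12 _ hf'.1 _ h1.1

end kit3

theorem sec_rc_mem_W (ρ : Ray) (κ : Cell (16 * m₁) (16 * m₂)) : κ ∈ (ρ.patch : Patch (16 * m₁) (16 * m₂)).W ↔ κ ∈ (ρ.band 0 7 : Finset (Cell (16 * m₁) (16 * m₂))) := by
  unfold Patch.W Ray.patch
  simp only [Finset.mem_union, sec_rc_mem_band]
  omega

/-- neighbours (in `T`) of a cell of a band: the distance from the string changes by at most one, the ends of the corridor are walls -/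
theorem sec_rc_band_step {ρ : Ray} {Γ : CGeom m₁ m₂} (h : ρ.Ok Γ) {f : CFace (16 * m₁) (16 * m₂)} {κ' : Cell (16 * m₁) (16 * m₂)}
    (hn : FaceNbr f κ') (h1 : f.1 ∈ fine 16 Γ.T) (h2 : κ' ∈ fine 16 Γ.T) (β : ℕ) (hβ : β ≤ 15) :
    (f.1 ∈ (ρ.band 0 β : Finset (Cell (16 * m₁) (16 * m₂))) → κ' ∈ (ρ.band 0 (β + 1) : Finset (Cell (16 * m₁) (16 * m₂)))) ∧
    (κ' ∈ (ρ.band 0 β : Finset (Cell (16 * m₁) (16 * m₂))) → f.1 ∈ (ρ.band 0 (β + 1) : Finset (Cell (16 * m₁) (16 * m₂)))) ∧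
    ((f.1 ∈ (ρ.band 0 β : Finset (Cell (16 * m₁) (16 * m₂))) ∧ κ' ∉ (ρ.band 0 β : Finset (Cell (16 * m₁) (16 * m₂)))) ∨
      (f.1 ∉ (ρ.band 0 β : Finset (Cell (16 * m₁) (16 * m₂))) ∧ κ' ∈ (ρ.band 0 β : Finset (Cell (16 * m₁) (16 * m₂)))) → f ∈ (ρ.lineF β : Finset (CFace (16 * m₁) (16 * m₂)))) := by
  simp only [sec_rc_mem_band, sec_rc_mem_lineF]
  have e1 := fun a b => sec_rc_fine_end h h1 a b
  have e2 := fun a b => sec_rc_fine_end h h2 a b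
  rcases sec_rc_nbr ρ hn with ⟨a, b, c⟩ | ⟨a, b, c⟩
  · refine ⟨by omega, by omega, fun hh => ⟨a, ?_⟩⟩
    omega
  · refine ⟨?_, ?_, ?_⟩
    · intro hh
      have := e2 (by omega) (by omega)
      omega
    · intro hh
      have := e1 (by omega) (by omega)
      omega
    · intro hh
      exfalso
      rcases hh with hh | hh
      · have := e2 (by omega) (by omega)
        omega
      · have := e1 (by omega) (by omega)
        omega

theorem sec_rc_stage_T (Γ : CGeom m₁ m₂) (R : Fin r → Ray) (i : ℕ) : (stage Γ R i).T = fine 16 Γ.T := rfl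

theorem sec_rc_stage_pin (Γ : CGeom m₁ m₂) (R : Fin r → Ray) (i : ℕ) : (stage Γ R i).pin = fine 16 Γ.pin := rfl

/-- the patch of a string is admissible in every geometry with the cells and pins of the 16-fold refinement -/
theorem sec_rc_patch_ok (Γ : CGeom m₁ m₂) (R : Fin r → Ray) (hR : RaysOk Γ R) (i : Fin r) (Γ' : CGeom (16 * m₁) (16 * m₂))
    (hT : Γ'.T = fine 16 Γ.T) (hp : Γ'.pin = fine 16 Γ.pin) : (R i).patch.Ok Γ' := by
  have hO := hR.1 i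
  have hsub := patch_sub Γ R hR i
  have hb : ∀ (α β : ℕ), β ≤ 16 → ((R i).band α β : Finset (Cell (16 * m₁) (16 * m₂))) ⊆ fine 16 Γ.T := fun α β hβ κ hκ =>
    (sec_rc_mem_fine _ _ _).2 (sec_rc_corr_sub hO (sec_rc_band_corr _ hβ hκ))
  refine ⟨hT ▸ hsub.1, ?_, ?_, ?_, hp ▸ hsub.2, ?_, ?_, hT ▸ hb 6 8 (by norm_num), ?_, ?_, ?_, ?_⟩
  · rw [Finset.disjoint_left]
    intro κ h1 h2
    change κ ∈ (R i).band 0 4 at h1
    change κ ∈ (R i).band 4 5 at h2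
    rw [sec_rc_mem_band] at h1 h2
    omega
  · rw [Finset.disjoint_left]
    intro κ h1 h2
    change κ ∈ (R i).band 0 4 at h1
    change κ ∈ (R i).band 5 7 at h2
    rw [sec_rc_mem_band] at h1 h2
    omega
  · rw [Finset.disjoint_left]
    intro κ h1 h2
    change κ ∈ (R i).band 4 5 at h1
    change κ ∈ (R i).band 5 7 at h2
    rw [sec_rc_mem_band] at h1 h2
    omega
  · intro κ h1
    change κ ∈ (R i).band 1 3 at h1
    change κ ∈ (R i).band 0 4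
    rw [sec_rc_mem_band] at h1 ⊢
    omega
  · intro κ h1
    rw [Finset.mem_inter, sec_rc_mem_W] at h1
    obtain ⟨h1, h2⟩ := h1
    change κ ∈ (R i).band 6 8 at h1
    change κ ∈ (R i).band 5 7
    rw [sec_rc_mem_band] at h1 h2 ⊢
    omega
  · intro f hf κ' hn
    change f ∈ (R i).lineF 2 at hf
    change f.1 ∈ (R i).band 1 3 ∧ κ' ∈ (R i).band 1 3
    rw [sec_rc_mem_lineF] at hf
    rw [sec_rc_mem_band, sec_rc_mem_band]
    rcases sec_rc_nbr (R i) hn with ⟨a, b, c⟩ | ⟨a, b, c⟩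
    · omega
    · exact absurd (hf.1.symm.trans a) (by cases (R i).hor <;> simp)
  · intro f hf κ' hn
    change f ∈ (R i).lineF 7 at hf
    change f.1 ∈ (R i).band 6 8 ∧ κ' ∈ (R i).band 6 8
    rw [sec_rc_mem_lineF] at hf
    rw [sec_rc_mem_band, sec_rc_mem_band]
    rcases sec_rc_nbr (R i) hn with ⟨a, b, c⟩ | ⟨a, b, c⟩
    · omega
    · exact absurd (hf.1.symm.trans a) (by cases (R i).hor <;> simp)
  · intro f κ' hn _ h1 h2
    rw [hT] at h1 h2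
    have s4 := sec_rc_band_step hO hn h1 h2 4 (by norm_num)
    have s7 := sec_rc_band_step hO hn h1 h2 7 (by norm_num)
    have hU : ∀ κ : Cell (16 * m₁) (16 * m₂), κ ∈ (R i).band 0 (4 + 1) → κ ∈ (R i).patch.I ∪ (R i).patch.p := by
      intro κ hκ
      change κ ∈ (R i).band 0 4 ∪ (R i).band 4 5
      rw [Finset.mem_union, sec_rc_mem_band, sec_rc_mem_band]
      rw [sec_rc_mem_band] at hκ
      omega
    refine ⟨fun h => hU _ (s4.1 h), fun h => hU _ (s4.2.1 h), ?_⟩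
    rw [sec_rc_mem_W, sec_rc_mem_W]
    exact s7.2.2
  · intro f hf κ' hn
    change f ∈ (R i).lineF 7 at hf
    rw [sec_rc_mem_W, sec_rc_mem_W, sec_rc_mem_band, sec_rc_mem_band]
    rw [sec_rc_mem_lineF] at hf
    rcases sec_rc_nbr (R i) hn with ⟨a, b, c⟩ | ⟨a, b, c⟩
    · omega
    · exact absurd (hf.1.symm.trans a) (by cases (R i).hor <;> simp)

/-- combinatorics: the patch of the `i`-th string is admissible in the `i`-th stage, at every cell refinement -/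
theorem ray_patch_ok (Γ : CGeom m₁ m₂) (hcut : Γ.cutF = ∅) (R : Fin r → Ray) (hR : RaysOk Γ R) (i : Fin r) (s : ℕ) (hs : 1 ≤ s) :
    ((R i).patch.fine s).Ok (refine s (stage Γ R i.1)) :=
  sec_rc_patch_fine (sec_rc_patch_ok Γ R hR i _ rfl rfl) s

/-! ### part B (helper65): regularity of the refined / cut / restricted geometries -/

theorem sec_rb_adj_symm {M₁ M₂ : ℕ} (Γ : CGeom M₁ M₂) {κ κ' : Cell M₁ M₂} (h : Γ.Adj κ κ') : Γ.Adj κ' κ := by
  obtain ⟨h1, h2, h3⟩ := h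
  refine ⟨h2, h1, ?_⟩
  rcases h3 with h | h | h | h
  · exact Or.inr (Or.inr (Or.inl ⟨h.1, h.2.1.symm, h.2.2⟩))
  · exact Or.inr (Or.inr (Or.inr ⟨h.1.symm, h.2.1, h.2.2⟩))
  · exact Or.inl ⟨h.1, h.2.1.symm, h.2.2⟩
  · exact Or.inr (Or.inl ⟨h.1.symm, h.2.1, h.2.2⟩)

theorem sec_rb_conn_symm {M₁ M₂ : ℕ} (Γ : CGeom M₁ M₂) {κ κ' : Cell M₁ M₂} (h : Γ.Conn κ κ') : Γ.Conn κ' κ := by
  induction h with
  | refl => exact Relation.ReflTransGen.refl
  | tail _ hbc ih => exact Relation.ReflTransGen.head (sec_rb_adj_symm Γ hbc) ih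

/-- a property which is invariant under `Adj` is constant on the components -/
theorem sec_rb_conn_inv {M₁ M₂ : ℕ} (Γ : CGeom M₁ M₂) (P : Cell M₁ M₂ → Prop) (hP : ∀ κ κ', Γ.Adj κ κ' → P κ → P κ')
    {κ κ' : Cell M₁ M₂} (h : Γ.Conn κ κ') : P κ ↔ P κ' := by
  have key : ∀ {a b : Cell M₁ M₂}, Γ.Conn a b → P a → P b := by
    intro a b hab ha
    induction hab with
    | refl => exact ha
    | tail _ hbc ih => exact hP _ _ hbc ih
  exact ⟨key h, key (sec_rb_conn_symm Γ h)⟩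

theorem sec_rb_mem_fine (s : ℕ) (A : Finset (Cell m₁ m₂)) (κ : Cell (s * m₁) (s * m₂)) : κ ∈ fine s A ↔ coarse s κ ∈ A := by
  simp only [fine, Finset.mem_filter, Finset.mem_univ, true_and]

theorem sec_rb_mem_fineF (s : ℕ) (F : Finset (CFace m₁ m₂)) (f : CFace (s * m₁) (s * m₂)) :
    f ∈ fineF s F ↔ (coarse s f.1, f.2) ∈ F ∧ (if f.2 then (f.1.1.1 + 1) % s = 0 else (f.1.2.1 + 1) % s = 0) := by
  simp only [fineF, Finset.mem_filter, Finset.mem_univ, true_and]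

theorem sec_rb_step (s x : ℕ) :
    ((x + 1) % s ≠ 0 ∧ (x + 1) / s = x / s) ∨ ((x + 1) % s = 0 ∧ (x + 1) / s = x / s + 1) := by
  rw [Nat.succ_div]
  by_cases h : s ∣ x + 1
  · right
    exact ⟨Nat.mod_eq_zero_of_dvd h, by rw [if_pos h]⟩
  · left
    exact ⟨fun h' => h (Nat.dvd_of_mod_eq_zero h'), by rw [if_neg h, add_zero]⟩

theorem sec_rb_adj_aux (s : ℕ) (Γ : CGeom m₁ m₂) {κ κ' : Cell (s * m₁) (s * m₂)} (h1 : coarse s κ ∈ Γ.T) (h2 : coarse s κ' ∈ Γ.T)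
    (h : (κ.1.1 + 1 = κ'.1.1 ∧ κ.2 = κ'.2 ∧ (κ, true) ∉ fineF s Γ.cutF) ∨ (κ.1 = κ'.1 ∧ κ.2.1 + 1 = κ'.2.1 ∧ (κ, false) ∉ fineF s Γ.cutF)) :
    coarse s κ = coarse s κ' ∨ Γ.Adj (coarse s κ) (coarse s κ') := by
  rcases h with ⟨a, b, c⟩ | ⟨a, b, c⟩
  · have eb : (coarse s κ).2 = (coarse s κ').2 := by
      apply Fin.ext
      show κ.2.1 / s = κ'.2.1 / s
      rw [b]
    rcases sec_rb_step s κ.1.1 with ⟨e1, e2⟩ | ⟨e1, e2⟩
    · left
      refine Prod.ext ?_ eb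
      apply Fin.ext
      show κ.1.1 / s = κ'.1.1 / s
      rw [← a, e2]
    · right
      refine ⟨h1, h2, Or.inl ⟨?_, eb, ?_⟩⟩
      · show κ.1.1 / s + 1 = κ'.1.1 / s
        rw [← a, e2]
      · intro hc
        exact c ((sec_rb_mem_fineF s Γ.cutF (κ, true)).2 ⟨hc, by simpa using e1⟩)
  · have ea : (coarse s κ).1 = (coarse s κ').1 := by
      apply Fin.ext
      show κ.1.1 / s = κ'.1.1 / s
      rw [a]
    rcases sec_rb_step s κ.2.1 with ⟨e1, e2⟩ | ⟨e1, e2⟩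
    · left
      refine Prod.ext ea ?_
      apply Fin.ext
      show κ.2.1 / s = κ'.2.1 / s
      rw [← b, e2]
    · right
      refine ⟨h1, h2, Or.inr (Or.inl ⟨ea, ?_, ?_⟩)⟩
      · show κ.2.1 / s + 1 = κ'.2.1 / s
        rw [← b, e2]
      · intro hc
        exact c ((sec_rb_mem_fineF s Γ.cutF (κ, false)).2 ⟨hc, by simpa using e1⟩)

theorem sec_rb_adj_coarse (s : ℕ) (Γ : CGeom m₁ m₂) {κ κ' : Cell (s * m₁) (s * m₂)} (h : (refine s Γ).Adj κ κ') :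
    coarse s κ = coarse s κ' ∨ Γ.Adj (coarse s κ) (coarse s κ') := by
  obtain ⟨h1, h2, h3⟩ := h
  have h1' : coarse s κ ∈ Γ.T := (sec_rb_mem_fine s Γ.T κ).1 h1
  have h2' : coarse s κ' ∈ Γ.T := (sec_rb_mem_fine s Γ.T κ').1 h2
  rcases h3 with h | h | h | h
  · exact sec_rb_adj_aux s Γ h1' h2' (Or.inl h)
  · exact sec_rb_adj_aux s Γ h1' h2' (Or.inr h)
  · rcases sec_rb_adj_aux s Γ h2' h1' (Or.inl ⟨h.1, h.2.1.symm, h.2.2⟩) with e | e
    · exact Or.inl e.symm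
    · exact Or.inr (sec_rb_adj_symm Γ e)
  · rcases sec_rb_adj_aux s Γ h2' h1' (Or.inr ⟨h.1.symm, h.2.1, h.2.2⟩) with e | e
    · exact Or.inl e.symm
    · exact Or.inr (sec_rb_adj_symm Γ e)

theorem sec_rb_conn_coarse (s : ℕ) (Γ : CGeom m₁ m₂) {κ κ' : Cell (s * m₁) (s * m₂)} (h : (refine s Γ).Conn κ κ') :
    Γ.Conn (coarse s κ) (coarse s κ') := by
  induction h with
  | refl => exact Relation.ReflTransGen.refl
  | tail _ hbc ih =>
    rcases sec_rb_adj_coarse s Γ hbc with e | e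
    · rw [← e]
      exact ih
    · exact Relation.ReflTransGen.tail ih e

/-- refinement keeps regularity.  [`Conn` in the refined array projects to `Conn` of the coarse cells (`coarse s`); a fine removed face lies on a coarse removed face; diagonal fine cells lie in one, two adjacent or two diagonal coarse cells.] -/
theorem noDiag_refine (Γ : CGeom m₁ m₂) (hΓ : Γ.NoDiag) (s : ℕ) : (refine s Γ).NoDiag := by
  obtain ⟨hA, hB⟩ := hΓ
  have mT : ∀ κ : Cell (s * m₁) (s * m₂), κ ∈ (refine s Γ).T ↔ coarse s κ ∈ Γ.T := fun κ => sec_rb_mem_fine s Γ.T κ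
  have mFt : ∀ κ : Cell (s * m₁) (s * m₂), (κ, true) ∈ (refine s Γ).cutF ↔ (coarse s κ, true) ∈ Γ.cutF ∧ (κ.1.1 + 1) % s = 0 := by
    intro κ
    have := sec_rb_mem_fineF s Γ.cutF (κ, true)
    show (κ, true) ∈ fineF s Γ.cutF ↔ _
    simpa using this
  have mFf : ∀ κ : Cell (s * m₁) (s * m₂), (κ, false) ∈ (refine s Γ).cutF ↔ (coarse s κ, false) ∈ Γ.cutF ∧ (κ.2.1 + 1) % s = 0 := by
    intro κ
    have := sec_rb_mem_fineF s Γ.cutF (κ, false)
    show (κ, false) ∈ fineF s Γ.cutF ↔ _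
    simpa using this
  constructor
  · intro κ κ' hκ hκ' hf hc
    refine hA (coarse s κ) (coarse s κ') ((mT κ).1 hκ) ((mT κ').1 hκ') ?_ (sec_rb_conn_coarse s Γ hc)
    rcases hf with ⟨a, b, c⟩ | ⟨a, b, c⟩
    · obtain ⟨c1, c2⟩ := (mFt κ).1 c
      left
      rcases sec_rb_step s κ.1.1 with ⟨e1, e2⟩ | ⟨e1, e2⟩
      · exact absurd c2 e1
      · refine ⟨?_, ?_, c1⟩
        · show κ.1.1 / s + 1 = κ'.1.1 / s
          rw [← a, e2]
        · apply Fin.ext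
          show κ.2.1 / s = κ'.2.1 / s
          rw [b]
    · obtain ⟨c1, c2⟩ := (mFf κ).1 c
      right
      rcases sec_rb_step s κ.2.1 with ⟨e1, e2⟩ | ⟨e1, e2⟩
      · exact absurd c2 e1
      · refine ⟨?_, ?_, c1⟩
        · apply Fin.ext
          show κ.1.1 / s = κ'.1.1 / s
          rw [a]
        · show κ.2.1 / s + 1 = κ'.2.1 / s
          rw [← b, e2]
  · intro i j i' j' hi hj
    obtain ⟨I, hI⟩ : ∃ I : Fin m₁, I.1 = i.1 / s := ⟨⟨i.1 / s, Nat.div_lt_of_lt_mul i.2⟩, rfl⟩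
    obtain ⟨I', hI'⟩ : ∃ I : Fin m₁, I.1 = i'.1 / s := ⟨⟨i'.1 / s, Nat.div_lt_of_lt_mul i'.2⟩, rfl⟩
    obtain ⟨J, hJ⟩ : ∃ J : Fin m₂, J.1 = j.1 / s := ⟨⟨j.1 / s, Nat.div_lt_of_lt_mul j.2⟩, rfl⟩
    obtain ⟨J', hJ'⟩ : ∃ J : Fin m₂, J.1 = j'.1 / s := ⟨⟨j'.1 / s, Nat.div_lt_of_lt_mul j'.2⟩, rfl⟩
    have c00 : coarse s (i, j) = (I, J) := Prod.ext (Fin.ext hI.symm) (Fin.ext hJ.symm)
    have c10 : coarse s (i', j) = (I', J) := Prod.ext (Fin.ext hI'.symm) (Fin.ext hJ.symm)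
    have c01 : coarse s (i, j') = (I, J') := Prod.ext (Fin.ext hI.symm) (Fin.ext hJ'.symm)
    have c11 : coarse s (i', j') = (I', J') := Prod.ext (Fin.ext hI'.symm) (Fin.ext hJ'.symm)
    have sI : ((i.1 + 1) % s ≠ 0 ∧ I' = I) ∨ ((i.1 + 1) % s = 0 ∧ I.1 + 1 = I'.1) := by
      rcases sec_rb_step s i.1 with ⟨e1, e2⟩ | ⟨e1, e2⟩
      · exact Or.inl ⟨e1, Fin.ext (by rw [hI', hI, ← hi, e2])⟩
      · exact Or.inr ⟨e1, by rw [hI', hI, ← hi, e2]⟩
    have sJ : ((j.1 + 1) % s ≠ 0 ∧ J' = J) ∨ ((j.1 + 1) % s = 0 ∧ J.1 + 1 = J'.1) := by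
      rcases sec_rb_step s j.1 with ⟨e1, e2⟩ | ⟨e1, e2⟩
      · exact Or.inl ⟨e1, Fin.ext (by rw [hJ', hJ, ← hj, e2])⟩
      · exact Or.inr ⟨e1, by rw [hJ', hJ, ← hj, e2]⟩
    constructor
    · intro hc h00 h11
      have hc' : Γ.Conn (I, J) (I', J') := by
        have := sec_rb_conn_coarse s Γ hc
        rwa [c00, c11] at this
      rw [mT, c00] at h00
      rw [mT, c11] at h11
      rw [mT, mT, mFt, mFt, mFf, mFf, c00, c10, c01]
      rcases sI with ⟨e1, rfl⟩ | ⟨e1, eI⟩ <;> rcases sJ with ⟨f1, rfl⟩ | ⟨f1, eJ⟩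
      · exact Or.inl ⟨h00, fun h => e1 h.2, fun h => f1 h.2⟩
      · exact Or.inr ⟨h11, fun h => hA _ _ h00 h11 (Or.inr ⟨rfl, eJ, h.1⟩) hc', fun h => e1 h.2⟩
      · exact Or.inl ⟨h11, fun h => hA _ _ h00 h11 (Or.inl ⟨eI, rfl, h.1⟩) hc', fun h => f1 h.2⟩
      · rcases (hB I J I' J' eI eJ).1 hc' h00 h11 with ⟨a, b, c⟩ | ⟨a, b, c⟩
        · exact Or.inl ⟨a, fun h => b h.1, fun h => c h.1⟩
        · exact Or.inr ⟨a, fun h => b h.1, fun h => c h.1⟩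
    · intro hc h10 h01
      have hc' : Γ.Conn (I', J) (I, J') := by
        have := sec_rb_conn_coarse s Γ hc
        rwa [c10, c01] at this
      rw [mT, c10] at h10
      rw [mT, c01] at h01
      rw [mT, mT, mFt, mFt, mFf, mFf, c00, c10, c01, c11]
      rcases sI with ⟨e1, rfl⟩ | ⟨e1, eI⟩ <;> rcases sJ with ⟨f1, rfl⟩ | ⟨f1, eJ⟩
      · exact Or.inl ⟨h10, fun h => e1 h.2, fun h => f1 h.2⟩
      · exact Or.inl ⟨h10, fun h => e1 h.2, fun h => hA _ _ h10 h01 (Or.inr ⟨rfl, eJ, h.1⟩) hc'⟩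
      · exact Or.inl ⟨h01, fun h => hA _ _ h01 h10 (Or.inl ⟨eI, rfl, h.1⟩) (sec_rb_conn_symm Γ hc'), fun h => f1 h.2⟩
      · rcases (hB I J I' J' eI eJ).2 hc' h10 h01 with ⟨a, b, c⟩ | ⟨a, b, c⟩
        · exact Or.inl ⟨a, fun h => b h.1, fun h => c h.1⟩
        · exact Or.inr ⟨a, fun h => b h.1, fun h => c h.1⟩

/-- membership in the band `δ < d` is invariant under `Adj` if the faces `lineF d` are removed -/
theorem sec_rb_band_adj {Γ : CGeom m₁ m₂} {ρ : Ray} (hρ : ρ.Ok Γ) (Γ₁ : CGeom (16 * m₁) (16 * m₂)) (hT : Γ₁.T ⊆ fine 16 Γ.T)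
    (d : ℕ) (hd : d ≤ 15) (hc : ρ.lineF d ⊆ Γ₁.cutF) (κ κ' : Cell (16 * m₁) (16 * m₂)) (h : Γ₁.Adj κ κ')
    (hκ : κ ∈ ρ.band 0 d) : κ' ∈ ρ.band 0 d := by
  obtain ⟨-, h2, h3⟩ := h
  rw [sec_rc_mem_band] at hκ ⊢
  have hend := @sec_rc_fine_end m₁ m₂ ρ Γ hρ κ' (hT h2)
  have hl : ∀ f : CFace (16 * m₁) (16 * m₂), f ∉ Γ₁.cutF → ¬ (f.2 = !ρ.hor ∧ 16 * ρ.lo ≤ secAl ρ f.1 ∧ secAl ρ f.1 < 16 * ρ.hi ∧
      (secAc ρ f.1 + 1 = 16 * (ρ.pos + 1) + d ∨ secAc ρ f.1 + 1 + d = 16 * (ρ.pos + 1))) :=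
    fun f hf hh => hf (hc ((sec_rc_mem_lineF ρ d f).2 hh))
  rcases h3 with ⟨a, b, c⟩ | ⟨a, b, c⟩ | ⟨a, b, c⟩ | ⟨a, b, c⟩
  · have c' := hl _ c
    have b' := congrArg Fin.val b
    unfold secAl secAc at *
    cases hh : ρ.hor <;> simp only [hh, if_true, if_false, Bool.not_true, Bool.not_false, Bool.false_eq_true, true_and,
      false_and, not_false_eq_true] at * <;> omega
  · have c' := hl _ c
    have a' := congrArg Fin.val a
    unfold secAl secAc at *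
    cases hh : ρ.hor <;> simp only [hh, if_true, if_false, Bool.not_true, Bool.not_false, Bool.false_eq_true, true_and,
      false_and, not_false_eq_true] at * <;> omega
  · have c' := hl _ c
    have b' := congrArg Fin.val b
    unfold secAl secAc at *
    cases hh : ρ.hor <;> simp only [hh, if_true, if_false, Bool.not_true, Bool.not_false, Bool.false_eq_true, true_and,
      false_and, not_false_eq_true] at * <;> omega
  · have c' := hl _ c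
    have a' := congrArg Fin.val a
    unfold secAl secAc at *
    cases hh : ρ.hor <;> simp only [hh, if_true, if_false, Bool.not_true, Bool.not_false, Bool.false_eq_true, true_and,
      false_and, not_false_eq_true] at * <;> omega

/-- two cells of `T` on the two sides of a face of `lineF d`, at most one step along the string from it: exactly one lies in the band `δ < d` -/
theorem sec_rb_opp {Γ : CGeom m₁ m₂} {ρ : Ray} (hρ : ρ.Ok Γ) (d : ℕ) (hd1 : 1 ≤ d) (hd : d ≤ 15) (f : CFace (16 * m₁) (16 * m₂))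
    (hf : f ∈ ρ.lineF d) (κ₁ κ₂ : Cell (16 * m₁) (16 * m₂)) (h1 : κ₁ ∈ fine 16 Γ.T) (h2 : κ₂ ∈ fine 16 Γ.T)
    (a1 : secAc ρ κ₁ = secAc ρ f.1) (a2 : secAc ρ κ₂ = secAc ρ f.1 + 1)
    (b1 : secAl ρ κ₁ ≤ secAl ρ f.1 + 1) (b1' : secAl ρ f.1 ≤ secAl ρ κ₁ + 1)
    (b2 : secAl ρ κ₂ ≤ secAl ρ f.1 + 1) (b2' : secAl ρ f.1 ≤ secAl ρ κ₂ + 1) :
    ¬ (κ₁ ∈ ρ.band 0 d ↔ κ₂ ∈ ρ.band 0 d) := by
  rw [sec_rc_mem_band, sec_rc_mem_band]
  obtain ⟨-, l1, l2, l3⟩ := (sec_rc_mem_lineF ρ d f).1 hf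
  have e1 := @sec_rc_fine_end m₁ m₂ ρ Γ hρ κ₁ h1
  have e2 := @sec_rc_fine_end m₁ m₂ ρ Γ hρ κ₂ h2
  omega

/-- the refined geometry with full lines `lineF d` of strings removed is regular -/
theorem sec_rb_noDiag_cuts (Γ : CGeom m₁ m₂) (hΓ : Γ.NoDiag) (hcut : Γ.cutF = ∅) (R : Fin r → Ray) (hR : RaysOk Γ R)
    (S : Finset (CFace (16 * m₁) (16 * m₂)))
    (hS : ∀ f ∈ S, ∃ (k : Fin r) (d : ℕ), 1 ≤ d ∧ d ≤ 15 ∧ f ∈ ((R k).lineF d : Finset (CFace (16 * m₁) (16 * m₂))) ∧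
      ((R k).lineF d : Finset (CFace (16 * m₁) (16 * m₂))) ⊆ S) :
    (addCut (refine 16 Γ) S).NoDiag := by
  have hT : (addCut (refine 16 Γ) S).T = fine 16 Γ.T := rfl
  have hF : ∀ f, f ∈ (addCut (refine 16 Γ) S).cutF ↔ f ∈ S := by
    intro f
    show f ∈ fineF 16 Γ.cutF ∪ S ↔ _
    rw [hcut]
    simp [fineF]
  have hconn : ∀ κ κ', (addCut (refine 16 Γ) S).Conn κ κ' → (refine 16 Γ).Conn κ κ' := by
    intro κ κ' h
    refine Relation.ReflTransGen.mono ?_ _ _ h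
    rintro a b ⟨h1, h2, h3⟩
    refine ⟨h1, h2, ?_⟩
    have hm : ∀ f, f ∉ (addCut (refine 16 Γ) S).cutF → f ∉ (refine 16 Γ).cutF := fun f hf hf' => hf (Finset.mem_union_left _ hf')
    rcases h3 with h | h | h | h
    · exact Or.inl ⟨h.1, h.2.1, hm _ h.2.2⟩
    · exact Or.inr (Or.inl ⟨h.1, h.2.1, hm _ h.2.2⟩)
    · exact Or.inr (Or.inr (Or.inl ⟨h.1, h.2.1, hm _ h.2.2⟩))
    · exact Or.inr (Or.inr (Or.inr ⟨h.1, h.2.1, hm _ h.2.2⟩))
  have key : ∀ f ∈ S, ∀ κ₁ κ₂ : Cell (16 * m₁) (16 * m₂), κ₁ ∈ fine 16 Γ.T → κ₂ ∈ fine 16 Γ.T → (addCut (refine 16 Γ) S).Conn κ₁ κ₂ →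
      (∀ ρ : Ray, f.2 = (!ρ.hor) → secAc ρ κ₁ = secAc ρ f.1 ∧ secAc ρ κ₂ = secAc ρ f.1 + 1 ∧ secAl ρ κ₁ ≤ secAl ρ f.1 + 1 ∧
        secAl ρ f.1 ≤ secAl ρ κ₁ + 1 ∧ secAl ρ κ₂ ≤ secAl ρ f.1 + 1 ∧ secAl ρ f.1 ≤ secAl ρ κ₂ + 1) → False := by
    intro f hf κ₁ κ₂ h1 h2 hc hco
    obtain ⟨k, d, hd1, hd, hfl, hsub⟩ := hS f hf
    obtain ⟨a1, a2, b1, b1', b2, b2'⟩ := hco (R k) ((sec_rc_mem_lineF _ _ _).1 hfl).1
    refine sec_rb_opp (hR.1 k) d hd1 hd f hfl κ₁ κ₂ h1 h2 a1 a2 b1 b1' b2 b2' ?_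
    exact sec_rb_conn_inv (addCut (refine 16 Γ) S) (fun κ => κ ∈ ((R k).band 0 d : Finset (Cell (16 * m₁) (16 * m₂))))
      (fun κ κ' hadj hκ => sec_rb_band_adj (hR.1 k) (addCut (refine 16 Γ) S) (le_of_eq hT) d hd (fun f hf => (hF f).2 (hsub hf)) κ κ' hadj hκ) hc
  have keyT : ∀ c κ₁ κ₂ : Cell (16 * m₁) (16 * m₂), (c, true) ∈ (addCut (refine 16 Γ) S).cutF → κ₁ ∈ fine 16 Γ.T → κ₂ ∈ fine 16 Γ.T →
      (addCut (refine 16 Γ) S).Conn κ₁ κ₂ → κ₁.1.1 = c.1.1 → κ₂.1.1 = c.1.1 + 1 → κ₁.2.1 ≤ c.2.1 + 1 → c.2.1 ≤ κ₁.2.1 + 1 →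
      κ₂.2.1 ≤ c.2.1 + 1 → c.2.1 ≤ κ₂.2.1 + 1 → False := by
    intro c κ₁ κ₂ hf h1 h2 hc a1 a2 b1 b1' b2 b2'
    refine key _ ((hF _).1 hf) κ₁ κ₂ h1 h2 hc ?_
    intro ρ hρ
    have hh : ρ.hor = false := by
      cases h : ρ.hor
      · rfl
      · rw [h] at hρ
        exact absurd hρ (by simp)
    unfold secAl secAc
    simp only [hh, Bool.false_eq_true, if_false]
    exact ⟨a1, a2, b1, b1', b2, b2'⟩
  have keyF : ∀ c κ₁ κ₂ : Cell (16 * m₁) (16 * m₂), (c, false) ∈ (addCut (refine 16 Γ) S).cutF → κ₁ ∈ fine 16 Γ.T → κ₂ ∈ fine 16 Γ.T →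
      (addCut (refine 16 Γ) S).Conn κ₁ κ₂ → κ₁.2.1 = c.2.1 → κ₂.2.1 = c.2.1 + 1 → κ₁.1.1 ≤ c.1.1 + 1 → c.1.1 ≤ κ₁.1.1 + 1 →
      κ₂.1.1 ≤ c.1.1 + 1 → c.1.1 ≤ κ₂.1.1 + 1 → False := by
    intro c κ₁ κ₂ hf h1 h2 hc a1 a2 b1 b1' b2 b2'
    refine key _ ((hF _).1 hf) κ₁ κ₂ h1 h2 hc ?_
    intro ρ hρ
    have hh : ρ.hor = true := by
      cases h : ρ.hor
      · rw [h] at hρ
        exact absurd hρ (by simp)
      · rfl
    unfold secAl secAc
    simp only [hh, if_true]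
    exact ⟨a1, a2, b1, b1', b2, b2'⟩
  constructor
  · intro κ κ' hκ hκ' hf hc
    rcases hf with ⟨a, b, c⟩ | ⟨a, b, c⟩
    · have b' := congrArg Fin.val b
      exact keyT κ κ κ' c hκ hκ' hc rfl a.symm (by omega) (by omega) (by omega) (by omega)
    · have a' := congrArg Fin.val a
      exact keyF κ κ κ' c hκ hκ' hc rfl b.symm (by omega) (by omega) (by omega) (by omega)
  · intro i j i' j' hi hj
    constructor
    · intro hc h00 h11
      have n1 : ((i, j), true) ∉ (addCut (refine 16 Γ) S).cutF := fun h =>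
        keyT (i, j) (i, j) (i', j') h h00 h11 hc rfl hi.symm (by simp) (by simp) (by simp only []; omega) (by simp only []; omega)
      have n2 : ((i', j), false) ∉ (addCut (refine 16 Γ) S).cutF := fun h =>
        keyF (i', j) (i, j) (i', j') h h00 h11 hc rfl hj.symm (by simp only []; omega) (by simp only []; omega) (by simp) (by simp)
      have n3 : ((i, j), false) ∉ (addCut (refine 16 Γ) S).cutF := fun h =>
        keyF (i, j) (i, j) (i', j') h h00 h11 hc rfl hj.symm (by simp) (by simp) (by simp only []; omega) (by simp only []; omega)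
      have n4 : ((i, j'), true) ∉ (addCut (refine 16 Γ) S).cutF := fun h =>
        keyT (i, j') (i, j) (i', j') h h00 h11 hc rfl hi.symm (by simp only []; omega) (by simp only []; omega) (by simp) (by simp)
      rcases ((noDiag_refine Γ hΓ 16).2 i j i' j' hi hj).1 (hconn _ _ hc) h00 h11 with ⟨a, -, -⟩ | ⟨a, -, -⟩
      · exact Or.inl ⟨a, n1, n2⟩
      · exact Or.inr ⟨a, n3, n4⟩
    · intro hc h10 h01
      have hc' := sec_rb_conn_symm _ hc
      have n1 : ((i, j), true) ∉ (addCut (refine 16 Γ) S).cutF := fun h =>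
        keyT (i, j) (i, j') (i', j) h h01 h10 hc' rfl hi.symm (by simp only []; omega) (by simp only []; omega) (by simp) (by simp)
      have n2 : ((i, j), false) ∉ (addCut (refine 16 Γ) S).cutF := fun h =>
        keyF (i, j) (i', j) (i, j') h h10 h01 hc rfl hj.symm (by simp only []; omega) (by simp only []; omega) (by simp) (by simp)
      have n3 : ((i', j), false) ∉ (addCut (refine 16 Γ) S).cutF := fun h =>
        keyF (i', j) (i', j) (i, j') h h10 h01 hc rfl hj.symm (by simp) (by simp) (by simp only []; omega) (by simp only []; omega)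
      have n4 : ((i, j'), true) ∉ (addCut (refine 16 Γ) S).cutF := fun h =>
        keyT (i, j') (i, j') (i', j) h h01 h10 hc' rfl hi.symm (by simp) (by simp) (by simp only []; omega) (by simp only []; omega)
      rcases ((noDiag_refine Γ hΓ 16).2 i j i' j' hi hj).2 (hconn _ _ hc) h10 h01 with ⟨a, -, -⟩ | ⟨a, -, -⟩
      · exact Or.inl ⟨a, n1, n2⟩
      · exact Or.inr ⟨a, n3, n4⟩

/-- the restriction of a regular geometry to a combinatorial rectangle is regular -/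
theorem sec_rb_noDiag_restr {M₁ M₂ : ℕ} (Γ : CGeom M₁ M₂) (hΓ : Γ.NoDiag) (W : Finset (Cell M₁ M₂))
    (hW : ∀ (i : Fin M₁) (j : Fin M₂) (i' : Fin M₁) (j' : Fin M₂), (i, j) ∈ W → (i', j') ∈ W → (i', j) ∈ W ∧ (i, j') ∈ W) :
    (restr Γ W).NoDiag := by
  have hT : ∀ κ, κ ∈ (restr Γ W).T ↔ κ ∈ Γ.T ∧ κ ∈ W := fun κ => Finset.mem_inter
  have hconn : ∀ κ κ', (restr Γ W).Conn κ κ' → Γ.Conn κ κ' := by
    intro κ κ' h
    refine Relation.ReflTransGen.mono ?_ _ _ h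
    rintro a b ⟨h1, h2, h3⟩
    exact ⟨((hT a).1 h1).1, ((hT b).1 h2).1, h3⟩
  constructor
  · intro κ κ' hκ hκ' hf hc
    exact hΓ.1 κ κ' ((hT κ).1 hκ).1 ((hT κ').1 hκ').1 hf (hconn _ _ hc)
  · intro i j i' j' hi hj
    constructor
    · intro hc h00 h11
      rw [hT] at h00 h11
      have hw := hW i j i' j' h00.2 h11.2
      rcases (hΓ.2 i j i' j' hi hj).1 (hconn _ _ hc) h00.1 h11.1 with ⟨a, b, c⟩ | ⟨a, b, c⟩
      · exact Or.inl ⟨(hT _).2 ⟨a, hw.1⟩, b, c⟩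
      · exact Or.inr ⟨(hT _).2 ⟨a, hw.2⟩, b, c⟩
    · intro hc h10 h01
      rw [hT] at h10 h01
      have hw := hW i' j i j' h10.2 h01.2
      rcases (hΓ.2 i j i' j' hi hj).2 (hconn _ _ hc) h10.1 h01.1 with ⟨a, b, c⟩ | ⟨a, b, c⟩
      · exact Or.inl ⟨(hT _).2 ⟨a, hw.1⟩, b, c⟩
      · exact Or.inr ⟨(hT _).2 ⟨a, hw.2⟩, b, c⟩

theorem sec_rb_patch_rect (ρ : Ray) (i : Fin (16 * m₁)) (j : Fin (16 * m₂)) (i' : Fin (16 * m₁)) (j' : Fin (16 * m₂))
    (h : (i, j) ∈ (ρ.patch : Patch (16 * m₁) (16 * m₂)).W) (h' : (i', j') ∈ (ρ.patch : Patch (16 * m₁) (16 * m₂)).W) :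
    (i', j) ∈ (ρ.patch : Patch (16 * m₁) (16 * m₂)).W ∧ (i, j') ∈ (ρ.patch : Patch (16 * m₁) (16 * m₂)).W := by
  unfold Patch.W Ray.patch at *
  simp only [Finset.mem_union, sec_rc_mem_band] at *
  unfold secAl secAc at *
  cases hh : ρ.hor <;> simp only [hh, if_true, if_false, Bool.false_eq_true] at * <;> omega

theorem sec_rb_addCut_addCut {M₁ M₂ : ℕ} (Γ : CGeom M₁ M₂) (S S' : Finset (CFace M₁ M₂)) : addCut (addCut Γ S) S' = addCut Γ (S ∪ S') := by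
  simp only [addCut, Finset.union_assoc]

/-- the faces removed in a stage are full lines -/
theorem sec_rb_stage_lines (R : Fin r → Ray) (i : ℕ) (S' : Finset (CFace (16 * m₁) (16 * m₂)))
    (hS' : ∀ f ∈ S', ∃ (k : Fin r) (d : ℕ), 1 ≤ d ∧ d ≤ 15 ∧ f ∈ ((R k).lineF d : Finset (CFace (16 * m₁) (16 * m₂))) ∧
      ((R k).lineF d : Finset (CFace (16 * m₁) (16 * m₂))) ⊆ S') :
    ∀ f ∈ ((Finset.univ.filter fun j : Fin r => j.1 < i).biUnion fun j => ((R j).lineF 2 : Finset (CFace (16 * m₁) (16 * m₂)))) ∪ S',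
      ∃ (k : Fin r) (d : ℕ), 1 ≤ d ∧ d ≤ 15 ∧ f ∈ ((R k).lineF d : Finset (CFace (16 * m₁) (16 * m₂))) ∧
      ((R k).lineF d : Finset (CFace (16 * m₁) (16 * m₂))) ⊆
        ((Finset.univ.filter fun j : Fin r => j.1 < i).biUnion fun j => ((R j).lineF 2 : Finset (CFace (16 * m₁) (16 * m₂)))) ∪ S' := by
  intro f hf
  rcases Finset.mem_union.1 hf with h | h
  · obtain ⟨k, hk, hfk⟩ := Finset.mem_biUnion.1 h
    exact ⟨k, 2, by norm_num, by norm_num, hfk, fun f' hf' => Finset.mem_union_left _ (Finset.mem_biUnion.2 ⟨k, hk, hf'⟩)⟩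
  · obtain ⟨k, d, h1, h2, h3, h4⟩ := hS' f h
    exact ⟨k, d, h1, h2, h3, h4.trans Finset.subset_union_right⟩

theorem sec_rb_stage_cut (Γ : CGeom m₁ m₂) (hΓ : Γ.NoDiag) (hcut : Γ.cutF = ∅) (R : Fin r → Ray) (hR : RaysOk Γ R) (i : ℕ)
    (S' : Finset (CFace (16 * m₁) (16 * m₂)))
    (hS' : ∀ f ∈ S', ∃ (k : Fin r) (d : ℕ), 1 ≤ d ∧ d ≤ 15 ∧ f ∈ ((R k).lineF d : Finset (CFace (16 * m₁) (16 * m₂))) ∧
      ((R k).lineF d : Finset (CFace (16 * m₁) (16 * m₂))) ⊆ S') :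
    (addCut (stage Γ R i) S').NoDiag := by
  unfold stage
  rw [sec_rb_addCut_addCut]
  exact sec_rb_noDiag_cuts Γ hΓ hcut R hR _ (sec_rb_stage_lines R i S' hS')

/-- all geometries of the proof are regular: stages, with or without the artificial boundary of a patch removed, and the patches themselves.
[Every cut isolates: membership in a band `{δ < β}` of a string whose faces `lineF β` are removed is invariant under `Adj` (behind both ends of the corridor there is no cell), hence under `Conn`.] -/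
theorem stage_noDiag (Γ : CGeom m₁ m₂) (hΓ : Γ.NoDiag) (hcut : Γ.cutF = ∅) (R : Fin r → Ray) (hR : RaysOk Γ R) (i : ℕ) :
    (stage Γ R i).NoDiag := by
  have h := sec_rb_stage_cut Γ hΓ hcut R hR i ∅ (fun f hf => absurd hf (Finset.notMem_empty f))
  have e : addCut (stage Γ R i) ∅ = stage Γ R i := by
    simp only [addCut, Finset.union_empty]
  rwa [e] at h

theorem stage_reg (Γ : CGeom m₁ m₂) (hΓ : Γ.NoDiag) (hcut : Γ.cutF = ∅) (R : Fin r → Ray) (hR : RaysOk Γ R) (i : ℕ) (j : Fin r) :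
    (addCut (stage Γ R i) ((R j).lineF 2 ∪ (R j).lineF 7)).NoDiag ∧
    (restr (stage Γ R i) (R j).patch.W).NoDiag ∧ (restr (addCut (stage Γ R i) ((R j).lineF 2)) (R j).patch.W).NoDiag := by
  refine ⟨?_, ?_, ?_⟩
  · apply sec_rb_stage_cut Γ hΓ hcut R hR i
    intro f hf
    rcases Finset.mem_union.1 hf with h | h
    · exact ⟨j, 2, by norm_num, by norm_num, h, Finset.subset_union_left⟩
    · exact ⟨j, 7, by norm_num, by norm_num, h, Finset.subset_union_right⟩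
  · exact sec_rb_noDiag_restr _ (stage_noDiag Γ hΓ hcut R hR i) _ (sec_rb_patch_rect (R j))
  · refine sec_rb_noDiag_restr _ ?_ _ (sec_rb_patch_rect (R j))
    apply sec_rb_stage_cut Γ hΓ hcut R hR i
    intro f hf
    exact ⟨j, 2, by norm_num, by norm_num, hf, Finset.Subset.refl _⟩

/-! ### kit 4: the connection as a gradient -/

theorem sec_rc_fineF_faces (ρ : Ray) : fineF 16 (ρ.faces : Finset (CFace m₁ m₂)) = ρ.lineF 0 := by
  ext f
  rw [sec_rc_mem_fineF, sec_rc_mem_faces, sec_rc_mem_lineF, (sec_rc_coarse ρ 16 f.1).1, (sec_rc_coarse ρ 16 f.1).2]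
  constructor
  · rintro ⟨⟨a, b⟩, c⟩
    have c' : (secAc ρ f.1 + 1) % 16 = 0 := by
      unfold secAc
      change f.2 = !ρ.hor at a
      cases hb : ρ.hor <;> simp only [hb, Bool.not_true, Bool.not_false] at a <;> simpa [a] using c
    refine ⟨a, ?_⟩
    omega
  · rintro ⟨a, b⟩
    refine ⟨⟨a, by omega⟩, ?_⟩
    have c' : (secAc ρ f.1 + 1) % 16 = 0 := by omega
    unfold secAc at c'
    cases hb : ρ.hor <;> simp only [hb, Bool.not_true, Bool.not_false] at a <;> simpa [a, hb] using c'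

theorem sec_rc_term (ρ : Ray) (β : ℕ) (hβ : 1 ≤ β) (c : ℤ) {b : Bool} {κ₁ κ₂ : Cell (16 * m₁) (16 * m₂)} (hn : κ₁ = κ₂ ∨ FaceNbr (κ₁, b) κ₂)
    (H1 : κ₁ ∈ (ρ.bandUp β : Finset (Cell (16 * m₁) (16 * m₂))) → κ₂ ∈ (ρ.bandUp β : Finset (Cell (16 * m₁) (16 * m₂))))
    (H2 : κ₁ ∉ (ρ.bandUp β : Finset (Cell (16 * m₁) (16 * m₂))) → κ₂ ∈ (ρ.bandUp β : Finset (Cell (16 * m₁) (16 * m₂))) →
      (κ₁, b) ∈ (ρ.lineF 0 : Finset (CFace (16 * m₁) (16 * m₂)))) :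
    (if κ₁ ≠ κ₂ ∧ (κ₁, b) ∈ (ρ.lineF 0 : Finset (CFace (16 * m₁) (16 * m₂))) then c else 0)
      = (if κ₂ ∈ (ρ.bandUp β : Finset (Cell (16 * m₁) (16 * m₂))) then c else 0) - (if κ₁ ∈ (ρ.bandUp β : Finset (Cell (16 * m₁) (16 * m₂))) then c else 0) := by
  by_cases h1 : κ₁ ∈ (ρ.bandUp β : Finset (Cell (16 * m₁) (16 * m₂)))
  · rw [if_pos h1, if_pos (H1 h1), sub_self, if_neg]
    rintro ⟨-, h3⟩
    rw [sec_rc_mem_lineF] at h3
    rw [sec_rc_mem_bandUp] at h1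
    have h4 : secAc ρ κ₁ + 1 = 16 * (ρ.pos + 1) + 0 ∨ secAc ρ κ₁ + 1 + 0 = 16 * (ρ.pos + 1) := h3.2.2.2
    omega
  · by_cases h2 : κ₂ ∈ (ρ.bandUp β : Finset (Cell (16 * m₁) (16 * m₂)))
    · rw [if_pos h2, if_neg h1, sub_zero, if_pos ⟨fun e => h1 (e ▸ h2), H2 h1 h2⟩]
    · rw [if_neg h2, if_neg h1, sub_zero, if_neg]
      rintro ⟨h3, h4⟩
      rcases hn with hn | hn
      · exact h3 hn
      · apply h2
        rw [sec_rc_mem_lineF] at h4
        rw [sec_rc_mem_bandUp]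
        obtain ⟨h4a, h4b, h4c, h4d⟩ := h4
        change b = !ρ.hor at h4a
        change 16 * ρ.lo ≤ secAl ρ κ₁ at h4b
        change secAl ρ κ₁ < 16 * ρ.hi at h4c
        change secAc ρ κ₁ + 1 = 16 * (ρ.pos + 1) + 0 ∨ secAc ρ κ₁ + 1 + 0 = 16 * (ρ.pos + 1) at h4d
        rcases sec_rc_nbr ρ hn with ⟨x, y, z⟩ | ⟨x, y, z⟩
        · change secAl ρ κ₂ = secAl ρ κ₁ at y
          change secAc ρ κ₂ = secAc ρ κ₁ + 1 at z
          omega
        · change b = ρ.hor at x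
          exact absurd (h4a.symm.trans x) (by cases ρ.hor <;> simp)

theorem sec_rc_conn_grad (R : Fin r → Ray) {g : DGrid m₁ m₂} {g' : DGrid (16 * m₁) (16 * m₂)} (hg : Refines 16 g' g) (β : ℕ) (hβ : 1 ≤ β)
    {e : Bond} {κ₁ κ₂ : Cell (16 * m₁) (16 * m₂)} (c1 : e.1 ∈ g'.cell κ₁) (c2 : e.snd ∈ g'.cell κ₂)
    (H1 : ∀ j, κ₁ ∈ ((R j).bandUp β : Finset (Cell (16 * m₁) (16 * m₂))) → κ₂ ∈ ((R j).bandUp β : Finset (Cell (16 * m₁) (16 * m₂))))
    (H2 : ∀ j, κ₁ ∉ ((R j).bandUp β : Finset (Cell (16 * m₁) (16 * m₂))) → κ₂ ∈ ((R j).bandUp β : Finset (Cell (16 * m₁) (16 * m₂))) →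
      (κ₁, e.2) ∈ ((R j).lineF 0 : Finset (CFace (16 * m₁) (16 * m₂)))) :
    connB g R e = liftPot g' R β e.snd - liftPot g' R β e.1 := by
  unfold connB liftPot
  rw [← Finset.sum_sub_distrib]
  apply Finset.sum_congr rfl
  intro j _
  rw [← crossB_fineF hg, sec_rc_fineF_faces]
  simp only [sec_rc_mem_crossB g' c1 c2, sec_rc_mem_region g' c1, sec_rc_mem_region g' c2]
  exact sec_rc_term (R j) β hβ _ (sec_rc_bond g' c1 c2) (H1 j) (H2 j)

/-- on the graph with the faces at distance `β` removed the connection is the gradient of `liftPot` -/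
theorem conn_eq_grad (Γ : CGeom m₁ m₂) (hcut : Γ.cutF = ∅) (R : Fin r → Ray) (hR : RaysOk Γ R) (g : DGrid m₁ m₂)
    (g' : DGrid (16 * m₁) (16 * m₂)) (hg : Refines 16 g' g) (β : ℕ) (hβ : 1 ≤ β) (hβ' : β ≤ 15) (e : Bond)
    (he : e ∈ domBonds (g.region Γ.T) (crossB g' (Finset.univ.biUnion fun j => (R j).lineF β))) :
    connB g R e = liftPot g' R β e.snd - liftPot g' R β e.1 := by
  have h1 := domBonds_fst he
  have h2 := domBonds_snd he
  have h3 : e ∉ crossB g' (Finset.univ.biUnion fun j => (R j).lineF β) := (Finset.mem_filter.1 he).2.2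
  rw [← region_fine hg] at h1 h2
  obtain ⟨κ₁, t1, c1⟩ := sec_rc_region_cell g' h1
  obtain ⟨κ₂, t2, c2⟩ := sec_rc_region_cell g' h2
  rw [sec_rc_mem_crossB g' c1 c2] at h3
  have hn := sec_rc_bond g' c1 c2
  refine sec_rc_conn_grad R hg β hβ c1 c2 (fun j a => ?_) (fun j a b => ?_)
  · by_contra b
    have hne : κ₁ ≠ κ₂ := fun e => b (e ▸ a)
    have hn' := hn.resolve_left hne
    rw [sec_rc_mem_bandUp] at a b
    have e2 := fun x y => sec_rc_fine_end (hR.1 j) t2 x y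
    rcases sec_rc_nbr (R j) hn' with ⟨x, y, z⟩ | ⟨x, y, z⟩
    · change e.2 = !(R j).hor at x
      change secAl (R j) κ₂ = secAl (R j) κ₁ at y
      change secAc (R j) κ₂ = secAc (R j) κ₁ + 1 at z
      apply h3
      refine ⟨hne, Finset.mem_biUnion.2 ⟨j, Finset.mem_univ _, ?_⟩⟩
      rw [sec_rc_mem_lineF]
      refine ⟨x, ?_⟩
      change 16 * (R j).lo ≤ secAl (R j) κ₁ ∧ secAl (R j) κ₁ < 16 * (R j).hi ∧
        (secAc (R j) κ₁ + 1 = 16 * ((R j).pos + 1) + β ∨ secAc (R j) κ₁ + 1 + β = 16 * ((R j).pos + 1))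
      omega
    · change secAl (R j) κ₂ = secAl (R j) κ₁ + 1 at y
      change secAc (R j) κ₂ = secAc (R j) κ₁ at z
      have := e2 (by omega) (by omega)
      omega
  · have hne : κ₁ ≠ κ₂ := fun e => a (e ▸ b)
    have hn' := hn.resolve_left hne
    rw [sec_rc_mem_bandUp] at a b
    have e1 := fun x y => sec_rc_fine_end (hR.1 j) t1 x y
    rw [sec_rc_mem_lineF]
    change e.2 = (!(R j).hor) ∧ 16 * (R j).lo ≤ secAl (R j) κ₁ ∧ secAl (R j) κ₁ < 16 * (R j).hi ∧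
        (secAc (R j) κ₁ + 1 = 16 * ((R j).pos + 1) + 0 ∨ secAc (R j) κ₁ + 1 + 0 = 16 * ((R j).pos + 1))
    rcases sec_rc_nbr (R j) hn' with ⟨x, y, z⟩ | ⟨x, y, z⟩
    · change secAl (R j) κ₂ = secAl (R j) κ₁ at y
      change secAc (R j) κ₂ = secAc (R j) κ₁ + 1 at z
      refine ⟨x, ?_⟩
      omega
    · change secAl (R j) κ₂ = secAl (R j) κ₁ + 1 at y
      change secAc (R j) κ₂ = secAc (R j) κ₁ at z
      have := e1 (by omega) (by omega)
      omega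

theorem sec_rc_bandUp_corr (ρ : Ray) {β : ℕ} (hβ : β ≤ 16) {κ : Cell (16 * m₁) (16 * m₂)} (h : κ ∈ (ρ.bandUp β : Finset (Cell (16 * m₁) (16 * m₂)))) :
    coarse 16 κ ∈ (ρ.corr : Finset (Cell m₁ m₂)) := sec_rc_band_corr ρ hβ (Finset.mem_filter.1 h).1

theorem sec_rc_lineF_corr (ρ : Ray) {d : ℕ} (hd : d ≤ 15) {f : CFace (16 * m₁) (16 * m₂)} (h : f ∈ (ρ.lineF d : Finset (CFace (16 * m₁) (16 * m₂)))) :
    coarse 16 f.1 ∈ (ρ.corr : Finset (Cell m₁ m₂)) := by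
  rw [sec_rc_mem_lineF] at h
  rw [sec_rc_mem_corr, (sec_rc_coarse ρ 16 f.1).1, (sec_rc_coarse ρ 16 f.1).2]
  omega

/-- inside the patch of the `i`-th string (no face removed) the connection is the gradient of the potential with `β = 7` -/
theorem conn_eq_grad_patch (Γ : CGeom m₁ m₂) (hcut : Γ.cutF = ∅) (R : Fin r → Ray) (hR : RaysOk Γ R) (g : DGrid m₁ m₂)
    (g' : DGrid (16 * m₁) (16 * m₂)) (hg : Refines 16 g' g) (i : Fin r) (e : Bond)
    (h1 : e.1 ∈ g'.region (R i).patch.W) (h2 : e.snd ∈ g'.region (R i).patch.W) :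
    connB g R e = liftPot g' R 7 e.snd - liftPot g' R 7 e.1 := by
  obtain ⟨κ₁, t1, c1⟩ := sec_rc_region_cell g' h1
  obtain ⟨κ₂, t2, c2⟩ := sec_rc_region_cell g' h2
  rw [sec_rc_mem_W] at t1 t2
  have hn := sec_rc_bond g' c1 c2
  have hoff : ∀ j, j ≠ i → ∀ κ : Cell (16 * m₁) (16 * m₂), κ ∈ (R i).band 0 7 → κ ∉ (R j).bandUp 7 := by
    intro j hj κ hκ hκ'
    exact Finset.disjoint_left.1 (hR.2 j i hj) (sec_rc_bandUp_corr _ (by norm_num) hκ') (sec_rc_band_corr _ (by norm_num) hκ)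
  refine sec_rc_conn_grad R hg 7 (by norm_num) c1 c2 (fun j a => ?_) (fun j a b => ?_)
  · by_cases hj : j = i
    · subst hj
      by_contra b
      have hne : κ₁ ≠ κ₂ := fun e => b (e ▸ a)
      have hn' := hn.resolve_left hne
      rw [sec_rc_mem_bandUp] at a b
      rw [sec_rc_mem_band] at t1 t2
      rcases sec_rc_nbr (R j) hn' with ⟨x, y, z⟩ | ⟨x, y, z⟩
      · change secAl (R j) κ₂ = secAl (R j) κ₁ at y
        change secAc (R j) κ₂ = secAc (R j) κ₁ + 1 at z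
        omega
      · change secAl (R j) κ₂ = secAl (R j) κ₁ + 1 at y
        change secAc (R j) κ₂ = secAc (R j) κ₁ at z
        omega
    · exact absurd a (hoff j hj _ t1)
  · by_cases hj : j = i
    · subst hj
      have hne : κ₁ ≠ κ₂ := fun e => a (e ▸ b)
      have hn' := hn.resolve_left hne
      rw [sec_rc_mem_bandUp] at a b
      rw [sec_rc_mem_band] at t1 t2
      rw [sec_rc_mem_lineF]
      change e.2 = (!(R j).hor) ∧ 16 * (R j).lo ≤ secAl (R j) κ₁ ∧ secAl (R j) κ₁ < 16 * (R j).hi ∧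
          (secAc (R j) κ₁ + 1 = 16 * ((R j).pos + 1) + 0 ∨ secAc (R j) κ₁ + 1 + 0 = 16 * ((R j).pos + 1))
      rcases sec_rc_nbr (R j) hn' with ⟨x, y, z⟩ | ⟨x, y, z⟩
      · change secAl (R j) κ₂ = secAl (R j) κ₁ at y
        change secAc (R j) κ₂ = secAc (R j) κ₁ + 1 at z
        refine ⟨x, ?_⟩
        omega
      · change secAl (R j) κ₂ = secAl (R j) κ₁ + 1 at y
        change secAc (R j) κ₂ = secAc (R j) κ₁ at z
        omega
    · exact absurd b (hoff j hj _ t2)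


theorem sec_rc_mem_domBonds (D : Finset (ℤ × ℤ)) (cut : Set Bond) (e : Bond) : e ∈ domBonds D cut ↔ e.1 ∈ D ∧ e.snd ∈ D ∧ e ∉ cut := by
  unfold domBonds
  rw [Finset.mem_filter, Finset.mem_product]
  simp only [Finset.mem_univ, and_true]

/-- the bonds of the big graph which are missing in the cut patch of the `i`-th string cross the strip sides or the artificial boundary, or do not touch the patch.
[behind both ends of the corridor there is no cell; the strips of the other strings lie in other corridors] -/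
theorem patch_bonds (Γ : CGeom m₁ m₂) (hcut : Γ.cutF = ∅) (R : Fin r → Ray) (hR : RaysOk Γ R) (g : DGrid m₁ m₂)
    (g' : DGrid (16 * m₁) (16 * m₂)) (hg : Refines 16 g' g) (i : Fin r) (e : Bond) (he : e ∈ domBonds (g.region Γ.T) ∅)
    (hne : e ∉ bonds (restr (addCut (stage Γ R i.1) ((R i).lineF 2)) (R i).patch.W) g') :
    e ∈ crossB g' ((R i).lineF 2 ∪ (R i).lineF 7) ∨ (e.1 ∉ g'.region (R i).patch.W ∧ e.snd ∉ g'.region (R i).patch.W) := by
  have h1 := domBonds_fst he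
  have h2 := domBonds_snd he
  rw [← region_fine hg] at h1 h2
  obtain ⟨κ₁, t1, c1⟩ := sec_rc_region_cell g' h1
  obtain ⟨κ₂, t2, c2⟩ := sec_rc_region_cell g' h2
  have hn := sec_rc_bond g' c1 c2
  rw [sec_rc_mem_crossB g' c1 c2, sec_rc_mem_region g' c1, sec_rc_mem_region g' c2]
  unfold bonds at hne
  rw [sec_rc_mem_domBonds, cutB_eq, sec_rc_mem_crossB g' c1 c2, sec_rc_mem_region g' c1, sec_rc_mem_region g' c2] at hne
  change ¬ (κ₁ ∈ fine 16 Γ.T ∩ (R i).patch.W ∧ κ₂ ∈ fine 16 Γ.T ∩ (R i).patch.W ∧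
    ¬ (κ₁ ≠ κ₂ ∧ (κ₁, e.2) ∈ (fineF 16 Γ.cutF ∪ ((Finset.univ.filter fun j : Fin r => j.1 < i.1).biUnion fun j => (R j).lineF 2)) ∪ (R i).lineF 2)) at hne
  by_cases w1 : κ₁ ∈ (R i).patch.W
  · by_cases w2 : κ₂ ∈ (R i).patch.W
    · left
      by_contra hc
      apply hne
      refine ⟨Finset.mem_inter.2 ⟨t1, w1⟩, Finset.mem_inter.2 ⟨t2, w2⟩, ?_⟩
      rintro ⟨a, b⟩
      rcases Finset.mem_union.1 b with b | b
      · rcases Finset.mem_union.1 b with b | b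
        · rw [hcut] at b
          simp [fineF] at b
        · obtain ⟨j, hj, b⟩ := Finset.mem_biUnion.1 b
          have hji : j ≠ i := by
            intro e
            have := (Finset.mem_filter.1 hj).2
            rw [e] at this
            omega
          rw [sec_rc_mem_W] at w1
          exact Finset.disjoint_left.1 (hR.2 j i hji) (sec_rc_lineF_corr _ (by norm_num) b) (sec_rc_band_corr _ (by norm_num) w1)
      · exact hc ⟨a, Finset.mem_union_left _ b⟩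
    · left
      have hne' : κ₁ ≠ κ₂ := fun e => w2 (e ▸ w1)
      rw [sec_rc_mem_W] at w1 w2
      exact ⟨hne', Finset.mem_union_right _ ((sec_rc_band_step (hR.1 i) (hn.resolve_left hne') t1 t2 7 (by norm_num)).2.2 (Or.inl ⟨w1, w2⟩))⟩
  · by_cases w2 : κ₂ ∈ (R i).patch.W
    · left
      have hne' : κ₁ ≠ κ₂ := fun e => w1 (e ▸ w2)
      rw [sec_rc_mem_W] at w1 w2
      exact ⟨hne', Finset.mem_union_right _ ((sec_rc_band_step (hR.1 i) (hn.resolve_left hne') t1 t2 7 (by norm_num)).2.2 (Or.inr ⟨w1, w2⟩))⟩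
    · exact Or.inr ⟨w1, w2⟩

theorem liftPot_pin (Γ : CGeom m₁ m₂) (R : Fin r → Ray) (hR : RaysOk Γ R) (g' : DGrid (16 * m₁) (16 * m₂)) (β : ℕ) (hβ : β ≤ 16)
    (x : ℤ × ℤ) (hx : x ∈ g'.region (fine 16 Γ.pin)) : liftPot g' R β x = 0 := by
  unfold liftPot
  apply Finset.sum_eq_zero
  intro j _
  rw [if_neg]
  intro h
  obtain ⟨κ, h1, h2⟩ := sec_rc_region_cell g' hx
  rw [sec_rc_mem_region g' h2] at h
  exact Finset.disjoint_left.1 (hR.1 j).2.2.2 (sec_rc_band_corr _ hβ (Finset.mem_filter.1 h).1) ((sec_rc_mem_fine _ _ _).1 h1)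

theorem sec_rc_csep (ρ : Ray) {M₁ M₂ : ℕ} {κ κ' : Cell M₁ M₂}
    (h : secAl ρ κ + 1 < secAl ρ κ' ∨ secAl ρ κ' + 1 < secAl ρ κ ∨ secAc ρ κ + 1 < secAc ρ κ' ∨ secAc ρ κ' + 1 < secAc ρ κ) :
    κ.1.1 + 1 < κ'.1.1 ∨ κ'.1.1 + 1 < κ.1.1 ∨ κ.2.1 + 1 < κ'.2.1 ∨ κ'.2.1 + 1 < κ.2.1 := by
  unfold secAl secAc at h
  cases hb : ρ.hor <;> simp only [hb, if_true, Bool.false_eq_true, if_false] at h <;> omega

theorem sep_Hs (ρ : Ray) : CSep (ρ.band 1 3 : Finset (Cell (16 * m₁) (16 * m₂))) (ρ.band 4 5) := by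
  intro κ hκ κ' hκ'
  rw [sec_rc_mem_band] at hκ hκ'
  apply sec_rc_csep ρ
  omega

theorem sep_H' (Γ : CGeom m₁ m₂) (R : Fin r → Ray) (hR : RaysOk Γ R) (hpin : Γ.pin ⊆ Γ.T) (i : Fin r) :
    CSep ((R i).band 6 8 ∪ fine 16 Γ.pin) ((R i).band 4 5) := by
  intro κ hκ κ' hκ'
  apply sec_rc_csep (R i)
  rw [sec_rc_mem_band] at hκ'
  rcases Finset.mem_union.1 hκ with h | h
  · rw [sec_rc_mem_band] at h
    omega
  · by_contra hc
    have hT : κ ∈ fine 16 Γ.T := (sec_rc_mem_fine _ _ _).2 (hpin ((sec_rc_mem_fine _ _ _).1 h))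
    have h1 := sec_rc_fine_end (hR.1 i) hT (by omega) (by omega)
    have h2 : κ ∈ ((R i).band 0 16 : Finset (Cell (16 * m₁) (16 * m₂))) := by
      rw [sec_rc_mem_band]
      omega
    exact Finset.disjoint_left.1 (hR.1 i).2.2.2 (sec_rc_band_corr _ le_rfl h2) ((sec_rc_mem_fine _ _ _).1 h)

theorem sec_rc_cross_pos {M₁ M₂ : ℕ} (g : DGrid M₁ M₂) {e : Bond} {f : CFace M₁ M₂} (h2 : e.2 = f.2) (h1 : e.1 ∈ g.cell f.1) (h3 : e.snd ∉ g.cell f.1) :
    if f.2 then e.1.1 + 1 = g.x₁ f.1.1.succ else e.1.2 + 1 = g.x₂ f.1.2.succ := by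
  rw [sec_gr_mem_cell] at h1 h3
  cases hf : f.2 with
  | true =>
    rw [hf] at h2
    rw [sec_rc_snd_true h2] at h3
    simp only [if_true]
    by_contra hc
    apply h3
    refine ⟨⟨?_, ?_⟩, h1.2⟩
    · show _ ≤ e.1.1 + 1
      omega
    · show e.1.1 + 1 < _
      omega
  | false =>
    rw [hf] at h2
    rw [sec_rc_snd_false h2] at h3
    simp only [Bool.false_eq_true, if_false]
    by_contra hc
    apply h3
    refine ⟨h1.1, ⟨?_, ?_⟩⟩
    · show _ ≤ e.1.2 + 1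
      omega
    · show e.1.2 + 1 < _
      omega

theorem sec_rc_line_sum {n' : ℕ} (y : Fin (n' + 1) → ℤ) (B : Finset Bond) (w : Bond → ℝ) (b : Bool) (k : Bond → ℤ) (C : ℝ) (hC : 0 ≤ C)
    (h : ∀ j' : Fin (n' + 1), j'.1 % 16 ≠ 0 → ∑ e ∈ B.filter (fun e => e.2 = b ∧ k e = y j'), w e ^ 2 ≤ C) (n : ℕ) (hn : n % 16 ≠ 0) :
    ∑ e ∈ B.filter (fun e => e.2 = b ∧ ∃ j' : Fin (n' + 1), j'.1 = n ∧ k e = y j'), w e ^ 2 ≤ C := by
  by_cases hlt : n < n' + 1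
  · refine le_trans (le_of_eq ?_) (h ⟨n, hlt⟩ hn)
    apply Finset.sum_congr _ fun _ _ => rfl
    apply Finset.filter_congr
    intro e _
    constructor
    · rintro ⟨a, j', b, c⟩
      obtain rfl : j' = ⟨n, hlt⟩ := Fin.ext b
      exact ⟨a, c⟩
    · rintro ⟨a, c⟩
      exact ⟨a, _, rfl, c⟩
  · rw [Finset.filter_false_of_mem, Finset.sum_empty]
    · exact hC
    · rintro e _ ⟨-, j', b, -⟩
      exact hlt (b ▸ j'.2)

/-- the faces at distance `d` lie on two NEW lines -/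
theorem flux_lineF (ρ : Ray) (d : ℕ) (hd : 1 ≤ d) (hd' : d ≤ 15) (g' : DGrid (16 * m₁) (16 * m₂)) (D : Finset (ℤ × ℤ)) (w : Bond → ℝ) (c : ℝ)
    (hc : 0 ≤ c) (h : GoodLines 16 g' D w c) :
    ∑ e ∈ (domBonds D ∅).filter (fun e => e ∈ crossB g' (ρ.lineF d)), w e ^ 2 ≤ 2 * c * ∑ e ∈ domBonds D ∅, w e ^ 2 := by
  have hC : 0 ≤ c * ∑ e ∈ domBonds D ∅, w e ^ 2 := mul_nonneg hc (Finset.sum_nonneg fun e _ => sq_nonneg _)
  have hn1 : (16 * (ρ.pos + 1) + d) % 16 ≠ 0 := by omega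
  have hn2 : (16 * (ρ.pos + 1) - d) % 16 ≠ 0 := by omega
  have key : ∀ (n' : ℕ) (y : Fin (n' + 1) → ℤ) (b : Bool) (k : Bond → ℤ),
      (∀ j' : Fin (n' + 1), j'.1 % 16 ≠ 0 → ∑ e ∈ (domBonds D ∅).filter (fun e => e.2 = b ∧ k e = y j'), w e ^ 2 ≤ c * ∑ e ∈ domBonds D ∅, w e ^ 2) →
      (∀ e, e ∈ crossB g' (ρ.lineF d) → e.2 = b ∧ ∃ j' : Fin (n' + 1), (j'.1 = 16 * (ρ.pos + 1) + d ∨ j'.1 = 16 * (ρ.pos + 1) - d) ∧ k e = y j') →
      ∑ e ∈ (domBonds D ∅).filter (fun e => e ∈ crossB g' (ρ.lineF d)), w e ^ 2 ≤ 2 * c * ∑ e ∈ domBonds D ∅, w e ^ 2 := by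
    intro n' y b k h1 h2
    have s1 := sec_rc_line_sum y (domBonds D ∅) w b k _ hC h1 _ hn1
    have s2 := sec_rc_line_sum y (domBonds D ∅) w b k _ hC h1 _ hn2
    have hsub : (domBonds D ∅).filter (fun e => e ∈ crossB g' (ρ.lineF d)) ⊆
        (domBonds D ∅).filter (fun e => e.2 = b ∧ ∃ j' : Fin (n' + 1), j'.1 = 16 * (ρ.pos + 1) + d ∧ k e = y j') ∪
        (domBonds D ∅).filter (fun e => e.2 = b ∧ ∃ j' : Fin (n' + 1), j'.1 = 16 * (ρ.pos + 1) - d ∧ k e = y j') := by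
      intro e he
      rw [Finset.mem_filter] at he
      obtain ⟨a, j', hj, hk⟩ := h2 e he.2
      rw [Finset.mem_union, Finset.mem_filter, Finset.mem_filter]
      rcases hj with hj | hj
      · exact Or.inl ⟨he.1, a, j', hj, hk⟩
      · exact Or.inr ⟨he.1, a, j', hj, hk⟩
    have s3 := Finset.sum_le_sum_of_subset_of_nonneg (f := fun e => w e ^ 2) hsub (fun e _ _ => sq_nonneg _)
    have s4 := Finset.sum_union_inter (f := fun e => w e ^ 2)
      (s₁ := (domBonds D ∅).filter (fun e => e.2 = b ∧ ∃ j' : Fin (n' + 1), j'.1 = 16 * (ρ.pos + 1) + d ∧ k e = y j'))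
      (s₂ := (domBonds D ∅).filter (fun e => e.2 = b ∧ ∃ j' : Fin (n' + 1), j'.1 = 16 * (ρ.pos + 1) - d ∧ k e = y j'))
    have s5 : 0 ≤ ∑ e ∈ (domBonds D ∅).filter (fun e => e.2 = b ∧ ∃ j' : Fin (n' + 1), j'.1 = 16 * (ρ.pos + 1) + d ∧ k e = y j') ∩
        (domBonds D ∅).filter (fun e => e.2 = b ∧ ∃ j' : Fin (n' + 1), j'.1 = 16 * (ρ.pos + 1) - d ∧ k e = y j'), w e ^ 2 :=
      Finset.sum_nonneg fun e _ => sq_nonneg _
    linarith
  cases hb : ρ.hor with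
  | true =>
    refine key _ g'.x₂ false (fun e => e.1.2 + 1) h.2 ?_
    rintro e ⟨f, hf, a1, a2, a3⟩
    rw [sec_rc_mem_lineF] at hf
    have hf2 : f.2 = false := by rw [hf.1, hb]; rfl
    have hp := sec_rc_cross_pos g' a1 a2 a3
    simp only [hf2, Bool.false_eq_true, if_false] at hp
    refine ⟨a1.trans hf2, f.1.2.succ, ?_, hp⟩
    have hac : secAc ρ f.1 = f.1.2.1 := by unfold secAc; rw [hb]; rfl
    have := hf.2.2.2
    rw [hac] at this
    simp only [Fin.val_succ]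
    omega
  | false =>
    refine key _ g'.x₁ true (fun e => e.1.1 + 1) h.1 ?_
    rintro e ⟨f, hf, a1, a2, a3⟩
    rw [sec_rc_mem_lineF] at hf
    have hf2 : f.2 = true := by rw [hf.1, hb]; rfl
    have hp := sec_rc_cross_pos g' a1 a2 a3
    simp only [hf2, if_true] at hp
    refine ⟨a1.trans hf2, f.1.1.succ, ?_, hp⟩
    have hac : secAc ρ f.1 = f.1.1.1 := by unfold secAc; rw [hb]; rfl
    have := hf.2.2.2
    rw [hac] at this
    simp only [Fin.val_succ]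
    omega

/-- the endpoints of the bonds crossing a face lie in the boundary layers, also of every refinement -/
theorem nearLine_cross {M₁ M₂ : ℕ} (g : DGrid M₁ M₂) (F : Finset (CFace M₁ M₂)) (D : Finset (Cell M₁ M₂)) (e : Bond) (he : e ∈ crossB g F)
    (h1 : e.1 ∈ g.region D) (h2 : e.snd ∈ g.region D) : NearLine g e.1 ∧ NearLine g e.snd := by
  obtain ⟨κ₁, -, c1⟩ := sec_rc_region_cell g h1
  obtain ⟨κ₂, -, c2⟩ := sec_rc_region_cell g h2
  have hne := ((sec_rc_mem_crossB g c1 c2 F).1 he).1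
  refine ⟨⟨κ₁, c1, ?_⟩, ⟨κ₂, c2, ?_⟩⟩ <;> rw [sec_gr_mem_cell] at c1 c2
  · cases hb : e.2 with
    | true =>
      rw [sec_rc_snd_true hb] at c2
      rcases sec_rc_1d_next g.mono₁ c1.1.1 c1.1.2 c2.1.1 c2.1.2 with h | h
      · exact absurd (Prod.ext h (sec_rc_1d_uniq g.mono₂ c1.2.1 c1.2.2 c2.2.1 c2.2.2)) hne
      · exact Or.inr (Or.inl h.2.1)
    | false =>
      rw [sec_rc_snd_false hb] at c2
      rcases sec_rc_1d_next g.mono₂ c1.2.1 c1.2.2 c2.2.1 c2.2.2 with h | h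
      · exact absurd (Prod.ext (sec_rc_1d_uniq g.mono₁ c1.1.1 c1.1.2 c2.1.1 c2.1.2) h) hne
      · exact Or.inr (Or.inr (Or.inr h.2.1))
  · cases hb : e.2 with
    | true =>
      rw [sec_rc_snd_true hb] at c2 ⊢
      rcases sec_rc_1d_next g.mono₁ c1.1.1 c1.1.2 c2.1.1 c2.1.2 with h | h
      · exact absurd (Prod.ext h (sec_rc_1d_uniq g.mono₂ c1.2.1 c1.2.2 c2.2.1 c2.2.2)) hne
      · exact Or.inl h.2.2
    | false =>
      rw [sec_rc_snd_false hb] at c2 ⊢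
      rcases sec_rc_1d_next g.mono₂ c1.2.1 c1.2.2 c2.2.1 c2.2.2 with h | h
      · exact absurd (Prod.ext (sec_rc_1d_uniq g.mono₁ c1.1.1 c1.1.2 c2.1.1 c2.1.2) h) hne
      · exact Or.inr (Or.inr (Or.inl h.2.2))

/-- POT (easy, explicit ramp in the corridors): the reference cost of a system of strings is bounded. -/
theorem pot_sector_bdd (a : ℝ) (ha : 0 < a) (Γ : CGeom m₁ m₂) (R : Fin r → Ray) (hR : RaysOk Γ R) (K : ℕ) :
    ∃ C : ℝ, ∀ (g : DGrid m₁ m₂) (ν : ℕ), 1 ≤ ν → Scale K g ν → (rlaw Γ g noRow).gEn a (connR Γ g R) 0 ≤ C :=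
  sec_pot_sector_bdd a ha Γ R hR K

/-! ### only the pinned cells inside `T` matter -/

/-- the geometry with the pinned cells outside `T` forgotten -/
def pinT (Γ : CGeom m₁ m₂) : CGeom m₁ m₂ := { Γ with pin := Γ.pin ∩ Γ.T }

theorem pinT_pin_sub (Γ : CGeom m₁ m₂) : (pinT Γ).pin ⊆ (pinT Γ).T := Finset.inter_subset_right

theorem pinT_cutF (Γ : CGeom m₁ m₂) : (pinT Γ).cutF = Γ.cutF := rfl

theorem noDiag_pinT (Γ : CGeom m₁ m₂) (h : Γ.NoDiag) : (pinT Γ).NoDiag := h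

theorem raysOk_pinT (Γ : CGeom m₁ m₂) (R : Fin r → Ray) (h : RaysOk Γ R) : RaysOk (pinT Γ) R :=
  ⟨fun i => ⟨(h.1 i).1, (h.1 i).2.1, (h.1 i).2.2.1, Finset.disjoint_of_subset_right Finset.inter_subset_left (h.1 i).2.2.2⟩, h.2⟩

theorem sec_rc_sites_pinT (Γ : CGeom m₁ m₂) (g : DGrid m₁ m₂) : (pinT Γ).sites g (pinT Γ).pin = Γ.sites g Γ.pin := by
  ext v
  have hv : domPos (D := g.region Γ.T) (cut := Γ.cutB g) v ∈ g.region Γ.T := v.2
  obtain ⟨κ, h1, h2⟩ := sec_rc_region_cell g hv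
  show domPos (D := g.region Γ.T) (cut := Γ.cutB g) v ∈ g.region (Γ.pin ∩ Γ.T) ↔ domPos (D := g.region Γ.T) (cut := Γ.cutB g) v ∈ g.region Γ.pin
  rw [sec_rc_mem_region g h2, sec_rc_mem_region g h2, Finset.mem_inter]
  exact ⟨fun h => h.1, fun h => ⟨h, h1⟩⟩

theorem sec_rc_rlaw_pinT (Γ : CGeom m₁ m₂) (g : DGrid m₁ m₂) {N : ℕ} (row : Fin N → Cell m₁ m₂ → ℝ) : rlaw (pinT Γ) g row = rlaw Γ g row := by
  unfold rlaw
  rw [sec_rc_sites_pinT]
  rfl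

theorem secDefect_pinT (b : ℝ) (Γ : CGeom m₁ m₂) (g : DGrid m₁ m₂) (R : Fin r → Ray) : secDefect b (pinT Γ) g R = secDefect b Γ g R := by
  unfold secDefect
  rw [sec_rc_rlaw_pinT]
  rfl

end

end Claimed.Agent.R285.Sec
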