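import Claimed.Agent.R285.Sec.Imp
import Claimed.Agent.R285.Sec.Fin
import Claimed.Agent.R285.Sec.LocTop
import Claimed.Agent.R285.Sec.PinKit
import Claimed.Agent.R285.Sec.Rect

/-!
# ROW 285, layer Sec, leaf file Loc: [S]L3.2 (localisation under cell observations), [F](3.16)-(3.17).
* `pot_localization` is POT (deterministic, big): the proof of [S]L3.2 (03-sectors.tex l.176-325) ON THE LATTICE, uniformly in the mesh.  `gPin = -½ log det(1 - C*C)`, `C = Π_A|_{V_{A'}}` for the finite dimensional form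
  `form a` of `rlaw (refine s Γ) g cellRow`.  Steps: (1) cell coercivity `c ∑_cell (n⁻² φ² + (∇φ)²) ≤ cell form`; (2) Caccioppoli with the observation terms for `f ∈ V_{A'}` (test `χ² f`); (3) `E_{r+10} ≤ θ E_r`: `‖C‖ ≤ C e^{-c s}`;
  (4) discrete Neumann cosine modes `≤ m` on every cell: codimension `≤ C s² m²`, `‖f‖_{ℓ²(cell)} ≤ C (n/m) ‖∇f‖`; two nested Caccioppoli steps: `s_j(C) ≤ C s²/j`; (5) `HS² ≤ C s² e^{-c s}`; (6) `-log det(1 - C*C) ≤ 2 HS²`.
* `dPin_nonneg`: `lsys_event_mono`.   `dPin_cond`: Bayes (identity of four partition sums).   `localization_unif`: `imp_pin` in uniform form for the geometry without its own pins + `pot_localization` + `dPin_cond_le`.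
-/

set_option autoImplicit false

namespace Claimed.Agent.R285.Sec

open Filter Topology S23
open scoped Classical

noncomputable section

/-- T2.6, first sentence: `D ≥ 0`. -/
theorem dPin_nonneg {G : HGraph} (H : HLaw G) (b : ℝ) (hok : (H.sys b).Ok) (hP : H.Proper) (A A' : Set G.V) : 0 ≤ H.dPin b A A' := by
  unfold HLaw.dPin
  rw [sec_pPin_eq H hP, sec_pPin_eq H hP, sec_pPin_eq H hP]
  have h0 := sec_w_pos _ hok 0
  have h1 := sec_w_pos _ (sec_addPin_ok H b hok A) 0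
  have h2 := sec_w_pos _ (sec_addPin_ok H b hok A') 0
  have h3 := sec_w_pos _ (sec_addPin_ok H b hok (A ∪ A')) 0
  have hK := sec_pin_assoc H b hok hP A A'
  rw [sub_sub, ← Real.log_mul (div_pos h1 h0).ne' (div_pos h2 h0).ne', sub_nonneg]
  apply Real.log_le_log (mul_pos (div_pos h1 h0) (div_pos h2 h0))
  rw [div_mul_div_comm, div_le_div_iff₀ (mul_pos h0 h0) h0]
  nlinarith

/-- [F](3.17): the interaction in the law already pinned on `F`. -/
theorem dPin_cond_le {G : HGraph} (H : HLaw G) (b : ℝ) (hok : (H.sys b).Ok) (hP : H.Proper) (F A A' : Set G.V) :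
    (H.addPin F).dPin b A A' ≤ H.dPin b (A ∪ F) A' := by
  have hPF := sec_addPin_proper H hP F
  unfold HLaw.dPin
  rw [sec_pPin_eq H hP, sec_pPin_eq H hP, sec_pPin_eq H hP, sec_pPin_eq _ hPF, sec_pPin_eq _ hPF, sec_pPin_eq _ hPF,
    sec_addPin_addPin, sec_addPin_addPin, sec_addPin_addPin]
  have e1 : F ∪ (A ∪ A') = A ∪ F ∪ A' := by
    ext v; simp only [Set.mem_union]; tauto
  have e2 : F ∪ A = A ∪ F := Set.union_comm _ _
  rw [e1, e2]
  have h0 := sec_w_pos _ hok 0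
  have hF := sec_w_pos _ (sec_addPin_ok H b hok F) 0
  have h1 := sec_w_pos _ (sec_addPin_ok H b hok (A ∪ F)) 0
  have h2 := sec_w_pos _ (sec_addPin_ok H b hok A') 0
  have h3 := sec_w_pos _ (sec_addPin_ok H b hok (A ∪ F ∪ A')) 0
  have h4 := sec_w_pos _ (sec_addPin_ok H b hok (F ∪ A')) 0
  have hK := sec_pin_assoc H b hok hP F A'
  rw [Real.log_div h3.ne' hF.ne', Real.log_div h1.ne' hF.ne', Real.log_div h4.ne' hF.ne',
    Real.log_div h3.ne' h0.ne', Real.log_div h1.ne' h0.ne', Real.log_div h2.ne' h0.ne']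
  have hl : Real.log (((H.addPin F).sys b).w 0) + Real.log (((H.addPin A').sys b).w 0) ≤
      Real.log (((H.addPin (F ∪ A')).sys b).w 0) + Real.log ((H.sys b).w 0) := by
    rw [← Real.log_mul hF.ne' h2.ne', ← Real.log_mul h4.ne' h0.ne']
    exact Real.log_le_log (mul_pos hF h2) hK
  linarith

variable {m₁ m₂ : ℕ}

/-- the geometry without its hard pins -/
def unpin (Γ : CGeom m₁ m₂) : CGeom m₁ m₂ := { Γ with pin := ∅ }

/-- POT = **[S]L3.2 in reference form**: the Gaussian pin interaction under one unit observation per cell of the `s`-refined array tends to zero as `s → ∞`, uniformly in the mesh.  No own pins. -/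
theorem pot_localization (a : ℝ) (ha : 0 < a) (Γ : CGeom m₁ m₂) (hΓ : Γ.NoDiag) (hpin : Γ.pin = ∅)
    (A A' : Finset (Cell m₁ m₂)) (hsep : CSep A A') (K : ℕ) (ε : ℝ) (hε : 0 < ε) :
    ∃ s₀ : ℕ, ∀ s, s₀ ≤ s → ∃ N : ℕ, ∀ (g : DGrid (s * m₁) (s * m₂)) (ν : ℕ), N ≤ ν → Scale K g ν →
      (rlaw (refine s Γ) g cellRow).gPin a ∅ ((refine s Γ).sites g (fine s A)) ((refine s Γ).sites g (fine s A')) ≤ ε :=
  loc_localization a ha Γ A A' hsep K ε hε

theorem sec_fine_empty (s : ℕ) : fine s (∅ : Finset (Cell m₁ m₂)) = ∅ := by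
  simp [fine]

theorem sec_fine_union (s : ℕ) (A B : Finset (Cell m₁ m₂)) : fine s (A ∪ B) = fine s A ∪ fine s B := by
  ext κ
  simp [fine]

theorem sec_refine_unpin (s : ℕ) (Γ : CGeom m₁ m₂) : refine s (unpin Γ) = unpin (refine s Γ) := by
  unfold refine unpin
  simp only [sec_fine_empty]

theorem sec_sites_empty (Γ : CGeom m₁ m₂) (g : DGrid m₁ m₂) : Γ.sites g ∅ = ∅ := by
  ext v
  constructor
  · intro hv
    have h1 : domPos (D := g.region Γ.T) (cut := Γ.cutB g) v ∈ g.region ∅ := hv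
    simp [DGrid.region] at h1
  · intro hv
    exact hv.elim

theorem sec_sites_union (Γ : CGeom m₁ m₂) (g : DGrid m₁ m₂) (A B : Finset (Cell m₁ m₂)) :
    Γ.sites g (A ∪ B) = Γ.sites g A ∪ Γ.sites g B := by
  ext v
  show domPos (D := g.region Γ.T) (cut := Γ.cutB g) v ∈ g.region (A ∪ B) ↔
    domPos (D := g.region Γ.T) (cut := Γ.cutB g) v ∈ g.region A ∨ domPos (D := g.region Γ.T) (cut := Γ.cutB g) v ∈ g.region B
  have e : g.region (A ∪ B) = g.region A ∪ g.region B := Finset.union_biUnion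
  rw [e, Finset.mem_union]

theorem sec_unpin_noDiag (Γ : CGeom m₁ m₂) (hΓ : Γ.NoDiag) : (unpin Γ).NoDiag := hΓ

theorem sec_rlaw_unpin (Γ : CGeom m₁ m₂) (g : DGrid m₁ m₂) {N : ℕ} (row : Fin N → Cell m₁ m₂ → ℝ) :
    rlaw Γ g row = (rlaw (unpin Γ) g row).addPin ((unpin Γ).sites g Γ.pin) := by
  have e : (HLaw.pinned ((unpin Γ).sites g (unpin Γ).pin) ⊓ HLaw.pinned ((unpin Γ).sites g Γ.pin) : AddSubgroup (((unpin Γ).graph g).V → ℤ))
      = HLaw.pinned ((unpin Γ).sites g Γ.pin) := by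
    rw [sec_pinned_union]
    have : (unpin Γ).pin = ∅ := rfl
    rw [this, sec_sites_empty, Set.empty_union]
  unfold HLaw.addPin
  show _ = @HLaw.mk _ (HLaw.pinned ((unpin Γ).sites g (unpin Γ).pin) ⊓ HLaw.pinned ((unpin Γ).sites g Γ.pin)) _ _ _
  rw [e]
  rfl

theorem sec_csep_fine (s : ℕ) (A A' : Finset (Cell m₁ m₂)) (h : CSep A A') : CSep (fine s A) (fine s A') := by
  intro κ hκ κ' hκ'
  have h1 : coarse s κ ∈ A := (Finset.mem_filter.1 hκ).2
  have h2 : coarse s κ' ∈ A' := (Finset.mem_filter.1 hκ').2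
  have hs : 0 < s := by
    rcases Nat.eq_zero_or_pos s with h0 | h0
    · subst h0
      have := κ.1.2
      omega
    · exact h0
  have key : ∀ x y : ℕ, x / s + 1 < y / s → x + 1 < y := by
    intro x y hxy
    have a1 : x < s * (x / s + 1) := Nat.lt_mul_div_succ x hs
    have a2 : s * (y / s) ≤ y := Nat.mul_div_le y s
    have a3 : s * (x / s + 2) ≤ s * (y / s) := Nat.mul_le_mul_left s hxy
    have a4 : s * (x / s + 2) = s * (x / s + 1) + s := by ring
    omega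
  rcases h _ h1 _ h2 with h3 | h3 | h3 | h3
  · exact Or.inl (key _ _ h3)
  · exact Or.inr (Or.inl (key _ _ h3))
  · exact Or.inr (Or.inr (Or.inl (key _ _ h3)))
  · exact Or.inr (Or.inr (Or.inr (key _ _ h3)))

/-- `imp_pin` in uniform form, cell observations -/
theorem sec_imp_pin_unif (b : ℝ) (hb : 0 < b) (ha : 0 < aLim b) (Γ : CGeom m₁ m₂) (hΓ : Γ.NoDiag) (hpin : Γ.pin = ∅) (K : ℕ)
    (A p : Finset (Cell m₁ m₂)) (hsep : CSep A p) (ε : ℝ) (hε : 0 < ε) :
    ∃ N : ℕ, ∀ (g : DGrid m₁ m₂) (ν : ℕ), N ≤ ν → Scale K g ν →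
      (rlaw Γ g cellRow).dPin b (Γ.sites g A) (Γ.sites g p)
        ≤ (rlaw Γ g cellRow).gPin (aLim b) (Γ.sites g Γ.pin) (Γ.sites g A) (Γ.sites g p) + ε := by
  by_contra hcon
  push Not at hcon
  choose g ν h1 h2 h3 using hcon
  have hg : Admissible K g ν := ⟨tendsto_atTop_mono h1 tendsto_id, h2⟩
  have ht := imp_pin b hb ha Γ hΓ hpin cellRow K g ν hg (fun k => rlaw_proper_cell Γ (g k)) (fun k => rlaw_ok_cell Γ (g k) b hb) A p hsep
  have := (ht.eventually (gt_mem_nhds hε)).exists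
  obtain ⟨k, hk⟩ := this
  have := h3 k
  linarith

/-- **[S] Lemma 3.2, eq. (4)** together with [F](3.16)-(3.17): own pins allowed if they are separated from `A'`. -/
theorem localization_unif (b : ℝ) (hb : 0 < b) (ha : 0 < aLim b) (Γ : CGeom m₁ m₂) (hΓ : Γ.NoDiag)
    (A A' : Finset (Cell m₁ m₂)) (hsep : CSep (A ∪ Γ.pin) A') (K : ℕ) (ε : ℝ) (hε : 0 < ε) :
    ∃ s₀ : ℕ, ∀ s, s₀ ≤ s → ∃ N : ℕ, ∀ (g : DGrid (s * m₁) (s * m₂)) (ν : ℕ), N ≤ ν → Scale K g ν →
      dCell b (refine s Γ) g (fine s A) (fine s A') ≤ ε := by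
  obtain ⟨s₀, hs₀⟩ := pot_localization (aLim b) ha (unpin Γ) (sec_unpin_noDiag Γ hΓ) rfl (A ∪ Γ.pin) A' hsep K (ε / 2) (half_pos hε)
  refine ⟨s₀, fun s hs => ?_⟩
  obtain ⟨N₁, hN₁⟩ := hs₀ s hs
  obtain ⟨N₂, hN₂⟩ := sec_imp_pin_unif b hb ha (refine s (unpin Γ)) (noDiag_refine _ (sec_unpin_noDiag Γ hΓ) s) (sec_fine_empty s) K
    (fine s (A ∪ Γ.pin)) (fine s A') (sec_csep_fine s _ _ hsep) (ε / 2) (half_pos hε)
  refine ⟨max N₁ N₂, fun g ν hν hsc => ?_⟩
  have h1 := hN₁ g ν (le_trans (le_max_left _ _) hν) hsc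
  have h2 := hN₂ g ν (le_trans (le_max_right _ _) hν) hsc
  have e0 : (refine s (unpin Γ)).pin = ∅ := sec_fine_empty s
  rw [e0, sec_sites_empty] at h2
  have h3 : dCell b (refine s Γ) g (fine s A) (fine s A') ≤
      (rlaw (refine s (unpin Γ)) g cellRow).dPin b ((refine s (unpin Γ)).sites g (fine s (A ∪ Γ.pin))) ((refine s (unpin Γ)).sites g (fine s A')) := by
    unfold dCell
    rw [sec_rlaw_unpin (refine s Γ) g cellRow, sec_fine_union, sec_sites_union, sec_refine_unpin]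
    exact dPin_cond_le _ b (rlaw_ok_cell _ g b hb) (rlaw_proper_cell _ g) _ _ _
  linarith

end

end Claimed.Agent.R285.Sec
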