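import Claimed.Agent.R285.Sec.Defs

/-!
# ROW 285, layer Sec, leaf file Trace: elementary inequalities on one rectangle of the lattice and their sums over the cells (POT, paper-free, no other file needed).
PLAN.  On `Q = [0,n₁) × [0,n₂)`, `n ≤ n_i ≤ K n`.
* Poincare `∑_Q (u - u_Q)² ≤ C n² ∑ (∇u)²`: `u(x) - u(y)` = sum of increments along the L-shaped path, Cauchy-Schwarz, count.
* trace: for a boundary site `x` and the sites `y` of its row (column): `(u(x) - u_Q)² ≤ 2 (u(x) - u(y))² + 2 (u(y) - u_Q)²`, average over `y`, `(u(x) - u(y))² ≤ n₁ ∑_{row} (∇u)²`.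
* adjacent rectangles: `u_Q - u_Q'` by the same path argument in the union.
* `trace_form`: sum `pot_cell_trace` (translated) over the cells, `φ(x)² ≤ 2 (φ(x) - φ_κ)² + 2 φ_κ²`, at most `4 K n` boundary sites per cell; bonds inside a cell are never cut; `obs` of `cellRow` is the cell average.
-/

set_option autoImplicit false

namespace Claimed.Agent.R285.Sec

open Filter Topology S23
open scoped Classical

noncomputable section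

/-! ## one-dimensional facts -/

/-- telescoping on integer intervals -/
theorem sec_tr_tele (f : ℤ → ℝ) (s t : ℤ) (h : s ≤ t) : ∑ i ∈ Finset.Ico s t, (f (i + 1) - f i) = f t - f s := by
  induction t, h using Int.le_induction with
  | base => simp
  | succ t h ih =>
    rw [← Finset.insert_Ico_right_eq_Ico_add_one h, Finset.sum_insert (by simp), ih]
    ring

theorem sec_tr_line_aux (f : ℤ → ℝ) (a b s t : ℤ) (hs : a ≤ s) (hst : s ≤ t) (ht : t < b) :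
    (f s - f t) ^ 2 ≤ ((b - a : ℤ) : ℝ) * ∑ i ∈ Finset.Ico a (b - 1), (f (i + 1) - f i) ^ 2 := by
  have h1 : (f s - f t) ^ 2 = (∑ i ∈ Finset.Ico s t, (f (i + 1) - f i)) ^ 2 := by
    rw [sec_tr_tele f s t hst]; ring
  rw [h1]
  refine (sq_sum_le_card_mul_sum_sq).trans ?_
  have h2 : ((Finset.Ico s t).card : ℝ) ≤ ((b - a : ℤ) : ℝ) := by
    rw [Int.card_Ico]
    have : ((t - s).toNat : ℤ) ≤ b - a := by rw [Int.toNat_of_nonneg (by omega)]; omega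
    exact_mod_cast this
  have h3 : ∑ i ∈ Finset.Ico s t, (f (i + 1) - f i) ^ 2 ≤ ∑ i ∈ Finset.Ico a (b - 1), (f (i + 1) - f i) ^ 2 := by
    refine Finset.sum_le_sum_of_subset_of_nonneg ?_ (fun _ _ _ => sq_nonneg _)
    intro i hi
    rw [Finset.mem_Ico] at hi ⊢
    omega
  exact mul_le_mul h2 h3 (Finset.sum_nonneg fun _ _ => sq_nonneg _) (le_trans (Nat.cast_nonneg _) h2)

/-- increments along a segment: Cauchy-Schwarz -/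
theorem sec_tr_line (f : ℤ → ℝ) (a b s t : ℤ) (hs : s ∈ Finset.Ico a b) (ht : t ∈ Finset.Ico a b) :
    (f s - f t) ^ 2 ≤ ((b - a : ℤ) : ℝ) * ∑ i ∈ Finset.Ico a (b - 1), (f (i + 1) - f i) ^ 2 := by
  rw [Finset.mem_Ico] at hs ht
  rcases le_total s t with h | h
  · exact sec_tr_line_aux f a b s t hs.1 h ht.2
  · have := sec_tr_line_aux f a b t s ht.1 h hs.2
    calc (f s - f t) ^ 2 = (f t - f s) ^ 2 := by ring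
      _ ≤ _ := this

/-- Jensen for a finite mean -/
theorem sec_tr_jensen {α : Type*} (Q : Finset α) (hQ : Q.Nonempty) (u : α → ℝ) (c : ℝ) :
    (c - (Q.card : ℝ)⁻¹ * ∑ y ∈ Q, u y) ^ 2 ≤ (Q.card : ℝ)⁻¹ * ∑ y ∈ Q, (c - u y) ^ 2 := by
  have hc : (0 : ℝ) < Q.card := by exact_mod_cast hQ.card_pos
  have h1 : c - (Q.card : ℝ)⁻¹ * ∑ y ∈ Q, u y = (Q.card : ℝ)⁻¹ * ∑ y ∈ Q, (c - u y) := by
    rw [Finset.sum_sub_distrib, Finset.sum_const, nsmul_eq_mul]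
    field_simp
  rw [h1, mul_pow]
  have h2 := sq_sum_le_card_mul_sum_sq (s := Q) (f := fun y => c - u y)
  calc ((Q.card : ℝ)⁻¹) ^ 2 * (∑ y ∈ Q, (c - u y)) ^ 2 ≤ ((Q.card : ℝ)⁻¹) ^ 2 * (Q.card * ∑ y ∈ Q, (c - u y) ^ 2) :=
        mul_le_mul_of_nonneg_left h2 (sq_nonneg _)
    _ = (Q.card : ℝ)⁻¹ * ∑ y ∈ Q, (c - u y) ^ 2 := by field_simp

/-! ## rectangles -/

/-- energy of the row `j` -/
def secTrRow (u : ℤ × ℤ → ℝ) (a b j : ℤ) : ℝ := ∑ i ∈ Finset.Ico a (b - 1), (u (i + 1, j) - u (i, j)) ^ 2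

/-- energy of the column `i` -/
def secTrCol (u : ℤ × ℤ → ℝ) (a b i : ℤ) : ℝ := ∑ j ∈ Finset.Ico a (b - 1), (u (i, j + 1) - u (i, j)) ^ 2

theorem secTrRow_nonneg (u : ℤ × ℤ → ℝ) (a b j : ℤ) : 0 ≤ secTrRow u a b j := Finset.sum_nonneg fun _ _ => sq_nonneg _

theorem secTrCol_nonneg (u : ℤ × ℤ → ℝ) (a b i : ℤ) : 0 ≤ secTrCol u a b i := Finset.sum_nonneg fun _ _ => sq_nonneg _

/-- the L-shaped path -/
theorem sec_tr_path (u : ℤ × ℤ → ℝ) (a₁ b₁ a₂ b₂ : ℤ) (x y : ℤ × ℤ)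
    (hx : x ∈ Finset.Ico a₁ b₁ ×ˢ Finset.Ico a₂ b₂) (hy : y ∈ Finset.Ico a₁ b₁ ×ˢ Finset.Ico a₂ b₂) :
    (u x - u y) ^ 2 ≤ 2 * ((b₁ - a₁ : ℤ) : ℝ) * secTrRow u a₁ b₁ x.2 + 2 * ((b₂ - a₂ : ℤ) : ℝ) * secTrCol u a₂ b₂ y.1 := by
  rw [Finset.mem_product] at hx hy
  have h1 := sec_tr_line (fun i => u (i, x.2)) a₁ b₁ x.1 y.1 hx.1 hy.1
  have h2 := sec_tr_line (fun j => u (y.1, j)) a₂ b₂ x.2 y.2 hx.2 hy.2
  simp only [Prod.mk.eta] at h1 h2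
  unfold secTrRow secTrCol
  nlinarith [sq_nonneg ((u x - u (y.1, x.2)) - (u (y.1, x.2) - u y))]

/-- the bonds of a rectangle -/
theorem sec_tr_bonds_rect (u : ℤ × ℤ → ℝ) (a₁ b₁ a₂ b₂ : ℤ) :
    ∑ e ∈ domBonds (Finset.Ico a₁ b₁ ×ˢ Finset.Ico a₂ b₂) ∅, (u e.snd - u e.1) ^ 2
      = ∑ j ∈ Finset.Ico a₂ b₂, secTrRow u a₁ b₁ j + ∑ i ∈ Finset.Ico a₁ b₁, secTrCol u a₂ b₂ i := by
  unfold domBonds
  rw [Finset.sum_filter, Finset.sum_product]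
  simp only [Fintype.sum_bool, Bond.snd, if_true, Bool.false_eq_true, if_false, Set.mem_empty_iff_false, not_false_eq_true,
    and_true, Finset.sum_add_distrib]
  congr 1
  · rw [Finset.sum_product_right]
    refine Finset.sum_congr rfl fun j hj => ?_
    unfold secTrRow
    rw [← Finset.sum_filter]
    refine Finset.sum_congr ?_ fun _ _ => rfl
    ext i
    simp only [Finset.mem_filter, Finset.mem_product, Finset.mem_Ico] at hj ⊢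
    omega
  · rw [Finset.sum_product]
    refine Finset.sum_congr rfl fun i hi => ?_
    unfold secTrCol
    rw [← Finset.sum_filter]
    refine Finset.sum_congr ?_ fun _ _ => rfl
    ext j
    simp only [Finset.mem_filter, Finset.mem_product, Finset.mem_Ico] at hi ⊢
    omega

/-- horizontal energy of a rectangle -/
def secTrEh (u : ℤ × ℤ → ℝ) (a₁ b₁ a₂ b₂ : ℤ) : ℝ := ∑ j ∈ Finset.Ico a₂ b₂, secTrRow u a₁ b₁ j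

/-- vertical energy of a rectangle -/
def secTrEv (u : ℤ × ℤ → ℝ) (a₁ b₁ a₂ b₂ : ℤ) : ℝ := ∑ i ∈ Finset.Ico a₁ b₁, secTrCol u a₂ b₂ i

theorem secTrEh_nonneg (u : ℤ × ℤ → ℝ) (a₁ b₁ a₂ b₂ : ℤ) : 0 ≤ secTrEh u a₁ b₁ a₂ b₂ :=
  Finset.sum_nonneg fun _ _ => secTrRow_nonneg _ _ _ _

theorem secTrEv_nonneg (u : ℤ × ℤ → ℝ) (a₁ b₁ a₂ b₂ : ℤ) : 0 ≤ secTrEv u a₁ b₁ a₂ b₂ :=
  Finset.sum_nonneg fun _ _ => secTrCol_nonneg _ _ _ _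

theorem sec_tr_card_Ico (c d : ℤ) (h : c ≤ d) : ((Finset.Ico c d).card : ℝ) = ((d - c : ℤ) : ℝ) := by
  rw [Int.card_Ico]
  have : ((d - c).toNat : ℤ) = d - c := Int.toNat_of_nonneg (by omega)
  exact_mod_cast this

theorem sec_tr_card_rect (c₁ d₁ c₂ d₂ : ℤ) (h₁ : c₁ ≤ d₁) (h₂ : c₂ ≤ d₂) :
    ((Finset.Ico c₁ d₁ ×ˢ Finset.Ico c₂ d₂).card : ℝ) = ((d₁ - c₁ : ℤ) : ℝ) * ((d₂ - c₂ : ℤ) : ℝ) := by
  rw [Finset.card_product, Nat.cast_mul, sec_tr_card_Ico c₁ d₁ h₁, sec_tr_card_Ico c₂ d₂ h₂]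

theorem sec_tr_sum_fst (G : ℤ → ℝ) (c₁ d₁ c₂ d₂ : ℤ) (h₂ : c₂ ≤ d₂) :
    ∑ y ∈ Finset.Ico c₁ d₁ ×ˢ Finset.Ico c₂ d₂, G y.1 = ((d₂ - c₂ : ℤ) : ℝ) * ∑ i ∈ Finset.Ico c₁ d₁, G i := by
  rw [Finset.sum_product, Finset.mul_sum]
  refine Finset.sum_congr rfl fun i _ => ?_
  simp only []
  rw [Finset.sum_const, nsmul_eq_mul, sec_tr_card_Ico c₂ d₂ h₂]

theorem sec_tr_sum_snd (G : ℤ → ℝ) (c₁ d₁ c₂ d₂ : ℤ) (h₁ : c₁ ≤ d₁) :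
    ∑ y ∈ Finset.Ico c₁ d₁ ×ˢ Finset.Ico c₂ d₂, G y.2 = ((d₁ - c₁ : ℤ) : ℝ) * ∑ j ∈ Finset.Ico c₂ d₂, G j := by
  rw [Finset.sum_product_right, Finset.mul_sum]
  refine Finset.sum_congr rfl fun i _ => ?_
  simp only []
  rw [Finset.sum_const, nsmul_eq_mul, sec_tr_card_Ico c₁ d₁ h₁]

/-- the mean over a finite set -/
def secTrAvg (Q : Finset (ℤ × ℤ)) (u : ℤ × ℤ → ℝ) : ℝ := (Q.card : ℝ)⁻¹ * ∑ x ∈ Q, u x

/-- a value minus the mean over a subrectangle, first path -/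
theorem sec_tr_pt_avg1 (u : ℤ × ℤ → ℝ) (a₁ b₁ a₂ b₂ c₁ d₁ c₂ d₂ : ℤ) (h1 : a₁ ≤ c₁) (h2 : c₁ < d₁) (h3 : d₁ ≤ b₁)
    (h4 : a₂ ≤ c₂) (h5 : c₂ < d₂) (h6 : d₂ ≤ b₂) (x : ℤ × ℤ) (hx : x ∈ Finset.Ico a₁ b₁ ×ˢ Finset.Ico a₂ b₂) :
    (u x - secTrAvg (Finset.Ico c₁ d₁ ×ˢ Finset.Ico c₂ d₂) u) ^ 2
      ≤ 2 * ((b₁ - a₁ : ℤ) : ℝ) * secTrRow u a₁ b₁ x.2 + 2 * ((b₂ - a₂ : ℤ) : ℝ) / ((d₁ - c₁ : ℤ) : ℝ) * secTrEv u a₁ b₁ a₂ b₂ := by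
  have hne : (Finset.Ico c₁ d₁ ×ˢ Finset.Ico c₂ d₂).Nonempty :=
    ⟨(c₁, c₂), by simp only [Finset.mem_product, Finset.mem_Ico]; omega⟩
  refine (sec_tr_jensen _ hne u (u x)).trans ?_
  have hw : (0 : ℝ) < ((d₁ - c₁ : ℤ) : ℝ) := by exact_mod_cast (by omega : (0 : ℤ) < d₁ - c₁)
  have hh : (0 : ℝ) < ((d₂ - c₂ : ℤ) : ℝ) := by exact_mod_cast (by omega : (0 : ℤ) < d₂ - c₂)
  have hN2 : (0 : ℝ) ≤ ((b₂ - a₂ : ℤ) : ℝ) := by exact_mod_cast (by omega : (0 : ℤ) ≤ b₂ - a₂)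
  have hsum : ∑ y ∈ Finset.Ico c₁ d₁ ×ˢ Finset.Ico c₂ d₂, (u x - u y) ^ 2
      ≤ ∑ y ∈ Finset.Ico c₁ d₁ ×ˢ Finset.Ico c₂ d₂,
        (2 * ((b₁ - a₁ : ℤ) : ℝ) * secTrRow u a₁ b₁ x.2 + 2 * ((b₂ - a₂ : ℤ) : ℝ) * secTrCol u a₂ b₂ y.1) := by
    refine Finset.sum_le_sum fun y hy => sec_tr_path u a₁ b₁ a₂ b₂ x y hx ?_
    simp only [Finset.mem_product, Finset.mem_Ico] at hy ⊢
    omega
  have hcol : ∑ i ∈ Finset.Ico c₁ d₁, secTrCol u a₂ b₂ i ≤ secTrEv u a₁ b₁ a₂ b₂ := by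
    refine Finset.sum_le_sum_of_subset_of_nonneg ?_ (fun _ _ _ => secTrCol_nonneg _ _ _ _)
    intro i hi
    rw [Finset.mem_Ico] at hi ⊢
    omega
  rw [Finset.sum_add_distrib, Finset.sum_const, nsmul_eq_mul, ← Finset.mul_sum,
    sec_tr_sum_fst (fun i => secTrCol u a₂ b₂ i) c₁ d₁ c₂ d₂ h5.le, sec_tr_card_rect c₁ d₁ c₂ d₂ h2.le h5.le] at hsum
  rw [sec_tr_card_rect c₁ d₁ c₂ d₂ h2.le h5.le]
  have hinv : (0 : ℝ) ≤ (((d₁ - c₁ : ℤ) : ℝ) * ((d₂ - c₂ : ℤ) : ℝ))⁻¹ := inv_nonneg.2 (mul_pos hw hh).le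
  refine (mul_le_mul_of_nonneg_left hsum hinv).trans ?_
  have e1 : (((d₁ - c₁ : ℤ) : ℝ) * ((d₂ - c₂ : ℤ) : ℝ))⁻¹ * (((d₁ - c₁ : ℤ) : ℝ) * ((d₂ - c₂ : ℤ) : ℝ) * (2 * ((b₁ - a₁ : ℤ) : ℝ) * secTrRow u a₁ b₁ x.2)
      + 2 * ((b₂ - a₂ : ℤ) : ℝ) * (((d₂ - c₂ : ℤ) : ℝ) * ∑ i ∈ Finset.Ico c₁ d₁, secTrCol u a₂ b₂ i))
      = 2 * ((b₁ - a₁ : ℤ) : ℝ) * secTrRow u a₁ b₁ x.2 + 2 * ((b₂ - a₂ : ℤ) : ℝ) / ((d₁ - c₁ : ℤ) : ℝ) * ∑ i ∈ Finset.Ico c₁ d₁, secTrCol u a₂ b₂ i := by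
    field_simp
  rw [e1]
  have : 0 ≤ 2 * ((b₂ - a₂ : ℤ) : ℝ) / ((d₁ - c₁ : ℤ) : ℝ) := by positivity
  linarith [mul_le_mul_of_nonneg_left hcol this]

theorem sec_tr_avg_swap (u : ℤ × ℤ → ℝ) (c₁ d₁ c₂ d₂ : ℤ) :
    secTrAvg (Finset.Ico c₂ d₂ ×ˢ Finset.Ico c₁ d₁) (fun p => u (p.2, p.1)) = secTrAvg (Finset.Ico c₁ d₁ ×ˢ Finset.Ico c₂ d₂) u := by
  unfold secTrAvg
  rw [Finset.card_product, Finset.card_product, mul_comm (Finset.card _), Finset.sum_product, Finset.sum_product_right]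

/-- a value minus the mean over a subrectangle, second path -/
theorem sec_tr_pt_avg2 (u : ℤ × ℤ → ℝ) (a₁ b₁ a₂ b₂ c₁ d₁ c₂ d₂ : ℤ) (h1 : a₁ ≤ c₁) (h2 : c₁ < d₁) (h3 : d₁ ≤ b₁)
    (h4 : a₂ ≤ c₂) (h5 : c₂ < d₂) (h6 : d₂ ≤ b₂) (x : ℤ × ℤ) (hx : x ∈ Finset.Ico a₁ b₁ ×ˢ Finset.Ico a₂ b₂) :
    (u x - secTrAvg (Finset.Ico c₁ d₁ ×ˢ Finset.Ico c₂ d₂) u) ^ 2
      ≤ 2 * ((b₂ - a₂ : ℤ) : ℝ) * secTrCol u a₂ b₂ x.1 + 2 * ((b₁ - a₁ : ℤ) : ℝ) / ((d₂ - c₂ : ℤ) : ℝ) * secTrEh u a₁ b₁ a₂ b₂ := by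
  have h := sec_tr_pt_avg1 (fun p => u (p.2, p.1)) a₂ b₂ a₁ b₁ c₂ d₂ c₁ d₁ h4 h5 h6 h1 h2 h3 (x.2, x.1)
    (by rw [Finset.mem_product] at hx ⊢; exact ⟨hx.2, hx.1⟩)
  rw [sec_tr_avg_swap] at h
  exact h

/-- a column of a rectangle minus the mean -/
theorem sec_tr_side1 (u : ℤ × ℤ → ℝ) (a₁ b₁ a₂ b₂ : ℤ) (h₁ : a₁ < b₁) (h₂ : a₂ < b₂) (i₀ : ℤ) (hi : i₀ ∈ Finset.Ico a₁ b₁) :
    ∑ j ∈ Finset.Ico a₂ b₂, (u (i₀, j) - secTrAvg (Finset.Ico a₁ b₁ ×ˢ Finset.Ico a₂ b₂) u) ^ 2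
      ≤ 2 * ((b₁ - a₁ : ℤ) : ℝ) * secTrEh u a₁ b₁ a₂ b₂
        + ((b₂ - a₂ : ℤ) : ℝ) * (2 * ((b₂ - a₂ : ℤ) : ℝ) / ((b₁ - a₁ : ℤ) : ℝ) * secTrEv u a₁ b₁ a₂ b₂) := by
  have h : ∀ j ∈ Finset.Ico a₂ b₂, (u (i₀, j) - secTrAvg (Finset.Ico a₁ b₁ ×ˢ Finset.Ico a₂ b₂) u) ^ 2
      ≤ 2 * ((b₁ - a₁ : ℤ) : ℝ) * secTrRow u a₁ b₁ j + 2 * ((b₂ - a₂ : ℤ) : ℝ) / ((b₁ - a₁ : ℤ) : ℝ) * secTrEv u a₁ b₁ a₂ b₂ :=
    fun j hj => sec_tr_pt_avg1 u a₁ b₁ a₂ b₂ a₁ b₁ a₂ b₂ le_rfl h₁ le_rfl le_rfl h₂ le_rfl (i₀, j) (Finset.mem_product.2 ⟨hi, hj⟩)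
  refine (Finset.sum_le_sum h).trans (le_of_eq ?_)
  rw [Finset.sum_add_distrib, ← Finset.mul_sum, Finset.sum_const, nsmul_eq_mul, sec_tr_card_Ico a₂ b₂ h₂.le]
  rfl

/-- a row of a rectangle minus the mean -/
theorem sec_tr_side2 (u : ℤ × ℤ → ℝ) (a₁ b₁ a₂ b₂ : ℤ) (h₁ : a₁ < b₁) (h₂ : a₂ < b₂) (j₀ : ℤ) (hj : j₀ ∈ Finset.Ico a₂ b₂) :
    ∑ i ∈ Finset.Ico a₁ b₁, (u (i, j₀) - secTrAvg (Finset.Ico a₁ b₁ ×ˢ Finset.Ico a₂ b₂) u) ^ 2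
      ≤ 2 * ((b₂ - a₂ : ℤ) : ℝ) * secTrEv u a₁ b₁ a₂ b₂
        + ((b₁ - a₁ : ℤ) : ℝ) * (2 * ((b₁ - a₁ : ℤ) : ℝ) / ((b₂ - a₂ : ℤ) : ℝ) * secTrEh u a₁ b₁ a₂ b₂) := by
  have h : ∀ i ∈ Finset.Ico a₁ b₁, (u (i, j₀) - secTrAvg (Finset.Ico a₁ b₁ ×ˢ Finset.Ico a₂ b₂) u) ^ 2
      ≤ 2 * ((b₂ - a₂ : ℤ) : ℝ) * secTrCol u a₂ b₂ i + 2 * ((b₁ - a₁ : ℤ) : ℝ) / ((b₂ - a₂ : ℤ) : ℝ) * secTrEh u a₁ b₁ a₂ b₂ :=
    fun i hi => sec_tr_pt_avg2 u a₁ b₁ a₂ b₂ a₁ b₁ a₂ b₂ le_rfl h₁ le_rfl le_rfl h₂ le_rfl (i, j₀) (Finset.mem_product.2 ⟨hi, hj⟩)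
  refine (Finset.sum_le_sum h).trans (le_of_eq ?_)
  rw [Finset.sum_add_distrib, ← Finset.mul_sum, Finset.sum_const, nsmul_eq_mul, sec_tr_card_Ico a₁ b₁ h₁.le]
  rfl

theorem sec_tr_sum_ite_le (s : Finset ℤ) (G : ℤ → ℝ) (c : ℤ) (hG : 0 ≤ G c) : ∑ i ∈ s, (if i = c then G i else 0) ≤ G c := by
  rw [Finset.sum_ite_eq']
  split_ifs
  · exact le_rfl
  · exact hG

theorem sec_tr_ite_or4 (p1 p2 p3 p4 : Prop) [Decidable p1] [Decidable p2] [Decidable p3] [Decidable p4]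
    [Decidable (p1 ∨ p2 ∨ p3 ∨ p4)] (c : ℝ) (hc : 0 ≤ c) :
    (if p1 ∨ p2 ∨ p3 ∨ p4 then c else 0)
      ≤ (if p1 then c else 0) + (if p2 then c else 0) + (if p3 then c else 0) + (if p4 then c else 0) := by
  by_cases h1 : p1 <;> by_cases h2 : p2 <;> by_cases h3 : p3 <;> by_cases h4 : p4 <;>
    simp only [h1, h2, h3, h4, if_true, if_false, or_true, true_or, or_false, false_or] <;> linarith

/-- sums over the boundary layer of a rectangle -/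
theorem sec_tr_bd_sum (F : ℤ × ℤ → ℝ) (hF : ∀ x, 0 ≤ F x) (a₁ b₁ a₂ b₂ : ℤ) :
    ∑ x ∈ (Finset.Ico a₁ b₁ ×ˢ Finset.Ico a₂ b₂).filter (fun x => x.1 = a₁ ∨ x.1 + 1 = b₁ ∨ x.2 = a₂ ∨ x.2 + 1 = b₂), F x
      ≤ ∑ j ∈ Finset.Ico a₂ b₂, F (a₁, j) + ∑ j ∈ Finset.Ico a₂ b₂, F (b₁ - 1, j)
        + ∑ i ∈ Finset.Ico a₁ b₁, F (i, a₂) + ∑ i ∈ Finset.Ico a₁ b₁, F (i, b₂ - 1) := by
  rw [Finset.sum_filter]
  have h : ∀ x ∈ Finset.Ico a₁ b₁ ×ˢ Finset.Ico a₂ b₂, (if x.1 = a₁ ∨ x.1 + 1 = b₁ ∨ x.2 = a₂ ∨ x.2 + 1 = b₂ then F x else 0)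
      ≤ (if x.1 = a₁ then F x else 0) + (if x.1 = b₁ - 1 then F x else 0) + (if x.2 = a₂ then F x else 0)
        + (if x.2 = b₂ - 1 then F x else 0) := by
    intro x _
    have h0 := hF x
    have e1 : x.1 + 1 = b₁ ↔ x.1 = b₁ - 1 := by omega
    have e2 : x.2 + 1 = b₂ ↔ x.2 = b₂ - 1 := by omega
    simp only [e1, e2]
    exact sec_tr_ite_or4 _ _ _ _ _ h0
  refine (Finset.sum_le_sum h).trans ?_
  rw [Finset.sum_add_distrib, Finset.sum_add_distrib, Finset.sum_add_distrib]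
  refine add_le_add (add_le_add (add_le_add ?_ ?_) ?_) ?_
  · rw [Finset.sum_product_right]
    exact Finset.sum_le_sum fun j _ => sec_tr_sum_ite_le _ (fun i => F (i, j)) a₁ (hF _)
  · rw [Finset.sum_product_right]
    exact Finset.sum_le_sum fun j _ => sec_tr_sum_ite_le _ (fun i => F (i, j)) (b₁ - 1) (hF _)
  · rw [Finset.sum_product]
    exact Finset.sum_le_sum fun i _ => sec_tr_sum_ite_le _ (fun j => F (i, j)) a₂ (hF _)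
  · rw [Finset.sum_product]
    exact Finset.sum_le_sum fun i _ => sec_tr_sum_ite_le _ (fun j => F (i, j)) (b₂ - 1) (hF _)

/-- **trace-Poincare on a rectangle** with sides between `n` and `K n` -/
theorem sec_tr_rect_trace (K n : ℕ) (hn : 1 ≤ n) (u : ℤ × ℤ → ℝ) (a₁ b₁ a₂ b₂ : ℤ) (h1 : (n : ℤ) ≤ b₁ - a₁) (h2 : (n : ℤ) ≤ b₂ - a₂)
    (h3 : b₁ - a₁ ≤ ((K * n : ℕ) : ℤ)) (h4 : b₂ - a₂ ≤ ((K * n : ℕ) : ℤ)) :
    ∑ x ∈ (Finset.Ico a₁ b₁ ×ˢ Finset.Ico a₂ b₂).filter (fun x => x.1 = a₁ ∨ x.1 + 1 = b₁ ∨ x.2 = a₂ ∨ x.2 + 1 = b₂),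
        (u x - secTrAvg (Finset.Ico a₁ b₁ ×ˢ Finset.Ico a₂ b₂) u) ^ 2
      ≤ (4 * (K : ℝ) + 4 * (K : ℝ) ^ 2) * n * (secTrEh u a₁ b₁ a₂ b₂ + secTrEv u a₁ b₁ a₂ b₂) := by
  have hn' : (1 : ℤ) ≤ n := by exact_mod_cast hn
  have l₁ : a₁ < b₁ := by omega
  have l₂ : a₂ < b₂ := by omega
  refine (sec_tr_bd_sum (fun x => (u x - secTrAvg (Finset.Ico a₁ b₁ ×ˢ Finset.Ico a₂ b₂) u) ^ 2) (fun _ => sq_nonneg _) a₁ b₁ a₂ b₂).trans ?_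
  have s1 := sec_tr_side1 u a₁ b₁ a₂ b₂ l₁ l₂ a₁ (by rw [Finset.mem_Ico]; omega)
  have s2 := sec_tr_side1 u a₁ b₁ a₂ b₂ l₁ l₂ (b₁ - 1) (by rw [Finset.mem_Ico]; omega)
  have s3 := sec_tr_side2 u a₁ b₁ a₂ b₂ l₁ l₂ a₂ (by rw [Finset.mem_Ico]; omega)
  have s4 := sec_tr_side2 u a₁ b₁ a₂ b₂ l₁ l₂ (b₂ - 1) (by rw [Finset.mem_Ico]; omega)
  have hEh := secTrEh_nonneg u a₁ b₁ a₂ b₂
  have hEv := secTrEv_nonneg u a₁ b₁ a₂ b₂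
  set N₁ : ℝ := ((b₁ - a₁ : ℤ) : ℝ) with hN₁
  set N₂ : ℝ := ((b₂ - a₂ : ℤ) : ℝ) with hN₂
  set Eh := secTrEh u a₁ b₁ a₂ b₂
  set Ev := secTrEv u a₁ b₁ a₂ b₂
  have hnR : (1 : ℝ) ≤ n := by exact_mod_cast hn
  have g1 : (n : ℝ) ≤ N₁ := by rw [hN₁]; exact_mod_cast h1
  have g2 : (n : ℝ) ≤ N₂ := by rw [hN₂]; exact_mod_cast h2
  have g3 : N₁ ≤ (K : ℝ) * n := by rw [hN₁]; exact_mod_cast h3
  have g4 : N₂ ≤ (K : ℝ) * n := by rw [hN₂]; exact_mod_cast h4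
  have hK : (0 : ℝ) ≤ K := Nat.cast_nonneg _
  have p1 : 0 < N₁ := by linarith
  have p2 : 0 < N₂ := by linarith
  have q1 : N₂ * (2 * N₂ / N₁ * Ev) ≤ 2 * (K : ℝ) ^ 2 * n * Ev := by
    have : N₂ * (2 * N₂ / N₁) ≤ 2 * (K : ℝ) ^ 2 * n := by
      rw [← mul_div_assoc, div_le_iff₀ p1]
      have a1 : N₂ * N₂ ≤ ((K : ℝ) * n) * ((K : ℝ) * n) := mul_le_mul g4 g4 p2.le (by positivity)
      have a2 : (K : ℝ) ^ 2 * n * n ≤ (K : ℝ) ^ 2 * n * N₁ := mul_le_mul_of_nonneg_left g1 (by positivity)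
      nlinarith
    calc N₂ * (2 * N₂ / N₁ * Ev) = N₂ * (2 * N₂ / N₁) * Ev := by ring
      _ ≤ _ := mul_le_mul_of_nonneg_right this hEv
  have q2 : N₁ * (2 * N₁ / N₂ * Eh) ≤ 2 * (K : ℝ) ^ 2 * n * Eh := by
    have : N₁ * (2 * N₁ / N₂) ≤ 2 * (K : ℝ) ^ 2 * n := by
      rw [← mul_div_assoc, div_le_iff₀ p2]
      have a1 : N₁ * N₁ ≤ ((K : ℝ) * n) * ((K : ℝ) * n) := mul_le_mul g3 g3 p1.le (by positivity)
      have a2 : (K : ℝ) ^ 2 * n * n ≤ (K : ℝ) ^ 2 * n * N₂ := mul_le_mul_of_nonneg_left g2 (by positivity)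
      nlinarith
    calc N₁ * (2 * N₁ / N₂ * Eh) = N₁ * (2 * N₁ / N₂) * Eh := by ring
      _ ≤ _ := mul_le_mul_of_nonneg_right this hEh
  have q3 : 2 * N₁ * Eh ≤ 2 * ((K : ℝ) * n) * Eh := by
    exact mul_le_mul_of_nonneg_right (by linarith) hEh
  have q4 : 2 * N₂ * Ev ≤ 2 * ((K : ℝ) * n) * Ev := by
    exact mul_le_mul_of_nonneg_right (by linarith) hEv
  nlinarith

theorem sec_tr_bonds_rect' (u : ℤ × ℤ → ℝ) (a₁ b₁ a₂ b₂ : ℤ) :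
    ∑ e ∈ domBonds (Finset.Ico a₁ b₁ ×ˢ Finset.Ico a₂ b₂) ∅, (u e.snd - u e.1) ^ 2
      = secTrEh u a₁ b₁ a₂ b₂ + secTrEv u a₁ b₁ a₂ b₂ := sec_tr_bonds_rect u a₁ b₁ a₂ b₂

/-- POT: trace-Poincare on one rectangle `[0,n₁) × [0,n₂)` with `n ≤ n₁, n₂ ≤ K n`: boundary layer values minus the mean. -/
theorem pot_cell_trace (K : ℕ) : ∃ C : ℝ, 0 ≤ C ∧ ∀ (n n₁ n₂ : ℕ), 1 ≤ n → n ≤ n₁ → n ≤ n₂ → n₁ ≤ K * n → n₂ ≤ K * n →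
    ∀ u : ℤ × ℤ → ℝ,
      let Q : Finset (ℤ × ℤ) := Finset.Ico (0 : ℤ) n₁ ×ˢ Finset.Ico (0 : ℤ) n₂
      let uQ : ℝ := (Q.card : ℝ)⁻¹ * ∑ x ∈ Q, u x
      ∑ x ∈ Q.filter (fun x => x.1 = 0 ∨ x.1 + 1 = (n₁ : ℤ) ∨ x.2 = 0 ∨ x.2 + 1 = (n₂ : ℤ)), (u x - uQ) ^ 2
        ≤ C * n * ∑ e ∈ domBonds Q ∅, (u e.snd - u e.1) ^ 2 := by
  refine ⟨4 * (K : ℝ) + 4 * (K : ℝ) ^ 2, by positivity, ?_⟩
  intro n n₁ n₂ hn h1 h2 h3 h4 u Q uQ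
  have h := sec_tr_rect_trace K n hn u 0 n₁ 0 n₂ (by rw [sub_zero]; exact_mod_cast h1) (by rw [sub_zero]; exact_mod_cast h2)
    (by rw [sub_zero]; exact_mod_cast h3) (by rw [sub_zero]; exact_mod_cast h4)
  rw [← sec_tr_bonds_rect'] at h
  exact h

variable {m₁ m₂ : ℕ}

/-- the average of a function on `ℤ²` over a cell -/
def cellAvg (g : DGrid m₁ m₂) (κ : Cell m₁ m₂) (u : ℤ × ℤ → ℝ) : ℝ := ((g.cell κ).card : ℝ)⁻¹ * ∑ x ∈ g.cell κ, u x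

theorem sec_tr_mem_domBonds {D : Finset (ℤ × ℤ)} {cut : Set Bond} {e : Bond} :
    e ∈ domBonds D cut ↔ e.1 ∈ D ∧ e.snd ∈ D ∧ e ∉ cut := by
  simp only [domBonds, Finset.mem_filter, Finset.mem_product, Finset.mem_univ, and_true, and_assoc]

theorem sec_tr_line_unique {m : ℕ} {f : Fin (m + 1) → ℤ} (hf : StrictMono f) {i i' : Fin m} {t : ℤ}
    (h1 : f i.castSucc ≤ t) (h2 : t < f i.succ) (h1' : f i'.castSucc ≤ t) (h2' : t < f i'.succ) : i = i' := by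
  rcases lt_trichotomy i i' with h | h | h
  · exfalso
    have : f i.succ ≤ f i'.castSucc := hf.monotone (by rw [Fin.le_def]; simp only [Fin.val_succ, Fin.val_castSucc]; exact h)
    omega
  · exact h
  · exfalso
    have : f i'.succ ≤ f i.castSucc := hf.monotone (by rw [Fin.le_def]; simp only [Fin.val_succ, Fin.val_castSucc]; exact h)
    omega

theorem sec_tr_mem_cell (g : DGrid m₁ m₂) {x : ℤ × ℤ} {κ : Cell m₁ m₂} :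
    x ∈ g.cell κ ↔ (g.x₁ κ.1.castSucc ≤ x.1 ∧ x.1 < g.x₁ κ.1.succ) ∧ (g.x₂ κ.2.castSucc ≤ x.2 ∧ x.2 < g.x₂ κ.2.succ) := by
  simp only [DGrid.cell, Finset.mem_product, Finset.mem_Ico]

/-- the cells are disjoint -/
theorem sec_tr_cell_unique (g : DGrid m₁ m₂) {x : ℤ × ℤ} {κ κ' : Cell m₁ m₂} (h : x ∈ g.cell κ) (h' : x ∈ g.cell κ') : κ = κ' := by
  rw [sec_tr_mem_cell] at h h'
  exact Prod.ext (sec_tr_line_unique g.mono₁ h.1.1 h.1.2 h'.1.1 h'.1.2) (sec_tr_line_unique g.mono₂ h.2.1 h.2.2 h'.2.1 h'.2.2)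

theorem sec_tr_cell_sub_region (g : DGrid m₁ m₂) {T : Finset (Cell m₁ m₂)} {κ : Cell m₁ m₂} (hκ : κ ∈ T) : g.cell κ ⊆ g.region T :=
  fun _ hx => Finset.mem_biUnion.2 ⟨κ, hκ, hx⟩

/-- the bonds inside a cell are bonds of the geometry -/
theorem sec_tr_cell_bonds_sub (Γ : CGeom m₁ m₂) (g : DGrid m₁ m₂) {κ : Cell m₁ m₂} (hκ : κ ∈ Γ.T) :
    domBonds (g.cell κ) ∅ ⊆ bonds Γ g := by
  intro e he
  rw [sec_tr_mem_domBonds] at he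
  unfold bonds
  rw [sec_tr_mem_domBonds]
  refine ⟨sec_tr_cell_sub_region g hκ he.1, sec_tr_cell_sub_region g hκ he.2.1, ?_⟩
  rintro ⟨f, -, -, h1, h2⟩
  rw [sec_tr_cell_unique g h1 he.1] at h2
  exact h2 he.2.1

/-- the energies in the cells add up to at most the energy -/
theorem sec_tr_sum_cells_le (Γ : CGeom m₁ m₂) (g : DGrid m₁ m₂) (φ : ℤ × ℤ → ℝ) :
    ∑ κ ∈ Γ.T, ∑ e ∈ domBonds (g.cell κ) ∅, (φ e.snd - φ e.1) ^ 2 ≤ enB Γ g φ := by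
  rw [← Finset.sum_biUnion]
  · exact Finset.sum_le_sum_of_subset_of_nonneg (Finset.biUnion_subset.2 fun κ hκ => sec_tr_cell_bonds_sub Γ g hκ)
      (fun _ _ _ => sq_nonneg _)
  · intro κ _ κ' _ hne
    refine Finset.disjoint_left.2 fun e he he' => hne ?_
    rw [sec_tr_mem_domBonds] at he he'
    exact sec_tr_cell_unique g he.1 he'.1

/-- the boundary layer of a cell -/
theorem sec_tr_nearLine_sub (g : DGrid m₁ m₂) (κ : Cell m₁ m₂) :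
    (g.cell κ).filter (fun x => NearLine g x) ⊆ (g.cell κ).filter (fun x =>
      x.1 = g.x₁ κ.1.castSucc ∨ x.1 + 1 = g.x₁ κ.1.succ ∨ x.2 = g.x₂ κ.2.castSucc ∨ x.2 + 1 = g.x₂ κ.2.succ) := by
  intro x hx
  rw [Finset.mem_filter] at hx ⊢
  obtain ⟨hx, κ', h1, h2⟩ := hx
  rw [sec_tr_cell_unique g h1 hx] at h2
  exact ⟨hx, h2⟩

/-- trace-Poincare in one cell -/
theorem sec_tr_cell_trace (K n : ℕ) (hn : 1 ≤ n) (g : DGrid m₁ m₂) (hg : Scale K g n) (κ : Cell m₁ m₂) (φ : ℤ × ℤ → ℝ) :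
    ∑ x ∈ (g.cell κ).filter (fun x => NearLine g x), (φ x - cellAvg g κ φ) ^ 2
      ≤ (4 * (K : ℝ) + 4 * (K : ℝ) ^ 2) * n * ∑ e ∈ domBonds (g.cell κ) ∅, (φ e.snd - φ e.1) ^ 2 := by
  refine (Finset.sum_le_sum_of_subset_of_nonneg (sec_tr_nearLine_sub g κ) (fun _ _ _ => sq_nonneg _)).trans ?_
  have h := sec_tr_rect_trace K n hn φ (g.x₁ κ.1.castSucc) (g.x₁ κ.1.succ) (g.x₂ κ.2.castSucc) (g.x₂ κ.2.succ)
    (hg.1.1 κ.1) (hg.1.2 κ.2) (hg.2.1 κ.1) (hg.2.2 κ.2)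
  rw [← sec_tr_bonds_rect'] at h
  exact h

/-- the Dirichlet energy of the graph is `enB` -/
theorem sec_tr_en_onV (Γ : CGeom m₁ m₂) (g : DGrid m₁ m₂) (φ : ℤ × ℤ → ℝ) : HLaw.en (onV Γ g φ) 0 = enB Γ g φ := by
  have h := Finset.sum_subtype (F := (Γ.graph g).fE) (domBonds (g.region Γ.T) (Γ.cutB g))
    (p := fun e => e ∈ domBonds (g.region Γ.T) (Γ.cutB g)) (fun _ => Iff.rfl) (fun e => (φ e.snd - φ e.1) ^ 2)
  unfold enB bonds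
  rw [h]
  unfold HLaw.en
  refine Finset.sum_congr rfl fun e _ => ?_
  rw [Pi.zero_apply, add_zero]
  rfl

/-- sums over the vertices of the graph -/
theorem sec_tr_sum_V (Γ : CGeom m₁ m₂) (g : DGrid m₁ m₂) (F : ℤ × ℤ → ℝ) :
    ∑ x : (Γ.graph g).V, F (domPos (D := g.region Γ.T) (cut := Γ.cutB g) x) = ∑ x ∈ g.region Γ.T, F x :=
  (Finset.sum_subtype (F := (Γ.graph g).fV) (g.region Γ.T) (p := fun v => v ∈ g.region Γ.T) (fun _ => Iff.rfl) F).symm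

/-- the observation of `cellRow` attached to a cell of `T` is the cell average -/
theorem sec_tr_obs_cell (Γ : CGeom m₁ m₂) (g : DGrid m₁ m₂) (φ : ℤ × ℤ → ℝ) {κ : Cell m₁ m₂} (hκ : κ ∈ Γ.T) :
    (rlaw Γ g cellRow).obs (onV Γ g φ) (finProdFinEquiv κ) = cellAvg g κ φ := by
  have hB : ∀ x : (Γ.graph g).V, (rlaw Γ g cellRow).B (finProdFinEquiv κ) x * onV Γ g φ x
      = (fun y : ℤ × ℤ => (if y ∈ g.cell κ then ((g.cell κ).card : ℝ)⁻¹ else 0) * φ y)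
        (domPos (D := g.region Γ.T) (cut := Γ.cutB g) x) := by
    intro x
    have h1 : (rlaw Γ g cellRow).B (finProdFinEquiv κ) x = Γ.avgRow g {κ} x := by
      show ∑ κ', cellRow (finProdFinEquiv κ) κ' * Γ.avgRow g {κ'} x = _
      simp only [cellRow, Equiv.symm_apply_apply, ite_mul, one_mul, zero_mul, Finset.sum_ite_eq', Finset.mem_univ, if_true]
    rw [h1]
    have h2 : g.region ({κ} ∩ Γ.T) = g.cell κ := by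
      rw [Finset.singleton_inter_of_mem hκ]
      exact Finset.singleton_biUnion
    have h3 : g.region {κ} = g.cell κ := Finset.singleton_biUnion
    unfold CGeom.avgRow
    rw [h2]
    have h4 : x ∈ Γ.sites g {κ} ↔ domPos (D := g.region Γ.T) (cut := Γ.cutB g) x ∈ g.cell κ := by
      rw [← h3]; exact Iff.rfl
    simp only [h4]
    rfl
  unfold HLaw.obs
  rw [Finset.sum_congr rfl fun x _ => hB x]
  refine (sec_tr_sum_V Γ g (fun y : ℤ × ℤ => (if y ∈ g.cell κ then ((g.cell κ).card : ℝ)⁻¹ else 0) * φ y)).trans ?_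
  simp only [ite_mul, zero_mul]
  rw [← Finset.sum_filter, Finset.filter_mem_eq_inter, Finset.inter_eq_right.2 (sec_tr_cell_sub_region g hκ), ← Finset.mul_sum]
  rfl

/-- the squares of the cell averages are controlled by the observations -/
theorem sec_tr_sum_avg_le (Γ : CGeom m₁ m₂) (g : DGrid m₁ m₂) (φ : ℤ × ℤ → ℝ) :
    ∑ κ ∈ Γ.T, cellAvg g κ φ ^ 2 ≤ ∑ o, (rlaw Γ g cellRow).obs (onV Γ g φ) o ^ 2 := by
  have h1 : ∑ o, (rlaw Γ g cellRow).obs (onV Γ g φ) o ^ 2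
      = ∑ κ : Cell m₁ m₂, (rlaw Γ g cellRow).obs (onV Γ g φ) (finProdFinEquiv κ) ^ 2 :=
    (Equiv.sum_comp finProdFinEquiv (fun o : Fin (m₁ * m₂) => (rlaw Γ g cellRow).obs (onV Γ g φ) o ^ 2)).symm
  rw [h1, Finset.sum_congr rfl fun κ hκ => by rw [← sec_tr_obs_cell Γ g φ hκ]]
  exact Finset.sum_le_sum_of_subset_of_nonneg (Finset.subset_univ _) (fun _ _ _ => sq_nonneg _)

/-- the number of sites in the boundary layer of a cell -/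
theorem sec_tr_card_nearLine (K n : ℕ) (g : DGrid m₁ m₂) (hg : Scale K g n) (κ : Cell m₁ m₂) :
    (((g.cell κ).filter (fun x => NearLine g x)).card : ℝ) ≤ 4 * (K : ℝ) * n := by
  have h1 : (((g.cell κ).filter (fun x => NearLine g x)).card : ℝ) ≤ (((g.cell κ).filter (fun x =>
      x.1 = g.x₁ κ.1.castSucc ∨ x.1 + 1 = g.x₁ κ.1.succ ∨ x.2 = g.x₂ κ.2.castSucc ∨ x.2 + 1 = g.x₂ κ.2.succ)).card : ℝ) := by
    exact_mod_cast Finset.card_le_card (sec_tr_nearLine_sub g κ)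
  refine h1.trans ?_
  have h2 := sec_tr_bd_sum (fun _ => (1 : ℝ)) (fun _ => zero_le_one) (g.x₁ κ.1.castSucc) (g.x₁ κ.1.succ) (g.x₂ κ.2.castSucc) (g.x₂ κ.2.succ)
  simp only [Finset.sum_const, nsmul_eq_mul, mul_one] at h2
  have l1 : g.x₁ κ.1.castSucc ≤ g.x₁ κ.1.succ := (g.mono₁ (Fin.castSucc_lt_succ)).le
  have l2 : g.x₂ κ.2.castSucc ≤ g.x₂ κ.2.succ := (g.mono₂ (Fin.castSucc_lt_succ)).le
  rw [sec_tr_card_Ico _ _ l1, sec_tr_card_Ico _ _ l2] at h2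
  have g1 : ((g.x₁ κ.1.succ - g.x₁ κ.1.castSucc : ℤ) : ℝ) ≤ (K : ℝ) * n := by exact_mod_cast hg.2.1 κ.1
  have g2 : ((g.x₂ κ.2.succ - g.x₂ κ.2.castSucc : ℤ) : ℝ) ≤ (K : ℝ) * n := by exact_mod_cast hg.2.2 κ.2
  refine le_trans h2 ?_
  linarith

/-- sums over the boundary layers -/
theorem sec_tr_sum_region_filter (g : DGrid m₁ m₂) (T : Finset (Cell m₁ m₂)) (F : ℤ × ℤ → ℝ) :
    ∑ x ∈ (g.region T).filter (fun x => NearLine g x), F x = ∑ κ ∈ T, ∑ x ∈ (g.cell κ).filter (fun x => NearLine g x), F x := by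
  unfold DGrid.region
  rw [Finset.filter_biUnion, Finset.sum_biUnion]
  intro κ _ κ' _ hne
  refine Finset.disjoint_left.2 fun x hx hx' => hne ?_
  exact sec_tr_cell_unique g (Finset.mem_filter.1 hx).1 (Finset.mem_filter.1 hx').1

/-- the same on the cells of a grid, with the mean: boundary layer values are controlled by the form with one unit observation per cell.   THE CONSTANT DOES NOT DEPEND ON THE ARRAY (it is used for all refinements). -/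
theorem trace_form (K : ℕ) (a : ℝ) (ha : 0 < a) : ∃ C : ℝ, 0 ≤ C ∧ ∀ {m₁ m₂ : ℕ} (Γ : CGeom m₁ m₂) (g : DGrid m₁ m₂) (n : ℕ), 1 ≤ n → Scale K g n →
    ∀ φ : ℤ × ℤ → ℝ, ∑ x ∈ (g.region Γ.T).filter (fun x => NearLine g x), φ x ^ 2 ≤ C * n * (rlaw Γ g cellRow).form a (onV Γ g φ) := by
  refine ⟨2 * (4 * (K : ℝ) + 4 * (K : ℝ) ^ 2) * a + 8 * (K : ℝ), by positivity, ?_⟩
  intro m₁ m₂ Γ g n hn hg φ
  rw [sec_tr_sum_region_filter]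
  have h1 : ∀ κ ∈ Γ.T, ∑ x ∈ (g.cell κ).filter (fun x => NearLine g x), φ x ^ 2
      ≤ 2 * ((4 * (K : ℝ) + 4 * (K : ℝ) ^ 2) * n * ∑ e ∈ domBonds (g.cell κ) ∅, (φ e.snd - φ e.1) ^ 2)
        + 8 * (K : ℝ) * n * cellAvg g κ φ ^ 2 := by
    intro κ _
    have e1 : ∀ x ∈ (g.cell κ).filter (fun x => NearLine g x), φ x ^ 2 ≤ 2 * (φ x - cellAvg g κ φ) ^ 2 + 2 * cellAvg g κ φ ^ 2 := by
      intro x _
      nlinarith [sq_nonneg (φ x - 2 * cellAvg g κ φ)]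
    refine (Finset.sum_le_sum e1).trans ?_
    rw [Finset.sum_add_distrib, ← Finset.mul_sum, Finset.sum_const, nsmul_eq_mul]
    have e2 := sec_tr_cell_trace K n hn g hg κ φ
    have e3 := sec_tr_card_nearLine K n g hg κ
    have e4 := mul_le_mul_of_nonneg_right e3 (by positivity : 0 ≤ 2 * cellAvg g κ φ ^ 2)
    linarith
  refine (Finset.sum_le_sum h1).trans ?_
  rw [Finset.sum_add_distrib, ← Finset.mul_sum, ← Finset.mul_sum, ← Finset.mul_sum]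
  have h2 := sec_tr_sum_cells_le Γ g φ
  have h3 := sec_tr_sum_avg_le Γ g φ
  unfold HLaw.form
  rw [sec_tr_en_onV]
  have hE : 0 ≤ enB Γ g φ := Finset.sum_nonneg fun _ _ => sq_nonneg _
  have hS : 0 ≤ ∑ o, (rlaw Γ g cellRow).obs (onV Γ g φ) o ^ 2 := Finset.sum_nonneg fun _ _ => sq_nonneg _
  set S := ∑ o, (rlaw Γ g cellRow).obs (onV Γ g φ) o ^ 2
  set E := enB Γ g φ
  have hn0 : (0 : ℝ) ≤ n := Nat.cast_nonneg _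
  have hK : (0 : ℝ) ≤ K := Nat.cast_nonneg _
  have k1 : 2 * ((4 * (K : ℝ) + 4 * (K : ℝ) ^ 2) * n * ∑ κ ∈ Γ.T, ∑ e ∈ domBonds (g.cell κ) ∅, (φ e.snd - φ e.1) ^ 2)
      ≤ 2 * ((4 * (K : ℝ) + 4 * (K : ℝ) ^ 2) * n * E) := by
    exact mul_le_mul_of_nonneg_left (mul_le_mul_of_nonneg_left h2 (by positivity)) (by norm_num)
  have k2 : 8 * (K : ℝ) * n * ∑ κ ∈ Γ.T, cellAvg g κ φ ^ 2 ≤ 8 * (K : ℝ) * n * S :=
    mul_le_mul_of_nonneg_left h3 (by positivity)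
  have k3 : (2 * (4 * (K : ℝ) + 4 * (K : ℝ) ^ 2) * a + 8 * (K : ℝ)) * n * (a⁻¹ * E + S)
      = 2 * ((4 * (K : ℝ) + 4 * (K : ℝ) ^ 2) * n * E) + 8 * (K : ℝ) * n * S
        + (2 * (4 * (K : ℝ) + 4 * (K : ℝ) ^ 2) * a * n * S + 8 * (K : ℝ) * n * (a⁻¹ * E)) := by
    field_simp
    ring
  rw [k3]
  have k4 : 0 ≤ 2 * (4 * (K : ℝ) + 4 * (K : ℝ) ^ 2) * a * n * S + 8 * (K : ℝ) * n * (a⁻¹ * E) := by positivity
  linarith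

/-- without the mean: boundary layer values minus the cell average are controlled by the energy in the cells. -/
theorem trace_energy (K : ℕ) : ∃ C : ℝ, 0 ≤ C ∧ ∀ {m₁ m₂ : ℕ} (Γ : CGeom m₁ m₂) (g : DGrid m₁ m₂) (n : ℕ), 1 ≤ n → Scale K g n →
    ∀ φ : ℤ × ℤ → ℝ, ∑ κ ∈ Γ.T, ∑ x ∈ (g.cell κ).filter (fun x => NearLine g x), (φ x - cellAvg g κ φ) ^ 2 ≤ C * n * enB Γ g φ := by
  refine ⟨4 * (K : ℝ) + 4 * (K : ℝ) ^ 2, by positivity, ?_⟩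
  intro m₁ m₂ Γ g n hn hg φ
  refine (Finset.sum_le_sum fun κ _ => sec_tr_cell_trace K n hn g hg κ φ).trans ?_
  rw [← Finset.mul_sum]
  exact mul_le_mul_of_nonneg_left (sec_tr_sum_cells_le Γ g φ) (by positivity)

/-- the means over two subrectangles -/
theorem sec_tr_avg_avg (u : ℤ × ℤ → ℝ) (a₁ b₁ a₂ b₂ c₁ d₁ c₂ d₂ c₁' d₁' c₂' d₂' : ℤ) (h1 : a₁ ≤ c₁) (h2 : c₁ < d₁) (h3 : d₁ ≤ b₁)
    (h4 : a₂ ≤ c₂) (h5 : c₂ < d₂) (h6 : d₂ ≤ b₂) (h1' : a₁ ≤ c₁') (h2' : c₁' < d₁') (h3' : d₁' ≤ b₁)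
    (h4' : a₂ ≤ c₂') (h5' : c₂' < d₂') (h6' : d₂' ≤ b₂) :
    (secTrAvg (Finset.Ico c₁ d₁ ×ˢ Finset.Ico c₂ d₂) u - secTrAvg (Finset.Ico c₁' d₁' ×ˢ Finset.Ico c₂' d₂') u) ^ 2
      ≤ 2 * ((b₁ - a₁ : ℤ) : ℝ) / ((d₂ - c₂ : ℤ) : ℝ) * secTrEh u a₁ b₁ a₂ b₂
        + 2 * ((b₂ - a₂ : ℤ) : ℝ) / ((d₁' - c₁' : ℤ) : ℝ) * secTrEv u a₁ b₁ a₂ b₂ := by
  have hne : (Finset.Ico c₁ d₁ ×ˢ Finset.Ico c₂ d₂).Nonempty :=
    ⟨(c₁, c₂), by simp only [Finset.mem_product, Finset.mem_Ico]; omega⟩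
  set c := secTrAvg (Finset.Ico c₁' d₁' ×ˢ Finset.Ico c₂' d₂') u with hc
  have hJ := sec_tr_jensen _ hne u c
  have e0 : (secTrAvg (Finset.Ico c₁ d₁ ×ˢ Finset.Ico c₂ d₂) u - c) ^ 2
      = (c - ((Finset.Ico c₁ d₁ ×ˢ Finset.Ico c₂ d₂).card : ℝ)⁻¹ * ∑ y ∈ Finset.Ico c₁ d₁ ×ˢ Finset.Ico c₂ d₂, u y) ^ 2 := by
    unfold secTrAvg; ring
  rw [e0]
  refine hJ.trans ?_
  have hw : (0 : ℝ) < ((d₁ - c₁ : ℤ) : ℝ) := by exact_mod_cast (by omega : (0 : ℤ) < d₁ - c₁)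
  have hh : (0 : ℝ) < ((d₂ - c₂ : ℤ) : ℝ) := by exact_mod_cast (by omega : (0 : ℤ) < d₂ - c₂)
  have hN1 : (0 : ℝ) ≤ ((b₁ - a₁ : ℤ) : ℝ) := by exact_mod_cast (by omega : (0 : ℤ) ≤ b₁ - a₁)
  set B := 2 * ((b₂ - a₂ : ℤ) : ℝ) / ((d₁' - c₁' : ℤ) : ℝ) * secTrEv u a₁ b₁ a₂ b₂ with hB
  have hsum : ∑ y ∈ Finset.Ico c₁ d₁ ×ˢ Finset.Ico c₂ d₂, (c - u y) ^ 2
      ≤ ∑ y ∈ Finset.Ico c₁ d₁ ×ˢ Finset.Ico c₂ d₂, (2 * ((b₁ - a₁ : ℤ) : ℝ) * secTrRow u a₁ b₁ y.2 + B) := by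
    refine Finset.sum_le_sum fun y hy => ?_
    have := sec_tr_pt_avg1 u a₁ b₁ a₂ b₂ c₁' d₁' c₂' d₂' h1' h2' h3' h4' h5' h6' y (by
      simp only [Finset.mem_product, Finset.mem_Ico] at hy ⊢
      omega)
    calc (c - u y) ^ 2 = (u y - c) ^ 2 := by ring
      _ ≤ _ := this
  have hrow : ∑ j ∈ Finset.Ico c₂ d₂, secTrRow u a₁ b₁ j ≤ secTrEh u a₁ b₁ a₂ b₂ := by
    refine Finset.sum_le_sum_of_subset_of_nonneg ?_ (fun _ _ _ => secTrRow_nonneg _ _ _ _)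
    intro i hi
    rw [Finset.mem_Ico] at hi ⊢
    omega
  rw [Finset.sum_add_distrib, Finset.sum_const, nsmul_eq_mul, ← Finset.mul_sum,
    sec_tr_sum_snd (fun j => secTrRow u a₁ b₁ j) c₁ d₁ c₂ d₂ h2.le, sec_tr_card_rect c₁ d₁ c₂ d₂ h2.le h5.le] at hsum
  rw [sec_tr_card_rect c₁ d₁ c₂ d₂ h2.le h5.le]
  have hinv : (0 : ℝ) ≤ (((d₁ - c₁ : ℤ) : ℝ) * ((d₂ - c₂ : ℤ) : ℝ))⁻¹ := inv_nonneg.2 (mul_pos hw hh).le
  refine (mul_le_mul_of_nonneg_left hsum hinv).trans ?_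
  have e1 : (((d₁ - c₁ : ℤ) : ℝ) * ((d₂ - c₂ : ℤ) : ℝ))⁻¹ * (2 * ((b₁ - a₁ : ℤ) : ℝ) * (((d₁ - c₁ : ℤ) : ℝ) * ∑ j ∈ Finset.Ico c₂ d₂, secTrRow u a₁ b₁ j)
      + ((d₁ - c₁ : ℤ) : ℝ) * ((d₂ - c₂ : ℤ) : ℝ) * B)
      = 2 * ((b₁ - a₁ : ℤ) : ℝ) / ((d₂ - c₂ : ℤ) : ℝ) * ∑ j ∈ Finset.Ico c₂ d₂, secTrRow u a₁ b₁ j + B := by
    field_simp
  rw [e1]
  have : 0 ≤ 2 * ((b₁ - a₁ : ℤ) : ℝ) / ((d₂ - c₂ : ℤ) : ℝ) := by positivity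
  linarith [mul_le_mul_of_nonneg_left hrow this]

/-- two cells joined by an uncut vertical face: the bonds of the union are bonds of the geometry -/
theorem sec_tr_pair_bonds_h (Γ : CGeom m₁ m₂) (g : DGrid m₁ m₂) {κ κ' : Cell m₁ m₂} (hκ : κ ∈ Γ.T) (hκ' : κ' ∈ Γ.T)
    (h1 : κ'.1.1 = κ.1.1 + 1) (h2 : κ'.2 = κ.2) (h3 : (κ, true) ∉ Γ.cutF) :
    domBonds (Finset.Ico (g.x₁ κ.1.castSucc) (g.x₁ κ'.1.succ) ×ˢ Finset.Ico (g.x₂ κ.2.castSucc) (g.x₂ κ.2.succ)) ∅ ⊆ bonds Γ g := by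
  have hx : g.x₁ κ'.1.castSucc = g.x₁ κ.1.succ := by
    congr 1; apply Fin.ext; simp only [Fin.val_succ, Fin.val_castSucc]; exact h1
  have hmem : ∀ x : ℤ × ℤ, x ∈ Finset.Ico (g.x₁ κ.1.castSucc) (g.x₁ κ'.1.succ) ×ˢ Finset.Ico (g.x₂ κ.2.castSucc) (g.x₂ κ.2.succ) →
      x ∈ g.cell κ ∨ x ∈ g.cell κ' := by
    intro x hx'
    rw [sec_tr_mem_cell, sec_tr_mem_cell, h2, hx]
    simp only [Finset.mem_product, Finset.mem_Ico] at hx'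
    omega
  have hreg : ∀ x : ℤ × ℤ, x ∈ Finset.Ico (g.x₁ κ.1.castSucc) (g.x₁ κ'.1.succ) ×ˢ Finset.Ico (g.x₂ κ.2.castSucc) (g.x₂ κ.2.succ) →
      x ∈ g.region Γ.T := fun x hx' =>
    (hmem x hx').elim (fun h => sec_tr_cell_sub_region g hκ h) (fun h => sec_tr_cell_sub_region g hκ' h)
  intro e he
  rw [sec_tr_mem_domBonds] at he
  unfold bonds
  rw [sec_tr_mem_domBonds]
  refine ⟨hreg _ he.1, hreg _ he.2.1, ?_⟩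
  rintro ⟨f, hf, hd, k1, k2⟩
  obtain ⟨he1, he2, -⟩ := he
  rcases hmem _ he1 with hc | hc
  · have hfk : f.1 = κ := sec_tr_cell_unique g k1 hc
    rw [hfk] at k2
    obtain ⟨⟨x, y⟩, β⟩ := e
    cases β
    · apply k2
      rw [sec_tr_mem_cell] at hc ⊢
      simp only [Bond.snd, Bool.false_eq_true, if_false, Finset.mem_product, Finset.mem_Ico] at he2 hc ⊢
      omega
    · apply h3
      have : f = (κ, true) := Prod.ext hfk hd.symm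
      rw [← this]; exact hf
  · have hfk : f.1 = κ' := sec_tr_cell_unique g k1 hc
    rw [hfk] at k2
    apply k2
    obtain ⟨⟨x, y⟩, β⟩ := e
    rw [sec_tr_mem_cell, h2] at hc ⊢
    cases β
    · simp only [Bond.snd, Bool.false_eq_true, if_false, Finset.mem_product, Finset.mem_Ico] at he2 hc ⊢
      omega
    · simp only [Bond.snd, if_true, Finset.mem_product, Finset.mem_Ico] at he2 hc ⊢
      omega

/-- two cells joined by an uncut horizontal face: the bonds of the union are bonds of the geometry -/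
theorem sec_tr_pair_bonds_v (Γ : CGeom m₁ m₂) (g : DGrid m₁ m₂) {κ κ' : Cell m₁ m₂} (hκ : κ ∈ Γ.T) (hκ' : κ' ∈ Γ.T)
    (h1 : κ'.1 = κ.1) (h2 : κ'.2.1 = κ.2.1 + 1) (h3 : (κ, false) ∉ Γ.cutF) :
    domBonds (Finset.Ico (g.x₁ κ.1.castSucc) (g.x₁ κ.1.succ) ×ˢ Finset.Ico (g.x₂ κ.2.castSucc) (g.x₂ κ'.2.succ)) ∅ ⊆ bonds Γ g := by
  have hx : g.x₂ κ'.2.castSucc = g.x₂ κ.2.succ := by
    congr 1; apply Fin.ext; simp only [Fin.val_succ, Fin.val_castSucc]; exact h2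
  have hmem : ∀ x : ℤ × ℤ, x ∈ Finset.Ico (g.x₁ κ.1.castSucc) (g.x₁ κ.1.succ) ×ˢ Finset.Ico (g.x₂ κ.2.castSucc) (g.x₂ κ'.2.succ) →
      x ∈ g.cell κ ∨ x ∈ g.cell κ' := by
    intro x hx'
    rw [sec_tr_mem_cell, sec_tr_mem_cell, h1, hx]
    simp only [Finset.mem_product, Finset.mem_Ico] at hx'
    omega
  have hreg : ∀ x : ℤ × ℤ, x ∈ Finset.Ico (g.x₁ κ.1.castSucc) (g.x₁ κ.1.succ) ×ˢ Finset.Ico (g.x₂ κ.2.castSucc) (g.x₂ κ'.2.succ) →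
      x ∈ g.region Γ.T := fun x hx' =>
    (hmem x hx').elim (fun h => sec_tr_cell_sub_region g hκ h) (fun h => sec_tr_cell_sub_region g hκ' h)
  intro e he
  rw [sec_tr_mem_domBonds] at he
  unfold bonds
  rw [sec_tr_mem_domBonds]
  refine ⟨hreg _ he.1, hreg _ he.2.1, ?_⟩
  rintro ⟨f, hf, hd, k1, k2⟩
  obtain ⟨he1, he2, -⟩ := he
  rcases hmem _ he1 with hc | hc
  · have hfk : f.1 = κ := sec_tr_cell_unique g k1 hc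
    rw [hfk] at k2
    obtain ⟨⟨x, y⟩, β⟩ := e
    cases β
    · apply h3
      have : f = (κ, false) := Prod.ext hfk hd.symm
      rw [← this]; exact hf
    · apply k2
      rw [sec_tr_mem_cell] at hc ⊢
      simp only [Bond.snd, if_true, Finset.mem_product, Finset.mem_Ico] at he2 hc ⊢
      omega
  · have hfk : f.1 = κ' := sec_tr_cell_unique g k1 hc
    rw [hfk] at k2
    apply k2
    obtain ⟨⟨x, y⟩, β⟩ := e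
    rw [sec_tr_mem_cell, h1] at hc ⊢
    cases β
    · simp only [Bond.snd, Bool.false_eq_true, if_false, Finset.mem_product, Finset.mem_Ico] at he2 hc ⊢
      omega
    · simp only [Bond.snd, if_true, Finset.mem_product, Finset.mem_Ico] at he2 hc ⊢
      omega

theorem sec_tr_coef (K n N d : ℝ) (hK : 0 ≤ K) (hn : 1 ≤ n) (hN : N ≤ 2 * K * n) (hd : n ≤ d) : 2 * N / d ≤ 4 * K := by
  rw [div_le_iff₀ (by linarith)]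
  nlinarith [mul_le_mul_of_nonneg_left hd hK]

/-- averages over two cells joined by an uncut face -/
theorem avg_adjacent (K : ℕ) : ∃ C : ℝ, 0 ≤ C ∧ ∀ {m₁ m₂ : ℕ} (Γ : CGeom m₁ m₂) (g : DGrid m₁ m₂) (n : ℕ), 1 ≤ n → Scale K g n →
    ∀ (f : CFace m₁ m₂) (κ' : Cell m₁ m₂), FaceNbr f κ' → f ∉ Γ.cutF → f.1 ∈ Γ.T → κ' ∈ Γ.T →
    ∀ φ : ℤ × ℤ → ℝ, (cellAvg g f.1 φ - cellAvg g κ' φ) ^ 2 ≤ C * enB Γ g φ := by
  refine ⟨4 * (K : ℝ), by positivity, ?_⟩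
  intro m₁ m₂ Γ g n hn hg f κ' hnb hf hκ hκ' φ
  obtain ⟨κ, β⟩ := f
  have hnR : (1 : ℝ) ≤ n := by exact_mod_cast hn
  have hK : (0 : ℝ) ≤ K := Nat.cast_nonneg _
  have hn' : (1 : ℤ) ≤ n := by exact_mod_cast hn
  have a1 := hg.1.1 κ.1
  have a2 := hg.1.2 κ.2
  have a3 := hg.1.1 κ'.1
  have a4 := hg.1.2 κ'.2
  have b1 := hg.2.1 κ.1
  have b2 := hg.2.2 κ.2
  have b3 := hg.2.1 κ'.1
  have b4 := hg.2.2 κ'.2
  push_cast at b1 b2 b3 b4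
  cases β
  · simp only [FaceNbr, Bool.false_eq_true, if_false] at hnb
    obtain ⟨h1, h2⟩ := hnb
    have hx : g.x₂ κ'.2.castSucc = g.x₂ κ.2.succ := by
      congr 1; apply Fin.ext; simp only [Fin.val_succ, Fin.val_castSucc]; exact h2
    have hE : secTrEh φ (g.x₁ κ.1.castSucc) (g.x₁ κ.1.succ) (g.x₂ κ.2.castSucc) (g.x₂ κ'.2.succ)
        + secTrEv φ (g.x₁ κ.1.castSucc) (g.x₁ κ.1.succ) (g.x₂ κ.2.castSucc) (g.x₂ κ'.2.succ) ≤ enB Γ g φ := by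
      rw [← sec_tr_bonds_rect']
      exact Finset.sum_le_sum_of_subset_of_nonneg (sec_tr_pair_bonds_v Γ g hκ hκ' h1 h2 hf) (fun _ _ _ => sq_nonneg _)
    rw [h1] at a3 b3
    have h := sec_tr_avg_avg φ (g.x₁ κ.1.castSucc) (g.x₁ κ.1.succ) (g.x₂ κ.2.castSucc) (g.x₂ κ'.2.succ)
      (g.x₁ κ.1.castSucc) (g.x₁ κ.1.succ) (g.x₂ κ.2.castSucc) (g.x₂ κ.2.succ)
      (g.x₁ κ'.1.castSucc) (g.x₁ κ'.1.succ) (g.x₂ κ'.2.castSucc) (g.x₂ κ'.2.succ)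
      le_rfl (by omega) le_rfl le_rfl (by omega) (by omega) (by rw [h1]) (by rw [h1]; omega) (by rw [h1]) (by omega) (by omega) le_rfl
    have c1 : 2 * ((g.x₁ κ.1.succ - g.x₁ κ.1.castSucc : ℤ) : ℝ) / ((g.x₂ κ.2.succ - g.x₂ κ.2.castSucc : ℤ) : ℝ) ≤ 4 * (K : ℝ) := by
      refine sec_tr_coef K n _ _ hK hnR ?_ (by exact_mod_cast a2)
      have : ((g.x₁ κ.1.succ - g.x₁ κ.1.castSucc : ℤ) : ℝ) ≤ (K : ℝ) * n := by exact_mod_cast b1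
      nlinarith [mul_nonneg hK (by linarith : (0 : ℝ) ≤ n)]
    have c2 : 2 * ((g.x₂ κ'.2.succ - g.x₂ κ.2.castSucc : ℤ) : ℝ) / ((g.x₁ κ'.1.succ - g.x₁ κ'.1.castSucc : ℤ) : ℝ) ≤ 4 * (K : ℝ) := by
      refine sec_tr_coef K n _ _ hK hnR ?_ (by rw [h1]; exact_mod_cast a3)
      have : g.x₂ κ'.2.succ - g.x₂ κ.2.castSucc ≤ 2 * ((K : ℤ) * n) := by omega
      have : ((g.x₂ κ'.2.succ - g.x₂ κ.2.castSucc : ℤ) : ℝ) ≤ 2 * ((K : ℝ) * n) := by exact_mod_cast this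
      linarith
    have hEh := secTrEh_nonneg φ (g.x₁ κ.1.castSucc) (g.x₁ κ.1.succ) (g.x₂ κ.2.castSucc) (g.x₂ κ'.2.succ)
    have hEv := secTrEv_nonneg φ (g.x₁ κ.1.castSucc) (g.x₁ κ.1.succ) (g.x₂ κ.2.castSucc) (g.x₂ κ'.2.succ)
    have d1 := mul_le_mul_of_nonneg_right c1 hEh
    have d2 := mul_le_mul_of_nonneg_right c2 hEv
    have d3 := mul_le_mul_of_nonneg_left hE (by positivity : (0 : ℝ) ≤ 4 * (K : ℝ))
    calc (cellAvg g κ φ - cellAvg g κ' φ) ^ 2 ≤ _ := h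
      _ ≤ 4 * (K : ℝ) * enB Γ g φ := by linarith
  · simp only [FaceNbr, if_true] at hnb
    obtain ⟨h1, h2⟩ := hnb
    have hx : g.x₁ κ'.1.castSucc = g.x₁ κ.1.succ := by
      congr 1; apply Fin.ext; simp only [Fin.val_succ, Fin.val_castSucc]; exact h1
    have hE : secTrEh φ (g.x₁ κ.1.castSucc) (g.x₁ κ'.1.succ) (g.x₂ κ.2.castSucc) (g.x₂ κ.2.succ)
        + secTrEv φ (g.x₁ κ.1.castSucc) (g.x₁ κ'.1.succ) (g.x₂ κ.2.castSucc) (g.x₂ κ.2.succ) ≤ enB Γ g φ := by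
      rw [← sec_tr_bonds_rect']
      exact Finset.sum_le_sum_of_subset_of_nonneg (sec_tr_pair_bonds_h Γ g hκ hκ' h1 h2 hf) (fun _ _ _ => sq_nonneg _)
    rw [h2] at a4 b4
    have h := sec_tr_avg_avg φ (g.x₁ κ.1.castSucc) (g.x₁ κ'.1.succ) (g.x₂ κ.2.castSucc) (g.x₂ κ.2.succ)
      (g.x₁ κ.1.castSucc) (g.x₁ κ.1.succ) (g.x₂ κ.2.castSucc) (g.x₂ κ.2.succ)
      (g.x₁ κ'.1.castSucc) (g.x₁ κ'.1.succ) (g.x₂ κ'.2.castSucc) (g.x₂ κ'.2.succ)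
      le_rfl (by omega) (by omega) le_rfl (by omega) le_rfl (by omega) (by omega) le_rfl (by rw [h2]) (by rw [h2]; omega) (by rw [h2])
    have c1 : 2 * ((g.x₁ κ'.1.succ - g.x₁ κ.1.castSucc : ℤ) : ℝ) / ((g.x₂ κ.2.succ - g.x₂ κ.2.castSucc : ℤ) : ℝ) ≤ 4 * (K : ℝ) := by
      refine sec_tr_coef K n _ _ hK hnR ?_ (by exact_mod_cast a2)
      have : g.x₁ κ'.1.succ - g.x₁ κ.1.castSucc ≤ 2 * ((K : ℤ) * n) := by omega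
      have : ((g.x₁ κ'.1.succ - g.x₁ κ.1.castSucc : ℤ) : ℝ) ≤ 2 * ((K : ℝ) * n) := by exact_mod_cast this
      linarith
    have c2 : 2 * ((g.x₂ κ.2.succ - g.x₂ κ.2.castSucc : ℤ) : ℝ) / ((g.x₁ κ'.1.succ - g.x₁ κ'.1.castSucc : ℤ) : ℝ) ≤ 4 * (K : ℝ) := by
      refine sec_tr_coef K n _ _ hK hnR ?_ (by exact_mod_cast a3)
      have : ((g.x₂ κ.2.succ - g.x₂ κ.2.castSucc : ℤ) : ℝ) ≤ (K : ℝ) * n := by exact_mod_cast b2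
      nlinarith [mul_nonneg hK (by linarith : (0 : ℝ) ≤ n)]
    have hEh := secTrEh_nonneg φ (g.x₁ κ.1.castSucc) (g.x₁ κ'.1.succ) (g.x₂ κ.2.castSucc) (g.x₂ κ.2.succ)
    have hEv := secTrEv_nonneg φ (g.x₁ κ.1.castSucc) (g.x₁ κ'.1.succ) (g.x₂ κ.2.castSucc) (g.x₂ κ.2.succ)
    have d1 := mul_le_mul_of_nonneg_right c1 hEh
    have d2 := mul_le_mul_of_nonneg_right c2 hEv
    have d3 := mul_le_mul_of_nonneg_left hE (by positivity : (0 : ℝ) ≤ 4 * (K : ℝ))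
    calc (cellAvg g κ φ - cellAvg g κ' φ) ^ 2 ≤ _ := h
      _ ≤ 4 * (K : ℝ) * enB Γ g φ := by linarith

end

end Claimed.Agent.R285.Sec
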