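import Claimed.Agent.R285.Sec.Imp
import Claimed.Agent.R285.Sec.Fin
import Claimed.Agent.R285.Sec.Ref
import Claimed.Agent.R285.Sec.Trace

/-!
# ROW 285, layer Sec, leaf file Shift: [S]L3.3 at fixed cell size, in uniform form.
PLAN.
* `conf_shift_unif`: by contradiction from `imp_tilt` (`t = 0`, `X = 0`): a sequence of counterexamples `(g_N, ν_N, c_N)`, `ν_N ≥ N`, is `Admissible`;  `wT α 0 = w α`;  `gTilt a 0 c 0 = - gEn a 0 c`.
* `conf_cost_unif`: centres `B u` with `enB u ≤ C`, `u = 0` on the pins.  Normalise: choose `ψ : ℤ² → ℤ`, constant on the connected components of the cell graph (cells of `T`, uncut faces), `0` on components containing a pinned cell, such that the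
  average of `u + 2πψ` over one reference cell of every other component lies in `[0, 2π)`.  `∇ψ = 0` on the bonds, so `confRatio_gauge` + `confRatio_congr` (and `confEn_*`) show that nothing changes.  By `avg_adjacent` along paths of cells all cell
  averages of `u + 2πψ` are bounded by `2π + m₁ m₂ √(C' C)` (on a pinned cell the average is `0`).  Apply `conf_shift_unif`.
-/

set_option autoImplicit false

namespace Claimed.Agent.R285.Sec

open Filter Topology S23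
open scoped Classical

noncomputable section

variable {m₁ m₂ : ℕ}

theorem sec_sh_core {G : HGraph} (H : HLaw G) (b : ℝ) {a : ℝ} (ha : 0 < a) (c : H.O → ℝ) (f : G.V → ℝ) (hf : f = 0) (ε : ℝ)
    (h : |2 * Real.log ((H.sys b).wT (HLaw.Aff.amb (H := H) ⟨0, 0, c⟩ b) 0 / (H.sys b).w 0) - H.gTilt a 0 c f| < ε) :
    |-2 * Real.log (H.ratioL b ⟨0, 0, c⟩) - H.gEn a 0 c| < ε := by
  rw [hf, Pot.pl_gTilt_test_zero H ha, Rsd.cs_wT_zero] at h
  unfold HLaw.ratioL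
  have e2 : -2 * Real.log ((H.sys b).w (HLaw.Aff.amb (H := H) ⟨0, 0, c⟩ b) / (H.sys b).w 0) - H.gEn a 0 c
      = -(2 * Real.log ((H.sys b).w (HLaw.Aff.amb (H := H) ⟨0, 0, c⟩ b) / (H.sys b).w 0) - -H.gEn a 0 c) := by ring
  rw [e2, abs_neg]
  exact h

/-- shifted centres in a compact set, no connection: one threshold for all grids. -/
theorem conf_shift_unif (b : ℝ) (hb : 0 < b) (ha : 0 < aLim b) (Γ : CGeom m₁ m₂) (hΓ : Γ.NoDiag) (K : ℕ) (C ε : ℝ) (hε : 0 < ε) :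
    ∃ N : ℕ, ∀ (g : DGrid m₁ m₂) (ν : ℕ), N ≤ ν → Scale K g ν → ∀ c : Fin (m₁ * m₂) → ℝ, (∀ o, |c o| ≤ C) →
      |-2 * Real.log ((rlaw Γ g cellRow).ratioL b ⟨0, 0, c⟩) - (rlaw Γ g cellRow).gEn (aLim b) 0 c| ≤ ε := by
  by_contra hcon
  push Not at hcon
  choose g ν hν hg c hc hbad using hcon
  have hadm : Admissible K g ν := ⟨tendsto_atTop_mono hν tendsto_id, hg⟩
  have hlim := imp_tilt b hb ha Γ hΓ cellRow K g ν hadm (fun k => rlaw_ok_cell Γ (g k) b hb) (fun _ => 0) c |C|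
    (fun k κ => by simp) (fun k o => (hc k o).trans (le_abs_self C)) (fun _ => 0) (fun k h hh => by
      simp [CGeom.cellTest])
  have hev := (Metric.tendsto_atTop.1 hlim) ε hε
  obtain ⟨N, hN⟩ := hev
  have h1 := hN N le_rfl
  have h2 := hbad N
  rw [Real.dist_eq, sub_zero] at h1
  have e1 : Γ.cellTest (g N) 0 = 0 := by
    funext v; simp [CGeom.cellTest]
  exact absurd (sec_sh_core (rlaw Γ (g N) cellRow) b ha (c N) _ e1 ε h1) (not_lt.2 h2.le)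

/-! ### the graph of cells -/

theorem sec_sh_adj_symm (Γ : CGeom m₁ m₂) {κ κ' : Cell m₁ m₂} (h : Γ.Adj κ κ') : Γ.Adj κ' κ := by
  obtain ⟨h1, h2, h3⟩ := h
  refine ⟨h2, h1, ?_⟩
  rcases h3 with h | h | h | h
  · exact Or.inr (Or.inr (Or.inl ⟨h.1, h.2.1.symm, h.2.2⟩))
  · exact Or.inr (Or.inr (Or.inr ⟨h.1.symm, h.2.1, h.2.2⟩))
  · exact Or.inl ⟨h.1, h.2.1.symm, h.2.2⟩
  · exact Or.inr (Or.inl ⟨h.1.symm, h.2.1, h.2.2⟩)

theorem sec_sh_adj_irrefl (Γ : CGeom m₁ m₂) (κ : Cell m₁ m₂) : ¬ Γ.Adj κ κ := by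
  rintro ⟨-, -, h | h | h | h⟩
  · have := h.1; omega
  · have := h.2.1; omega
  · have := h.1; omega
  · have := h.2.1; omega

/-- the graph of cells: cells of `T` joined by uncut faces -/
def secShG (Γ : CGeom m₁ m₂) : SimpleGraph (Cell m₁ m₂) where
  Adj := Γ.Adj
  symm := ⟨fun _ _ h => sec_sh_adj_symm Γ h⟩
  loopless := ⟨fun κ h => sec_sh_adj_irrefl Γ κ h⟩

theorem sec_sh_walk (Γ : CGeom m₁ m₂) (F : Cell m₁ m₂ → ℝ) (δ : ℝ) (hF : ∀ κ κ', Γ.Adj κ κ' → |F κ - F κ'| ≤ δ)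
    {κ κ' : Cell m₁ m₂} (p : (secShG Γ).Walk κ κ') : |F κ - F κ'| ≤ p.length * δ := by
  induction p with
  | nil => simp
  | @cons u v w h p ih =>
    have h1 := hF u v h
    have h2 : |F u - F w| ≤ |F u - F v| + |F v - F w| := by
      have : F u - F w = (F u - F v) + (F v - F w) := by ring
      rw [this]; exact abs_add_le _ _
    rw [SimpleGraph.Walk.length_cons]
    push_cast
    linarith

theorem sec_sh_reach (Γ : CGeom m₁ m₂) (F : Cell m₁ m₂ → ℝ) (δ : ℝ) (hδ : 0 ≤ δ) (hF : ∀ κ κ', Γ.Adj κ κ' → |F κ - F κ'| ≤ δ)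
    {κ κ' : Cell m₁ m₂} (h : (secShG Γ).Reachable κ κ') : |F κ - F κ'| ≤ (Fintype.card (Cell m₁ m₂) : ℝ) * δ := by
  obtain ⟨p⟩ := h
  have h1 := sec_sh_walk Γ F δ hF (p.toPath : (secShG Γ).Walk κ κ')
  have h2 : ((p.toPath : (secShG Γ).Walk κ κ').length : ℝ) ≤ (Fintype.card (Cell m₁ m₂) : ℝ) := by
    exact_mod_cast (p.toPath.2.length_lt).le
  exact h1.trans (mul_le_mul_of_nonneg_right h2 hδ)

theorem sec_sh_reach_mem (Γ : CGeom m₁ m₂) {κ κ' : Cell m₁ m₂} (h : (secShG Γ).Reachable κ κ') (hκ : κ ∈ Γ.T) : κ' ∈ Γ.T := by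
  obtain ⟨p⟩ := h
  induction p with
  | nil => exact hκ
  | @cons u v w h p ih => exact ih h.2.1

/-- the reference cell of a component -/
def secShRep (Γ : CGeom m₁ m₂) (κ : Cell m₁ m₂) : Cell m₁ m₂ := Quot.out ((secShG Γ).connectedComponentMk κ)

theorem sec_sh_rep_reach (Γ : CGeom m₁ m₂) (κ : Cell m₁ m₂) : (secShG Γ).Reachable κ (secShRep Γ κ) := by
  have h : (secShG Γ).connectedComponentMk (secShRep Γ κ) = (secShG Γ).connectedComponentMk κ :=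
    Quot.out_eq ((secShG Γ).connectedComponentMk κ)
  exact (SimpleGraph.ConnectedComponent.exact h).symm

theorem sec_sh_rep_eq (Γ : CGeom m₁ m₂) {κ κ' : Cell m₁ m₂} (h : (secShG Γ).Reachable κ κ') : secShRep Γ κ = secShRep Γ κ' := by
  unfold secShRep
  rw [SimpleGraph.ConnectedComponent.sound h]

/-- the component contains a pinned cell -/
def secShPin (Γ : CGeom m₁ m₂) (κ : Cell m₁ m₂) : Prop := ∃ κp ∈ Γ.pin, κp ∈ Γ.T ∧ (secShG Γ).Reachable κ κp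

theorem sec_sh_pin_iff (Γ : CGeom m₁ m₂) {κ κ' : Cell m₁ m₂} (h : (secShG Γ).Reachable κ κ') : secShPin Γ κ ↔ secShPin Γ κ' :=
  ⟨fun ⟨p, h1, h2, h3⟩ => ⟨p, h1, h2, h.symm.trans h3⟩, fun ⟨p, h1, h2, h3⟩ => ⟨p, h1, h2, h.trans h3⟩⟩

/-- the integral constant on the component of `κ` -/
def secShK (Γ : CGeom m₁ m₂) (g : DGrid m₁ m₂) (u : ℤ × ℤ → ℝ) (κ : Cell m₁ m₂) : ℤ :=
  if secShPin Γ κ then 0 else - ⌊cellAvg g (secShRep Γ κ) u / (2 * Real.pi)⌋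

theorem sec_sh_K_eq (Γ : CGeom m₁ m₂) (g : DGrid m₁ m₂) (u : ℤ × ℤ → ℝ) {κ κ' : Cell m₁ m₂} (h : (secShG Γ).Reachable κ κ') :
    secShK Γ g u κ = secShK Γ g u κ' := by
  unfold secShK
  simp only [sec_sh_pin_iff Γ h, sec_sh_rep_eq Γ h]

/-- the integral gauge function -/
def secShPsi (Γ : CGeom m₁ m₂) (g : DGrid m₁ m₂) (u : ℤ × ℤ → ℝ) (x : ℤ × ℤ) : ℤ :=
  ∑ κ ∈ Γ.T, if x ∈ g.cell κ then secShK Γ g u κ else 0

theorem sec_sh_psi_cell (Γ : CGeom m₁ m₂) (g : DGrid m₁ m₂) (u : ℤ × ℤ → ℝ) {κ : Cell m₁ m₂} (hκ : κ ∈ Γ.T) {x : ℤ × ℤ}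
    (hx : x ∈ g.cell κ) : secShPsi Γ g u x = secShK Γ g u κ := by
  unfold secShPsi
  rw [Finset.sum_eq_single κ, if_pos hx]
  · intro κ' _ hne
    rw [if_neg fun h => hne (sec_tr_cell_unique g h hx)]
  · intro h; exact absurd hκ h

theorem sec_sh_psi_out (Γ : CGeom m₁ m₂) (g : DGrid m₁ m₂) (u : ℤ × ℤ → ℝ) {x : ℤ × ℤ} (hx : x ∉ g.region Γ.T) :
    secShPsi Γ g u x = 0 := by
  unfold secShPsi
  refine Finset.sum_eq_zero fun κ hκ => ?_
  rw [if_neg fun h => hx (sec_tr_cell_sub_region g hκ h)]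

theorem sec_sh_psi_pin (Γ : CGeom m₁ m₂) (g : DGrid m₁ m₂) (u : ℤ × ℤ → ℝ) : ∀ x ∈ g.region Γ.pin, secShPsi Γ g u x = 0 := by
  intro x hx
  obtain ⟨κp, hp, hxp⟩ := Finset.mem_biUnion.1 hx
  by_cases hT : κp ∈ Γ.T
  · rw [sec_sh_psi_cell Γ g u hT hxp]
    unfold secShK
    rw [if_pos ⟨κp, hp, hT, SimpleGraph.Reachable.refl _⟩]
  · apply sec_sh_psi_out
    intro h
    obtain ⟨κ, hκ, hxκ⟩ := Finset.mem_biUnion.1 h
    rw [sec_tr_cell_unique g hxκ hxp] at hκ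
    exact hT hκ

theorem sec_sh_succ_eq {m : ℕ} {f : Fin (m + 1) → ℤ} (hf : StrictMono f) {i i' : Fin m}
    (h1 : f i'.castSucc ≤ f i.succ) (h2 : f i.succ < f i'.succ) : i.1 + 1 = i'.1 := by
  have a1 : i'.castSucc ≤ i.succ := hf.le_iff_le.1 h1
  have a2 : i.succ < i'.succ := hf.lt_iff_lt.1 h2
  rw [Fin.le_def] at a1
  rw [Fin.lt_def] at a2
  simp only [Fin.val_succ, Fin.val_castSucc] at a1 a2
  omega

/-- a bond of the geometry stays in a cell or joins two adjacent cells -/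
theorem sec_sh_bond (Γ : CGeom m₁ m₂) (g : DGrid m₁ m₂) {e : Bond} (he : e ∈ bonds Γ g) :
    ∃ κ ∈ Γ.T, ∃ κ' ∈ Γ.T, e.1 ∈ g.cell κ ∧ e.snd ∈ g.cell κ' ∧ (κ = κ' ∨ Γ.Adj κ κ') := by
  unfold bonds at he
  rw [sec_tr_mem_domBonds] at he
  obtain ⟨h1, h2, h3⟩ := he
  obtain ⟨κ, hκ, hx⟩ := Finset.mem_biUnion.1 h1
  obtain ⟨κ', hκ', hx'⟩ := Finset.mem_biUnion.1 h2
  refine ⟨κ, hκ, κ', hκ', hx, hx', ?_⟩
  by_cases hne : κ = κ'
  · exact Or.inl hne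
  right
  have hout : e.snd ∉ g.cell κ := fun h => hne (sec_tr_cell_unique g h hx')
  have hcut : (κ, e.2) ∉ Γ.cutF := fun h => h3 ⟨(κ, e.2), h, rfl, hx, hout⟩
  refine ⟨hκ, hκ', ?_⟩
  obtain ⟨⟨x, y⟩, β⟩ := e
  rw [sec_tr_mem_cell] at hx hx' hout
  cases β
  · simp only [Bond.snd, Bool.false_eq_true, if_false] at hx hx' hout hcut
    right; left
    have e1 : κ.1 = κ'.1 := sec_tr_line_unique g.mono₁ hx.1.1 hx.1.2 hx'.1.1 hx'.1.2
    have e2 : y + 1 = g.x₂ κ.2.succ := by omega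
    exact ⟨e1, sec_sh_succ_eq g.mono₂ (by omega) (by omega), hcut⟩
  · simp only [Bond.snd, if_true] at hx hx' hout hcut
    left
    have e1 : κ.2 = κ'.2 := sec_tr_line_unique g.mono₂ hx.2.1 hx.2.2 hx'.2.1 hx'.2.2
    have e2 : x + 1 = g.x₁ κ.1.succ := by omega
    exact ⟨sec_sh_succ_eq g.mono₁ (by omega) (by omega), e1, hcut⟩

/-- the gauge function has no gradient on the bonds -/
theorem sec_sh_psi_bond (Γ : CGeom m₁ m₂) (g : DGrid m₁ m₂) (u : ℤ × ℤ → ℝ) {e : Bond} (he : e ∈ bonds Γ g) :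
    secShPsi Γ g u e.snd = secShPsi Γ g u e.1 := by
  obtain ⟨κ, hκ, κ', hκ', h1, h2, h3⟩ := sec_sh_bond Γ g he
  rw [sec_sh_psi_cell Γ g u hκ h1, sec_sh_psi_cell Γ g u hκ' h2]
  rcases h3 with h | h
  · rw [h]
  · exact (sec_sh_K_eq Γ g u (SimpleGraph.Adj.reachable (G := secShG Γ) h)).symm

/-- the normalised function -/
def secShV (Γ : CGeom m₁ m₂) (g : DGrid m₁ m₂) (u : ℤ × ℤ → ℝ) : ℤ × ℤ → ℝ := fun x => u x + 2 * Real.pi * (secShPsi Γ g u x : ℝ)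

theorem sec_sh_cell_nonempty (g : DGrid m₁ m₂) (κ : Cell m₁ m₂) : (g.cell κ).Nonempty := by
  refine ⟨(g.x₁ κ.1.castSucc, g.x₂ κ.2.castSucc), ?_⟩
  rw [sec_tr_mem_cell]
  exact ⟨⟨le_rfl, g.mono₁ Fin.castSucc_lt_succ⟩, ⟨le_rfl, g.mono₂ Fin.castSucc_lt_succ⟩⟩

theorem sec_sh_avg_V (Γ : CGeom m₁ m₂) (g : DGrid m₁ m₂) (u : ℤ × ℤ → ℝ) {κ : Cell m₁ m₂} (hκ : κ ∈ Γ.T) :
    cellAvg g κ (secShV Γ g u) = cellAvg g κ u + 2 * Real.pi * (secShK Γ g u κ : ℝ) := by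
  have hc : ((g.cell κ).card : ℝ) ≠ 0 := by
    exact_mod_cast (sec_sh_cell_nonempty g κ).card_pos.ne'
  unfold cellAvg secShV
  have h1 : ∑ x ∈ g.cell κ, 2 * Real.pi * (secShPsi Γ g u x : ℝ) = ((g.cell κ).card : ℝ) * (2 * Real.pi * (secShK Γ g u κ : ℝ)) := by
    rw [Finset.sum_congr rfl (fun x hx => by rw [sec_sh_psi_cell Γ g u hκ hx]), Finset.sum_const, nsmul_eq_mul]
  rw [Finset.sum_add_distrib, h1]
  field_simp

theorem sec_sh_enB_V (Γ : CGeom m₁ m₂) (g : DGrid m₁ m₂) (u : ℤ × ℤ → ℝ) : enB Γ g (secShV Γ g u) = enB Γ g u := by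
  unfold enB secShV
  refine Finset.sum_congr rfl fun e he => ?_
  rw [sec_sh_psi_bond Γ g u he]
  ring

theorem sec_sh_adj_step {K : ℕ} {C₁ : ℝ}
    (hC : ∀ (Γ : CGeom m₁ m₂) (g : DGrid m₁ m₂) (n : ℕ), 1 ≤ n → Scale K g n →
      ∀ (f : CFace m₁ m₂) (κ' : Cell m₁ m₂), FaceNbr f κ' → f ∉ Γ.cutF → f.1 ∈ Γ.T → κ' ∈ Γ.T →
      ∀ φ : ℤ × ℤ → ℝ, (cellAvg g f.1 φ - cellAvg g κ' φ) ^ 2 ≤ C₁ * enB Γ g φ)
    (Γ : CGeom m₁ m₂) (g : DGrid m₁ m₂) (n : ℕ) (hn : 1 ≤ n) (hg : Scale K g n) (φ : ℤ × ℤ → ℝ) {κ κ' : Cell m₁ m₂} (h : Γ.Adj κ κ') :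
    (cellAvg g κ φ - cellAvg g κ' φ) ^ 2 ≤ C₁ * enB Γ g φ := by
  obtain ⟨h1, h2, h3⟩ := h
  rcases h3 with h | h | h | h
  · exact hC Γ g n hn hg (κ, true) κ' (by simp only [FaceNbr, if_true]; exact ⟨h.1.symm, h.2.1.symm⟩) h.2.2 h1 h2 φ
  · exact hC Γ g n hn hg (κ, false) κ' (by simp only [FaceNbr, Bool.false_eq_true, if_false]; exact ⟨h.1.symm, h.2.1.symm⟩) h.2.2 h1 h2 φ
  · have := hC Γ g n hn hg (κ', true) κ (by simp only [FaceNbr, if_true]; exact ⟨h.1.symm, h.2.1⟩) h.2.2 h2 h1 φ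
    calc (cellAvg g κ φ - cellAvg g κ' φ) ^ 2 = (cellAvg g κ' φ - cellAvg g κ φ) ^ 2 := by ring
      _ ≤ _ := this
  · have := hC Γ g n hn hg (κ', false) κ (by simp only [FaceNbr, Bool.false_eq_true, if_false]; exact ⟨h.1, h.2.1.symm⟩) h.2.2 h2 h1 φ
    calc (cellAvg g κ φ - cellAvg g κ' φ) ^ 2 = (cellAvg g κ' φ - cellAvg g κ φ) ^ 2 := by ring
      _ ≤ _ := this

/-- the cell averages of the normalised function are bounded -/
theorem sec_sh_avg_bound (Γ : CGeom m₁ m₂) (g : DGrid m₁ m₂) (u : ℤ × ℤ → ℝ) (hu : ∀ x ∈ g.region Γ.pin, u x = 0) (δ : ℝ) (hδ : 0 ≤ δ)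
    (hF : ∀ κ κ', Γ.Adj κ κ' → |cellAvg g κ (secShV Γ g u) - cellAvg g κ' (secShV Γ g u)| ≤ δ) {κ : Cell m₁ m₂} (hκ : κ ∈ Γ.T) :
    |cellAvg g κ (secShV Γ g u)| ≤ 2 * Real.pi + (Fintype.card (Cell m₁ m₂) : ℝ) * δ := by
  have hpi := Real.pi_pos
  by_cases hp : secShPin Γ κ
  · obtain ⟨κp, h1, h2, h3⟩ := hp
    have h4 := sec_sh_reach Γ (fun κ => cellAvg g κ (secShV Γ g u)) δ hδ hF h3
    have h5 : cellAvg g κp (secShV Γ g u) = 0 := by
      rw [sec_sh_avg_V Γ g u h2]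
      have a1 : secShK Γ g u κp = 0 := by
        unfold secShK
        rw [if_pos ⟨κp, h1, h2, SimpleGraph.Reachable.refl _⟩]
      have a2 : cellAvg g κp u = 0 := by
        unfold cellAvg
        rw [Finset.sum_eq_zero fun x hx => hu x (sec_tr_cell_sub_region g h1 hx), mul_zero]
      rw [a1, a2]; simp
    simp only [h5, sub_zero] at h4
    linarith
  · have h3 := sec_sh_rep_reach Γ κ
    have h4 := sec_sh_reach Γ (fun κ => cellAvg g κ (secShV Γ g u)) δ hδ hF h3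
    have hr : secShRep Γ κ ∈ Γ.T := sec_sh_reach_mem Γ h3 hκ
    have h5 : |cellAvg g (secShRep Γ κ) (secShV Γ g u)| ≤ 2 * Real.pi := by
      rw [sec_sh_avg_V Γ g u hr, ← sec_sh_K_eq Γ g u h3]
      unfold secShK
      rw [if_neg hp]
      set A := cellAvg g (secShRep Γ κ) u
      have e1 : A + 2 * Real.pi * ((-⌊A / (2 * Real.pi)⌋ : ℤ) : ℝ) = 2 * Real.pi * Int.fract (A / (2 * Real.pi)) := by
        unfold Int.fract
        push_cast
        field_simp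
        ring
      rw [e1, abs_of_nonneg (mul_nonneg (by positivity) (Int.fract_nonneg _))]
      have := (Int.fract_lt_one (A / (2 * Real.pi))).le
      nlinarith
    have h6 : |cellAvg g κ (secShV Γ g u)| ≤ |cellAvg g κ (secShV Γ g u) - cellAvg g (secShRep Γ κ) (secShV Γ g u)|
        + |cellAvg g (secShRep Γ κ) (secShV Γ g u)| := by
      have : cellAvg g κ (secShV Γ g u) = (cellAvg g κ (secShV Γ g u) - cellAvg g (secShRep Γ κ) (secShV Γ g u))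
          + cellAvg g (secShRep Γ κ) (secShV Γ g u) := by ring
      conv_lhs => rw [this]
      exact abs_add_le _ _
    linarith

/-- the observation of `cellRow` attached to a cell outside `T` vanishes -/
theorem sec_sh_obs_out (Γ : CGeom m₁ m₂) (g : DGrid m₁ m₂) (φ : ℤ × ℤ → ℝ) {κ : Cell m₁ m₂} (hκ : κ ∉ Γ.T) :
    (rlaw Γ g cellRow).obs (onV Γ g φ) (finProdFinEquiv κ) = 0 := by
  unfold HLaw.obs
  refine Finset.sum_eq_zero fun x _ => ?_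
  have h1 : (rlaw Γ g cellRow).B (finProdFinEquiv κ) x = Γ.avgRow g {κ} x := by
    show ∑ κ', cellRow (finProdFinEquiv κ) κ' * Γ.avgRow g {κ'} x = _
    simp only [cellRow, Equiv.symm_apply_apply, ite_mul, one_mul, zero_mul, Finset.sum_ite_eq', Finset.mem_univ, if_true]
  rw [h1]
  have h3 : g.region {κ} = g.cell κ := Finset.singleton_biUnion
  have h4 : x ∉ Γ.sites g {κ} := by
    intro h
    have h5 : domPos (D := g.region Γ.T) (cut := Γ.cutB g) x ∈ g.cell κ := by rw [← h3]; exact h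
    have h6 : domPos (D := g.region Γ.T) (cut := Γ.cutB g) x ∈ g.region Γ.T := x.2
    obtain ⟨κ', hκ', hx'⟩ := Finset.mem_biUnion.1 h6
    rw [sec_tr_cell_unique g hx' h5] at hκ'
    exact hκ hκ'
  unfold CGeom.avgRow
  rw [if_neg h4, zero_mul]

/-- **[S]L3.3 at fixed `d`**: centres = cell averages of a real function of bounded energy vanishing on the pins. -/
theorem conf_cost_unif (b : ℝ) (hb : 0 < b) (ha : 0 < aLim b) (Γ : CGeom m₁ m₂) (hΓ : Γ.NoDiag) (K : ℕ) (C ε : ℝ) (hε : 0 < ε) :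
    ∃ N : ℕ, ∀ (g : DGrid m₁ m₂) (ν : ℕ), N ≤ ν → Scale K g ν → ∀ u : ℤ × ℤ → ℝ, (∀ x ∈ g.region Γ.pin, u x = 0) → enB Γ g u ≤ C →
      |-2 * Real.log (confRatio b Γ g cellRow 0 u) - confEn (aLim b) Γ g cellRow 0 u| ≤ ε := by
  obtain ⟨C₁, hC₁, hadj⟩ := avg_adjacent K
  obtain ⟨N, hN⟩ := conf_shift_unif b hb ha Γ hΓ K (2 * Real.pi + (Fintype.card (Cell m₁ m₂) : ℝ) * Real.sqrt (C₁ * C)) ε hε
  refine ⟨max N 1, ?_⟩
  intro g ν hν hg u hu hE
  have hν1 : 1 ≤ ν := le_trans (le_max_right _ _) hν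
  have hνN : N ≤ ν := le_trans (le_max_left _ _) hν
  have hF : ∀ κ κ', Γ.Adj κ κ' → |cellAvg g κ (secShV Γ g u) - cellAvg g κ' (secShV Γ g u)| ≤ Real.sqrt (C₁ * C) := by
    intro κ κ' h
    apply Real.abs_le_sqrt
    refine (sec_sh_adj_step hadj Γ g ν hν1 hg (secShV Γ g u) h).trans ?_
    rw [sec_sh_enB_V]
    exact mul_le_mul_of_nonneg_left hE hC₁
  have hbound : ∀ o : Fin (m₁ * m₂), |(rlaw Γ g cellRow).obs (onV Γ g (secShV Γ g u)) o|
      ≤ 2 * Real.pi + (Fintype.card (Cell m₁ m₂) : ℝ) * Real.sqrt (C₁ * C) := by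
    intro o
    obtain ⟨κ, rfl⟩ := finProdFinEquiv.surjective o
    by_cases hκ : κ ∈ Γ.T
    · rw [sec_tr_obs_cell Γ g _ hκ]
      exact sec_sh_avg_bound Γ g u hu _ (Real.sqrt_nonneg _) hF hκ
    · rw [sec_sh_obs_out Γ g _ hκ, abs_zero]
      have := Real.pi_pos
      positivity
  have h1 := hN g ν hνN hg _ hbound
  have e1 : confRatio b Γ g cellRow 0 u = confRatio b Γ g cellRow 0 (secShV Γ g u) := by
    rw [← show confRatio b Γ g cellRow (fun e => (0 : Bond → ℤ) e + (secShPsi Γ g u e.snd - secShPsi Γ g u e.1)) u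
      = confRatio b Γ g cellRow 0 (secShV Γ g u) from confRatio_gauge b Γ g cellRow 0 u (secShPsi Γ g u) (sec_sh_psi_pin Γ g u)]
    refine confRatio_congr b Γ g cellRow _ _ u u (fun e he => ?_) (fun _ _ => rfl)
    rw [sec_sh_psi_bond Γ g u he]; simp
  have e2 : confEn (aLim b) Γ g cellRow 0 u = confEn (aLim b) Γ g cellRow 0 (secShV Γ g u) := by
    rw [← show confEn (aLim b) Γ g cellRow (fun e => (0 : Bond → ℤ) e + (secShPsi Γ g u e.snd - secShPsi Γ g u e.1)) u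
      = confEn (aLim b) Γ g cellRow 0 (secShV Γ g u) from confEn_gauge (aLim b) ha Γ g cellRow 0 u (secShPsi Γ g u) (sec_sh_psi_pin Γ g u)]
    refine confEn_congr (aLim b) Γ g cellRow _ _ u u (fun e he => ?_) (fun _ _ => rfl)
    rw [sec_sh_psi_bond Γ g u he]; simp
  rw [e1, e2]
  have e3 : confEn (aLim b) Γ g cellRow 0 (secShV Γ g u)
      = (rlaw Γ g cellRow).gEn (aLim b) 0 ((rlaw Γ g cellRow).obs (onV Γ g (secShV Γ g u))) := by
    unfold confEn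
    congr 1
    funext e
    show 2 * Real.pi * (((0 : ℤ) : ℤ) : ℝ) = 0
    simp
  rw [e3]
  exact h1

end

end Claimed.Agent.R285.Sec
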