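import Claimed.Agent.R285.Sec.Grid
import Claimed.Agent.R285.Sec.Trace

/-!
# ROW 285, layer Sec, leaf file LineGeo (SEC-LINE-A): the geometric part of `line_unif`.      Paper-free.      No sorry.
* `nearLine_refine`: the boundary layers of the coarse cells lie in the boundary layers of the fine cells;
* `line_pair`: a cell test paired with a function on `ℤ²` = combination of cell averages;
* `line_approx`: a test carried by the boundary layers is close (in the dual energy norm) to the cell test with the same masses.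
-/

set_option autoImplicit false

namespace Claimed.Agent.R285.Sec

open Filter Topology S23
open scoped Classical

noncomputable section

variable {m₁ m₂ : ℕ}

/-- the boundary layer of a coarse cell lies in the boundary layers of the fine cells -/
theorem nearLine_refine {s : ℕ} {g' : DGrid (s * m₁) (s * m₂)} {g : DGrid m₁ m₂} (h : Refines s g' g) (x : ℤ × ℤ)
    (hx : NearLine g x) : NearLine g' x := by
  obtain ⟨κ, hxκ, hl⟩ := hx
  obtain ⟨κ', hκ', hxκ'⟩ := sec_gr_cell_find h κ hxκ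
  have hm := (sec_gr_mem_cell g' κ' x).1 hxκ'
  have s1 : g'.x₁ κ'.1.castSucc < g'.x₁ κ'.1.succ := g'.mono₁ Fin.castSucc_lt_succ
  have s2 : g'.x₂ κ'.2.castSucc < g'.x₂ κ'.2.succ := g'.mono₂ Fin.castSucc_lt_succ
  -- the four corners
  have c1 : g.x₁ κ.1.castSucc ≤ g'.x₁ κ'.1.castSucc := by
    have h1 : ((g'.x₁ κ'.1.castSucc, x.2) : ℤ × ℤ) ∈ g'.cell κ' :=
      (sec_gr_mem_cell g' κ' _).2 ⟨⟨le_rfl, s1⟩, hm.2⟩
    have h2 := sec_gr_cell_sub h κ' h1
    rw [hκ'] at h2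
    exact ((sec_gr_mem_cell g κ _).1 h2).1.1
  have c2 : g'.x₁ κ'.1.succ ≤ g.x₁ κ.1.succ := by
    have h1 : ((g'.x₁ κ'.1.succ - 1, x.2) : ℤ × ℤ) ∈ g'.cell κ' :=
      (sec_gr_mem_cell g' κ' _).2 ⟨⟨by show _ ≤ g'.x₁ κ'.1.succ - 1; omega, by show g'.x₁ κ'.1.succ - 1 < _; omega⟩, hm.2⟩
    have h2 := sec_gr_cell_sub h κ' h1
    rw [hκ'] at h2
    have h3 : g'.x₁ κ'.1.succ - 1 < g.x₁ κ.1.succ := ((sec_gr_mem_cell g κ _).1 h2).1.2
    omega
  have c3 : g.x₂ κ.2.castSucc ≤ g'.x₂ κ'.2.castSucc := by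
    have h1 : ((x.1, g'.x₂ κ'.2.castSucc) : ℤ × ℤ) ∈ g'.cell κ' :=
      (sec_gr_mem_cell g' κ' _).2 ⟨hm.1, ⟨le_rfl, s2⟩⟩
    have h2 := sec_gr_cell_sub h κ' h1
    rw [hκ'] at h2
    exact ((sec_gr_mem_cell g κ _).1 h2).2.1
  have c4 : g'.x₂ κ'.2.succ ≤ g.x₂ κ.2.succ := by
    have h1 : ((x.1, g'.x₂ κ'.2.succ - 1) : ℤ × ℤ) ∈ g'.cell κ' :=
      (sec_gr_mem_cell g' κ' _).2 ⟨hm.1, ⟨by show _ ≤ g'.x₂ κ'.2.succ - 1; omega, by show g'.x₂ κ'.2.succ - 1 < _; omega⟩⟩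
    have h2 := sec_gr_cell_sub h κ' h1
    rw [hκ'] at h2
    have h3 : g'.x₂ κ'.2.succ - 1 < g.x₂ κ.2.succ := ((sec_gr_mem_cell g κ _).1 h2).2.2
    omega
  refine ⟨κ', hxκ', ?_⟩
  obtain ⟨⟨m1, m2⟩, m3, m4⟩ := hm
  rcases hl with hl | hl | hl | hl
  · left; omega
  · right; left; omega
  · right; right; left; omega
  · right; right; right; omega

/-- the row of a cell outside the geometry vanishes -/
theorem sec_lg_avgRow_out (Γ : CGeom m₁ m₂) (g : DGrid m₁ m₂) {κ : Cell m₁ m₂} (hκ : κ ∉ Γ.T) (v : (Γ.graph g).V) :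
    Γ.avgRow g {κ} v = 0 := by
  unfold CGeom.avgRow
  rw [if_neg]
  intro hv
  have h1 : domPos (D := g.region Γ.T) (cut := Γ.cutB g) v ∈ g.region {κ} := hv
  rw [show g.region {κ} = g.cell κ from Finset.singleton_biUnion] at h1
  have h2 : domPos (D := g.region Γ.T) (cut := Γ.cutB g) v ∈ g.region Γ.T := v.2
  obtain ⟨κ', hκ', h3⟩ := Finset.mem_biUnion.1 h2
  exact hκ (sec_tr_cell_unique g h1 h3 ▸ hκ')

/-- a cell test paired with a function on `ℤ²` -/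
theorem line_pair (Γ : CGeom m₁ m₂) (g : DGrid m₁ m₂) (t : Cell m₁ m₂ → ℝ) (u : ℤ × ℤ → ℝ) :
    HLaw.pair (Γ.cellTest g t) (onV Γ g u) = ∑ κ ∈ Γ.T, t κ * cellAvg g κ u := by
  unfold HLaw.pair CGeom.cellTest
  simp only [Finset.sum_mul]
  rw [Finset.sum_comm]
  have h1 : ∀ κ : Cell m₁ m₂, ∑ v : (Γ.graph g).V, t κ * Γ.avgRow g {κ} v * onV Γ g u v
      = if κ ∈ Γ.T then t κ * cellAvg g κ u else 0 := by
    intro κ
    by_cases hκ : κ ∈ Γ.T
    · rw [if_pos hκ, ← sec_tr_obs_cell Γ g u hκ]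
      unfold HLaw.obs
      rw [Finset.mul_sum]
      refine Finset.sum_congr rfl fun v _ => ?_
      rw [sec_cellRow_B, mul_assoc]
    · rw [if_neg hκ]
      refine Finset.sum_eq_zero fun v _ => ?_
      rw [sec_lg_avgRow_out Γ g hκ v, mul_zero, zero_mul]
  rw [Finset.sum_congr rfl fun κ _ => h1 κ, Finset.sum_ite_mem, Finset.univ_inter]

/-- sums over a region -/
theorem sec_lg_sum_region (g : DGrid m₁ m₂) (T : Finset (Cell m₁ m₂)) (F : ℤ × ℤ → ℝ) :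
    ∑ x ∈ g.region T, F x = ∑ κ ∈ T, ∑ x ∈ g.cell κ, F x := by
  unfold DGrid.region
  rw [Finset.sum_biUnion]
  intro κ _ κ' _ hne
  exact Finset.disjoint_left.2 fun x hx hx' => hne (sec_tr_cell_unique g hx hx')

/-- a test carried by the boundary layers against the cell test with the same masses -/
theorem line_approx (K : ℕ) : ∃ C₁ : ℝ, 0 ≤ C₁ ∧ ∀ {m₁ m₂ : ℕ} (Γ : CGeom m₁ m₂) (g : DGrid m₁ m₂) (n : ℕ), 1 ≤ n → Scale K g n →
    ∀ f : ℤ × ℤ → ℝ, (∀ x, f x ≠ 0 → NearLine g x) →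
      (∀ κ, (∑ x ∈ g.cell κ, f x) ^ 2 ≤ C₁ * n * ∑ x ∈ g.cell κ, f x ^ 2) ∧
      ∀ u : ℤ × ℤ → ℝ, (∑ x ∈ g.region Γ.T, f x * u x - ∑ κ ∈ Γ.T, (∑ x ∈ g.cell κ, f x) * cellAvg g κ u) ^ 2
        ≤ C₁ * n * (∑ x ∈ g.region Γ.T, f x ^ 2) * enB Γ g u := by
  obtain ⟨Ct, hCt, htr⟩ := trace_energy K
  refine ⟨4 * (K : ℝ) + Ct, by positivity, ?_⟩
  intro m₁ m₂ Γ g n hn hg f hf
  have hn0 : (0 : ℝ) ≤ n := by positivity
  constructor
  · intro κ
    have e1 : ∑ x ∈ g.cell κ, f x = ∑ x ∈ (g.cell κ).filter (fun x => NearLine g x), f x :=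
      (Finset.sum_filter_of_ne fun x _ hx => hf x hx).symm
    have e2 : ∑ x ∈ (g.cell κ).filter (fun x => NearLine g x), f x ^ 2 ≤ ∑ x ∈ g.cell κ, f x ^ 2 :=
      Finset.sum_le_sum_of_subset_of_nonneg (Finset.filter_subset _ _) fun x _ _ => sq_nonneg _
    have e3 := sec_tr_card_nearLine K n g hg κ
    have e4 : (0 : ℝ) ≤ ∑ x ∈ (g.cell κ).filter (fun x => NearLine g x), f x ^ 2 := Finset.sum_nonneg fun x _ => sq_nonneg _
    rw [e1]
    calc (∑ x ∈ (g.cell κ).filter (fun x => NearLine g x), f x) ^ 2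
        ≤ (((g.cell κ).filter (fun x => NearLine g x)).card : ℝ) * ∑ x ∈ (g.cell κ).filter (fun x => NearLine g x), f x ^ 2 :=
          sq_sum_le_card_mul_sum_sq
      _ ≤ (4 * (K : ℝ) * n) * ∑ x ∈ (g.cell κ).filter (fun x => NearLine g x), f x ^ 2 := mul_le_mul_of_nonneg_right e3 e4
      _ ≤ ((4 * (K : ℝ) + Ct) * n) * ∑ x ∈ (g.cell κ).filter (fun x => NearLine g x), f x ^ 2 := by
          refine mul_le_mul_of_nonneg_right ?_ e4
          nlinarith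
      _ ≤ ((4 * (K : ℝ) + Ct) * n) * ∑ x ∈ g.cell κ, f x ^ 2 := mul_le_mul_of_nonneg_left e2 (by positivity)
  · intro u
    have e1 : ∑ x ∈ g.region Γ.T, f x * u x - ∑ κ ∈ Γ.T, (∑ x ∈ g.cell κ, f x) * cellAvg g κ u
        = ∑ κ ∈ Γ.T, ∑ x ∈ (g.cell κ).filter (fun x => NearLine g x), f x * (u x - cellAvg g κ u) := by
      rw [sec_lg_sum_region, ← Finset.sum_sub_distrib]
      refine Finset.sum_congr rfl fun κ _ => ?_
      rw [Finset.sum_mul, ← Finset.sum_sub_distrib]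
      rw [Finset.sum_filter_of_ne (fun x _ hx => hf x (left_ne_zero_of_mul hx))]
      refine Finset.sum_congr rfl fun x _ => ?_
      ring
    rw [e1, Finset.sum_sigma']
    have cs := Finset.sum_mul_sq_le_sq_mul_sq (Γ.T.sigma fun κ => (g.cell κ).filter (fun x => NearLine g x))
      (fun p => f p.2) (fun p => u p.2 - cellAvg g p.1 u)
    refine cs.trans ?_
    rw [← Finset.sum_sigma' Γ.T (fun κ => (g.cell κ).filter (fun x => NearLine g x)) (fun _ x => f x ^ 2),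
      ← Finset.sum_sigma' Γ.T (fun κ => (g.cell κ).filter (fun x => NearLine g x)) (fun κ x => (u x - cellAvg g κ u) ^ 2),
      ← sec_tr_sum_region_filter]
    have e2 : ∑ x ∈ (g.region Γ.T).filter (fun x => NearLine g x), f x ^ 2 ≤ ∑ x ∈ g.region Γ.T, f x ^ 2 :=
      Finset.sum_le_sum_of_subset_of_nonneg (Finset.filter_subset _ _) fun x _ _ => sq_nonneg _
    have e3 := htr Γ g n hn hg u
    have e4 : (0 : ℝ) ≤ ∑ x ∈ g.region Γ.T, f x ^ 2 := Finset.sum_nonneg fun x _ => sq_nonneg _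
    have e5 : (0 : ℝ) ≤ enB Γ g u := Finset.sum_nonneg fun x _ => sq_nonneg _
    have e6 : (0 : ℝ) ≤ ∑ κ ∈ Γ.T, ∑ x ∈ (g.cell κ).filter (fun x => NearLine g x), (u x - cellAvg g κ u) ^ 2 :=
      Finset.sum_nonneg fun κ _ => Finset.sum_nonneg fun x _ => sq_nonneg _
    calc (∑ x ∈ (g.region Γ.T).filter (fun x => NearLine g x), f x ^ 2)
          * ∑ κ ∈ Γ.T, ∑ x ∈ (g.cell κ).filter (fun x => NearLine g x), (u x - cellAvg g κ u) ^ 2
        ≤ (∑ x ∈ g.region Γ.T, f x ^ 2) * (Ct * n * enB Γ g u) := mul_le_mul e2 e3 e6 e4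
      _ ≤ (∑ x ∈ g.region Γ.T, f x ^ 2) * ((4 * (K : ℝ) + Ct) * n * enB Γ g u) := by
          refine mul_le_mul_of_nonneg_left ?_ e4
          refine mul_le_mul_of_nonneg_right ?_ e5
          nlinarith
      _ = (4 * (K : ℝ) + Ct) * n * (∑ x ∈ g.region Γ.T, f x ^ 2) * enB Γ g u := by ring

end

end Claimed.Agent.R285.Sec
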