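import Claimed.Agent.R285.Sec.Imp
import Claimed.Agent.R285.Sec.Fin
import Claimed.Agent.R285.Sec.Ref
import Claimed.Agent.R285.Sec.Grid
import Claimed.Agent.R285.Sec.Trace
import Claimed.Agent.R285.Sec.Rect
import Claimed.Agent.R285.Sec.Flow
import Claimed.Agent.R285.Sec.LineGeo
import Claimed.Agent.R285.Pins.T31Law
import Claimed.Agent.R285.Free.Sys

/-!
# ROW 285, layer Sec, file Line: Laplace bound for LINE SMEARS (route R3 of Read/S23).      CUT 17:45Z (helper144).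
PLAN.  Fix `p > 1` close to `1`, `q = p/(p-1)`, then the refinement `s`, then `N`.   Given `(g, ν, f, X)`:
1. `g'` = equal subdivision (`exists_refine`), cells of side `n' = ν/s`.   `t κ = ∑_{x ∈ cell κ} f x` for the fine cells `κ ⊆ T`, `f' = cellTest t` on `refine s Γ`.   `t κ² ≤ C₁ n' ∑ f² ≤ C₁ C / s` (`line_approx`).
2. `⟨f - f', u⟩² ≤ M enB u`, `M = C₁ C / s` (`line_approx`, `line_pair`).
3. `line_split` (abstract): `f - f'` is the divergence of a flow `ξ` with `∑ ξ² ≤ M` (`pl_gVar_flow_exists`); `X = X' + flowS (2π ξ)`, `X'` a lift of `f'`; Hoelder (`Free.mgf_holder`), `Free.fr_ref_mgf`; `gVar_add_le`.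
4. `line_tilt_unif`: `imp_tilt` in uniform form (contradiction argument as in `conf_shift_unif`) for `refine s Γ`, `noRow`, coefficients `p t`.
5. transport between `(Γ, g)` and `(refine s Γ, g')`: same `D`, `cut`, `P` (`lineBd_refine`).
-/

set_option autoImplicit false

namespace Claimed.Agent.R285.Sec

open Filter Topology S23
open scoped Classical

noncomputable section

/-! ### abstract part -/

/-- SEC-LINE-B.  `f - f'` small in the dual energy norm: split off a flow. -/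
theorem line_split {G : HGraph} (H : HLaw G) [IsEmpty H.O] (b a : ℝ) (hb : 0 < b) (ha : 0 < a) (f f' : G.V → ℝ) (M : ℝ) (hM : 0 ≤ M)
    (hff : ∀ u ∈ H.rspan, (HLaw.pair f u - HLaw.pair f' u) ^ 2 ≤ M * HLaw.en u 0)
    (X : (H.sys b).L →+ ℝ) (hX : H.Lift b f X) (p q : ℝ) (hpq : p.HolderConjugate q) :
    ∃ X' : (H.sys b).L →+ ℝ, H.Lift b f' X' ∧
      H.logLap b X ≤ p⁻¹ * H.logLap b (p • X') + q⁻¹ * (b * (Real.cosh (2 * Real.pi * q * Real.sqrt M) - 1)) ∧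
      H.gVar a f' ≤ p * H.gVar a f + q * (a * M) := by
  have hOk : (H.sys b).Ok := H.ok_of_isEmpty b hb
  have hf : Pot.plAdm H f := Pins.pn_t31_lift_adm H b hOk hX
  obtain ⟨d, hd⟩ : ∃ d : G.V → ℝ, d = f - f' := ⟨_, rfl⟩
  have hpd : ∀ u, HLaw.pair d u = HLaw.pair f u - HLaw.pair f' u := fun u => by rw [hd, Pot.pl_pair_sub_left]
  have hq0 : 0 < q := hpq.symm.pos
  have hp0 : 0 < p := hpq.pos
  -- (1)
  have hdA : Pot.plAdm H d := by
    intro v hv h1 _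
    have h2 := hff v hv
    have h3 : HLaw.en v 0 = 0 := by
      unfold HLaw.en
      refine Finset.sum_eq_zero fun e _ => ?_
      have := h1 e
      unfold Pot.plGrad at this
      rw [this]
      simp
    rw [h3, mul_zero, ← hpd] at h2
    exact pow_eq_zero_iff (two_ne_zero) |>.1 (le_antisymm h2 (sq_nonneg _))
  -- (2)
  have hdV : H.gVar a d ≤ a * M := by
    rw [Pot.pl_gVar_def]
    refine ciSup_le fun v => ?_
    have h2 := hff v v.2
    rw [← hpd] at h2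
    have hE : 0 ≤ HLaw.en (v : G.V → ℝ) 0 := Finset.sum_nonneg fun _ _ => sq_nonneg _
    have hform : H.form a (v : G.V → ℝ) = a⁻¹ * HLaw.en (v : G.V → ℝ) 0 := by
      unfold HLaw.form
      simp
    rw [hform]
    obtain ⟨x, hx⟩ : ∃ x, x = HLaw.pair d (v : G.V → ℝ) := ⟨_, rfl⟩
    obtain ⟨E, hEd⟩ : ∃ E, E = HLaw.en (v : G.V → ℝ) 0 := ⟨_, rfl⟩
    rw [← hx, ← hEd] at h2 ⊢
    rw [← hEd] at hE
    have hai : 0 < a⁻¹ := inv_pos.2 ha
    have h3 : 0 ≤ a * M + a⁻¹ * E := by positivity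
    have h4 : (2 * x) ^ 2 ≤ (a * M + a⁻¹ * E) ^ 2 := by
      have e1 : (a * M + a⁻¹ * E) ^ 2 = (a * M - a⁻¹ * E) ^ 2 + 4 * (a * a⁻¹) * (M * E) := by ring
      rw [e1, mul_inv_cancel₀ ha.ne']
      nlinarith [sq_nonneg (a * M - a⁻¹ * E)]
    have h5 := abs_le_of_sq_le_sq h4 h3
    have h6 := le_abs_self (2 * x)
    linarith
  -- (3)
  obtain ⟨w, s, hrep, hcost⟩ := Pot.pl_gVar_flow_exists H ha hdA
  have hw : ∑ e, w e ^ 2 ≤ M := by
    have h1 : a * ∑ e, w e ^ 2 ≤ a * M := by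
      have : ∑ o, s o ^ 2 = 0 := by simp
      rw [this, add_zero] at hcost
      rw [← hcost]
      exact hdV
    exact le_of_mul_le_mul_left h1 ha
  have hw0 : 0 ≤ ∑ e, w e ^ 2 := Finset.sum_nonneg fun _ _ => sq_nonneg _
  -- (4)
  have hL2 : H.Lift b d (C2.flowS (H.sys b) fun e => 2 * Real.pi * w e) := by
    refine Pins.pn_t31_lift_congr H b (Pins.pn_t31_lift_flow H b w) fun u hu => ?_
    rw [Pot.pl_pair_div, hrep u hu]
    simp
  have hL1 : H.Lift b f' (X - C2.flowS (H.sys b) fun e => 2 * Real.pi * w e) := by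
    have h1 := Pins.pn_t31_lift_sub H b hX hL2
    have e1 : f - d = f' := by rw [hd]; abel
    rwa [e1] at h1
  refine ⟨_, hL1, ?_, ?_⟩
  · -- (5)
    obtain ⟨X'', hX''⟩ : ∃ X'' : (H.sys b).L →+ ℝ, X'' = C2.flowS (H.sys b) fun e => 2 * Real.pi * w e := ⟨_, rfl⟩
    rw [← hX'']
    have h1 := Free.mgf_holder (H.sys b) hOk (X - X'') X'' p q hpq
    have e1 : H.logLap b X = Real.log ((H.sys b).E0 fun z => Real.exp ((X - X'') z + X'' z)) := by
      unfold HLaw.logLap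
      congr 2
      funext z
      rw [AddMonoidHom.sub_apply, sub_add_cancel]
    have e2 : H.logLap b (p • (X - X'')) = Real.log ((H.sys b).E0 fun z => Real.exp (p * (X - X'') z)) := rfl
    rw [e1, e2]
    refine h1.trans (add_le_add le_rfl (mul_le_mul_of_nonneg_left ?_ (inv_pos.2 hq0).le))
    have hpos := Free.frs_E0_exp_mul_pos (H.sys b) hOk q X''
    rw [Real.log_le_iff_le_exp hpos]
    have e3 : (fun z : (H.sys b).L => Real.exp (q * X'' z)) = fun z => Real.exp (C2.flowS (H.sys b) (fun e => q * (2 * Real.pi * w e)) z) := by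
      funext z
      rw [Free.frs_flowS_smul, AddMonoidHom.smul_apply, smul_eq_mul, hX'']
    rw [e3]
    refine (Free.fr_ref_mgf (H.sys b) hOk b (fun _ => le_rfl) _).trans (Real.exp_le_exp.2 (mul_le_mul_of_nonneg_left ?_ hb.le))
    have e4 : ∑ e : (H.sys b).E, (q * (2 * Real.pi * w e)) ^ 2 = (2 * Real.pi * q) ^ 2 * ∑ e : G.E, w e ^ 2 := by
      rw [Finset.mul_sum]
      exact Finset.sum_congr rfl fun e _ => by ring
    have hc : 0 ≤ 2 * Real.pi * q := by positivity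
    rw [e4, Real.sqrt_mul (sq_nonneg _), Real.sqrt_sq hc]
    have h5 : Real.sqrt (∑ e : G.E, w e ^ 2) ≤ Real.sqrt M := Real.sqrt_le_sqrt hw
    have h6 : Real.cosh (2 * Real.pi * q * Real.sqrt (∑ e : G.E, w e ^ 2)) ≤ Real.cosh (2 * Real.pi * q * Real.sqrt M) := by
      rw [Real.cosh_le_cosh, abs_of_nonneg (mul_nonneg hc (Real.sqrt_nonneg _)), abs_of_nonneg (mul_nonneg hc (Real.sqrt_nonneg _))]
      exact mul_le_mul_of_nonneg_left h5 hc
    linarith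
  · -- (6)
    have h1 := gVar_add_le H a ha f (-d) p hpq.lt hf (Pot.pl_adm_neg H hdA)
    have e1 : f + -d = f' := by rw [hd]; abel
    rw [e1, Pot.pl_gVar_neg H ha, ← hpq.conjugate_eq] at h1
    have h2 := mul_le_mul_of_nonneg_left hdV hq0.le
    linarith

theorem line_tilt_core {G : HGraph} (H : HLaw G) (b a : ℝ) (f : G.V → ℝ) (X : (H.sys b).L →+ ℝ) (ε : ℝ)
    (h : |2 * Real.log ((H.sys b).wT (HLaw.Aff.amb (H := H) ⟨0, 0, 0⟩ b) X / (H.sys b).w 0) - H.gTilt a 0 0 f| < ε) :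
    H.logLap b X < H.gVar a f / 2 + ε / 2 := by
  have e0 : HLaw.Aff.amb (H := H) ⟨0, 0, 0⟩ b = 0 := Tor.lk_amb_zero H b
  have e1 : H.logLap b X = Real.log ((H.sys b).wT 0 X / (H.sys b).w 0) := by
    unfold HLaw.logLap
    rw [rd_E0_eq]
    rfl
  rw [e0, Pot.pl_gTilt_zero, ← e1] at h
  have := (abs_lt.1 h).2
  linarith

variable {m₁ m₂ : ℕ}

/-- SEC-LINE-C.  `imp_tilt` for `noRow`, one threshold for all grids and all bounded coefficients. -/
theorem line_tilt_unif (b : ℝ) (hb : 0 < b) (ha : 0 < aLim b) (Γ : CGeom m₁ m₂) (hΓ : Γ.NoDiag) (K : ℕ) (Tb ε : ℝ) (hε : 0 < ε) :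
    ∃ N : ℕ, ∀ (g : DGrid m₁ m₂) (ν : ℕ), N ≤ ν → Scale K g ν → ∀ t : Cell m₁ m₂ → ℝ, (∀ κ, |t κ| ≤ Tb) →
      ∀ X : ((rlaw Γ g noRow).sys b).L →+ ℝ, (rlaw Γ g noRow).Lift b (Γ.cellTest g t) X →
        (rlaw Γ g noRow).logLap b X ≤ (rlaw Γ g noRow).gVar (aLim b) (Γ.cellTest g t) / 2 + ε := by
  by_contra hcon
  push Not at hcon
  choose g ν hν hg t ht X hX hbad using hcon
  have hadm : Admissible K g ν := ⟨tendsto_atTop_mono hν tendsto_id, hg⟩
  have hlim := imp_tilt b hb ha Γ hΓ noRow K g ν hadm (fun k => rlaw_ok_noRow Γ (g k) b hb) t (fun _ => 0) |Tb|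
    (fun k κ => (ht k κ).trans (le_abs_self Tb)) (fun k o => o.elim0) X hX
  obtain ⟨N, hN⟩ := (Metric.tendsto_atTop.1 hlim) ε hε
  have h1 := hN N le_rfl
  have h2 := hbad N
  rw [Real.dist_eq, sub_zero] at h1
  have h3 := line_tilt_core (rlaw Γ (g N) noRow) b (aLim b) _ (X N) ε h1
  linarith

instance rlaw_noRow_isEmpty (Γ : CGeom m₁ m₂) (g : DGrid m₁ m₂) : IsEmpty (rlaw Γ g noRow).O := inferInstanceAs (IsEmpty (Fin 0))

theorem cellTest_smul (Γ : CGeom m₁ m₂) (g : DGrid m₁ m₂) (p : ℝ) (t : Cell m₁ m₂ → ℝ) : Γ.cellTest g (p • t) = p • Γ.cellTest g t := by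
  funext v
  simp only [CGeom.cellTest, Pi.smul_apply, smul_eq_mul, Finset.mul_sum]
  exact Finset.sum_congr rfl fun κ _ => by ring

/-- the estimate on one grid, from the two inputs -/
theorem line_fine (b : ℝ) (hb : 0 < b) (a : ℝ) (ha : 0 < a) (Γ : CGeom m₁ m₂) (g : DGrid m₁ m₂) (f : ℤ × ℤ → ℝ) (t : Cell m₁ m₂ → ℝ)
    (M ε' : ℝ) (hM : 0 ≤ M) (hε' : 0 ≤ ε') (p q : ℝ) (hpq : p.HolderConjugate q)
    (h1 : ∀ u : ℤ × ℤ → ℝ, (∑ x ∈ g.region Γ.T, f x * u x - ∑ κ ∈ Γ.T, t κ * cellAvg g κ u) ^ 2 ≤ M * enB Γ g u)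
    (h2 : ∀ X' : ((rlaw Γ g noRow).sys b).L →+ ℝ, (rlaw Γ g noRow).Lift b (Γ.cellTest g (p • t)) X' →
      (rlaw Γ g noRow).logLap b X' ≤ (rlaw Γ g noRow).gVar a (Γ.cellTest g (p • t)) / 2 + ε')
    (X : ((rlaw Γ g noRow).sys b).L →+ ℝ) (hX : (rlaw Γ g noRow).Lift b (onV Γ g f) X) :
    (rlaw Γ g noRow).logLap b X ≤ p ^ 2 / 2 * (rlaw Γ g noRow).gVar a (onV Γ g f)
      + (p * q * a * M / 2 + ε' + q⁻¹ * (b * (Real.cosh (2 * Real.pi * q * Real.sqrt M) - 1))) := by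
  have hff : ∀ u ∈ (rlaw Γ g noRow).rspan, (HLaw.pair (onV Γ g f) u - HLaw.pair (Γ.cellTest g t) u) ^ 2 ≤ M * HLaw.en u 0 := by
    intro u _
    have e0 := onV_extV Γ g u
    have e1 : HLaw.pair (onV Γ g f) u = ∑ x ∈ g.region Γ.T, f x * extV Γ g u x := by
      rw [← sum_V Γ g fun x => f x * extV Γ g u x]
      conv_lhs => rw [← e0]
      rfl
    have e2 : HLaw.pair (Γ.cellTest g t) u = ∑ κ ∈ Γ.T, t κ * cellAvg g κ (extV Γ g u) := by
      rw [← line_pair, e0]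
    have e3 : HLaw.en u 0 = enB Γ g (extV Γ g u) := by
      rw [← sec_tr_en_onV, e0]
    rw [e1, e2, e3]
    exact h1 _
  obtain ⟨X', hX', hlap, hvar⟩ := line_split (rlaw Γ g noRow) b a hb ha _ _ M hM hff X hX p q hpq
  have hp1 : 1 < p := hpq.lt
  have hp0 : 0 < p := by linarith
  have hL : (rlaw Γ g noRow).Lift b (Γ.cellTest g (p • t)) (p • X') := by
    rw [cellTest_smul]
    exact Pins.pn_t31_lift_smul _ b p hX'
  have h3 := h2 _ hL
  rw [cellTest_smul, Pot.pl_gVar_smul _ ha] at h3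
  set V := (rlaw Γ g noRow).gVar a (onV Γ g f)
  set V' := (rlaw Γ g noRow).gVar a (Γ.cellTest g t)
  set R := q⁻¹ * (b * (Real.cosh (2 * Real.pi * q * Real.sqrt M) - 1))
  have hpi : p⁻¹ ≤ 1 := inv_le_one_of_one_le₀ hp1.le
  have hpi0 : 0 < p⁻¹ := inv_pos.2 hp0
  have h4 : p⁻¹ * (rlaw Γ g noRow).logLap b (p • X') ≤ p⁻¹ * (p ^ 2 * V' / 2 + ε') := mul_le_mul_of_nonneg_left h3 hpi0.le
  have h5 : p⁻¹ * (p ^ 2 * V' / 2 + ε') = p * V' / 2 + p⁻¹ * ε' := by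
    field_simp
  have h6 : p⁻¹ * ε' ≤ ε' := by nlinarith
  have h7 : p * V' / 2 ≤ p * (p * V + q * (a * M)) / 2 := by
    have := mul_le_mul_of_nonneg_left hvar hp0.le
    linarith
  have h8 : p * (p * V + q * (a * M)) / 2 = p ^ 2 / 2 * V + p * q * a * M / 2 := by ring
  linarith

/-! ### transport to a refined grid -/

/-- the bound in terms of the sites, the removed bonds and the pinned sites only -/
def LineBd (b a : ℝ) (D : Finset (ℤ × ℤ)) (cut : Set Bond) (P : Set (ℤ × ℤ)) (f : ℤ × ℤ → ℝ) (c₁ c₂ : ℝ) : Prop :=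
  ∀ X : ((secGrLaw D cut P).sys b).L →+ ℝ, (secGrLaw D cut P).Lift b (domFn f) X →
    (secGrLaw D cut P).logLap b X ≤ c₁ * (secGrLaw D cut P).gVar a (domFn f) + c₂

theorem lineBd_iff (b a : ℝ) (Γ : CGeom m₁ m₂) (g : DGrid m₁ m₂) (f : ℤ × ℤ → ℝ) (c₁ c₂ : ℝ) :
    LineBd b a (g.region Γ.T) (Γ.cutB g) (↑(g.region Γ.pin) : Set (ℤ × ℤ)) f c₁ c₂ ↔
      ∀ X : ((rlaw Γ g noRow).sys b).L →+ ℝ, (rlaw Γ g noRow).Lift b (onV Γ g f) X →
        (rlaw Γ g noRow).logLap b X ≤ c₁ * (rlaw Γ g noRow).gVar a (onV Γ g f) + c₂ := by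
  rw [sec_gr_rlaw Γ g]
  rfl

theorem lineBd_refine (b a : ℝ) {s : ℕ} {g' : DGrid (s * m₁) (s * m₂)} {g : DGrid m₁ m₂} (h : Refines s g' g) (Γ : CGeom m₁ m₂)
    (f : ℤ × ℤ → ℝ) (c₁ c₂ : ℝ)
    (H : ∀ X : ((rlaw (refine s Γ) g' noRow).sys b).L →+ ℝ, (rlaw (refine s Γ) g' noRow).Lift b (onV (refine s Γ) g' f) X →
        (rlaw (refine s Γ) g' noRow).logLap b X ≤ c₁ * (rlaw (refine s Γ) g' noRow).gVar a (onV (refine s Γ) g' f) + c₂) :
    ∀ X : ((rlaw Γ g noRow).sys b).L →+ ℝ, (rlaw Γ g noRow).Lift b (onV Γ g f) X →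
        (rlaw Γ g noRow).logLap b X ≤ c₁ * (rlaw Γ g noRow).gVar a (onV Γ g f) + c₂ := by
  rw [← lineBd_iff] at H ⊢
  have H' : LineBd b a (g'.region (fine s Γ.T)) (crossB g' (fineF s Γ.cutF)) (↑(g'.region (fine s Γ.pin)) : Set (ℤ × ℤ)) f c₁ c₂ := H
  rw [region_fine h, crossB_fineF h, region_fine h] at H'
  exact H'

/-! ### the assembly -/

/-- the error terms are small for small `M` -/
theorem line_small (A B q : ℝ) (ε : ℝ) (hε : 0 < ε) :
    ∃ η : ℝ, 0 < η ∧ ∀ M : ℝ, 0 ≤ M → M ≤ η → A * M + B * (Real.cosh (2 * Real.pi * q * Real.sqrt M) - 1) ≤ ε := by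
  have hc : Continuous fun M : ℝ => A * M + B * (Real.cosh (2 * Real.pi * q * Real.sqrt M) - 1) := by fun_prop
  have h0 : (fun M : ℝ => A * M + B * (Real.cosh (2 * Real.pi * q * Real.sqrt M) - 1)) 0 < ε := by simpa using hε
  have hev := hc.continuousAt.eventually (gt_mem_nhds h0)
  obtain ⟨η, hη, hball⟩ := Metric.eventually_nhds_iff.1 hev
  refine ⟨η / 2, by positivity, fun M hM0 hM => le_of_lt (hball ?_)⟩
  rw [Real.dist_eq, sub_zero, abs_of_nonneg hM0]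
  linarith

/-- tests carried by the boundary layers of the cells with `∑ f² ≤ C/ν` and bounded reference variance; law without observation (pins and cuts allowed). -/
theorem line_unif (b : ℝ) (hb : 0 < b) (ha : 0 < aLim b) (Γ : CGeom m₁ m₂) (hΓ : Γ.NoDiag) (K : ℕ) (C ε : ℝ) (hε : 0 < ε) :
    ∃ N : ℕ, ∀ (g : DGrid m₁ m₂) (ν : ℕ), N ≤ ν → Scale K g ν → ∀ f : ℤ × ℤ → ℝ, (∀ x, f x ≠ 0 → NearLine g x) →
      ∑ x ∈ g.region Γ.T, f x ^ 2 ≤ C / ν → (rlaw Γ g noRow).gVar (aLim b) (onV Γ g f) ≤ C →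
      ∀ X : ((rlaw Γ g noRow).sys b).L →+ ℝ, (rlaw Γ g noRow).Lift b (onV Γ g f) X →
        (rlaw Γ g noRow).logLap b X ≤ (rlaw Γ g noRow).gVar (aLim b) (onV Γ g f) / 2 + ε := by
  set a := aLim b with hadef
  -- the exponent
  set Cp : ℝ := max C 0 with hCp
  have hCp0 : 0 ≤ Cp := le_max_right _ _
  set δ : ℝ := min 1 (ε / (8 * (Cp + 1))) with hδ
  have hδ0 : 0 < δ := lt_min one_pos (by positivity)
  have hδ1 : δ ≤ 1 := min_le_left _ _
  have hδ2 : δ * (8 * (Cp + 1)) ≤ ε := by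
    have := min_le_right 1 (ε / (8 * (Cp + 1)))
    rwa [← hδ, le_div_iff₀ (by positivity)] at this
  set p : ℝ := 1 + δ with hp
  set q : ℝ := p / (p - 1) with hq
  have hp1 : 1 < p := by linarith
  have hpq : p.HolderConjugate q := Real.HolderConjugate.conjExponent hp1
  have hq0 : 0 < q := hpq.symm.pos
  have hpC : (p ^ 2 - 1) / 2 * Cp ≤ ε / 4 := by
    have e : p ^ 2 - 1 = δ * (2 + δ) := by rw [hp]; ring
    rw [e]
    nlinarith
  -- the refinement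
  obtain ⟨C₁, hC₁, happ⟩ := line_approx (2 * K + 1)
  obtain ⟨η, hη, hsmall⟩ := line_small (p * q * a / 2) (q⁻¹ * b) q (ε / 4) (by positivity)
  obtain ⟨s₀, hs₀⟩ := exists_nat_ge (C₁ * Cp / η)
  set s : ℕ := s₀ + 1 with hs
  have hs1 : 1 ≤ s := by omega
  have hsR : (0 : ℝ) < s := by exact_mod_cast hs1
  set M : ℝ := C₁ * Cp / s with hMdef
  have hM0 : 0 ≤ M := by positivity
  have hMη : M ≤ η := by
    rw [hMdef, div_le_iff₀ hsR]
    have h1 : C₁ * Cp ≤ s₀ * η := by rwa [div_le_iff₀ hη] at hs₀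
    have h2 : (s : ℝ) = s₀ + 1 := by rw [hs]; push_cast; ring
    rw [h2]
    nlinarith
  obtain ⟨N₁, hN₁⟩ := line_tilt_unif b hb ha (refine s Γ) (noDiag_refine Γ hΓ s) (2 * K + 1) (p * (M + 1)) (ε / 4) (by positivity)
  refine ⟨s * (N₁ + 1), fun g ν hν hsc f hsupp hf2 hV X hX => ?_⟩
  have hsν : s ≤ ν := le_trans (Nat.le_mul_of_pos_right s (Nat.succ_pos _)) hν
  have hν0 : 0 < ν := lt_of_lt_of_le hs1 hsν
  have hνR : (0 : ℝ) < ν := by exact_mod_cast hν0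
  obtain ⟨g', hg', hsc'⟩ := exists_refine s hs1 K g ν hsν hsc
  set n : ℕ := ν / s with hn
  have hnN : N₁ + 1 ≤ n := (Nat.le_div_iff_mul_le hs1).2 (by rw [Nat.mul_comm]; exact hν)
  have hn1 : 1 ≤ n := by omega
  have hnR : (n : ℝ) ≤ ν / s := Nat.cast_div_le
  obtain ⟨ht, hu⟩ := happ (refine s Γ) g' n hn1 hsc' f (fun x hx => nearLine_refine hg' x (hsupp x hx))
  have hreg : g'.region (refine s Γ).T = g.region Γ.T := region_fine hg' Γ.T
  have hf2' : ∑ x ∈ g.region Γ.T, f x ^ 2 ≤ Cp / ν := hf2.trans (div_le_div_of_nonneg_right (le_max_left _ _) hνR.le)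
  have hS0 : 0 ≤ ∑ x ∈ g.region Γ.T, f x ^ 2 := Finset.sum_nonneg fun _ _ => sq_nonneg _
  -- `C₁ n ∑ f² ≤ M`
  have hMb : C₁ * n * ∑ x ∈ g.region Γ.T, f x ^ 2 ≤ M := by
    have h1 : C₁ * n * ∑ x ∈ g.region Γ.T, f x ^ 2 ≤ C₁ * (ν / s) * (Cp / ν) := by
      apply mul_le_mul (mul_le_mul_of_nonneg_left hnR hC₁) hf2' hS0
      positivity
    have h2 : C₁ * (ν / s) * (Cp / ν) = M := by
      rw [hMdef]; field_simp
    linarith
  set t : Cell (s * m₁) (s * m₂) → ℝ := fun κ => if κ ∈ (refine s Γ).T then ∑ x ∈ g'.cell κ, f x else 0 with htdef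
  have htb : ∀ κ, |(p • t) κ| ≤ p * (M + 1) := by
    intro κ
    have h1 : t κ ^ 2 ≤ M := by
      by_cases hκ : κ ∈ (refine s Γ).T
      · simp only [htdef, if_pos hκ]
        refine (ht κ).trans (le_trans ?_ hMb)
        apply mul_le_mul_of_nonneg_left _ (by positivity)
        rw [← hreg]
        exact Finset.sum_le_sum_of_subset_of_nonneg (Finset.subset_biUnion_of_mem g'.cell hκ) fun _ _ _ => sq_nonneg _
      · simp only [htdef, if_neg hκ]
        simpa using hM0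
    have h2 : |t κ| ≤ M + 1 := by
      have := sq_abs (t κ)
      nlinarith [abs_nonneg (t κ), sq_nonneg (|t κ| - 1)]
    rw [Pi.smul_apply, smul_eq_mul, abs_mul, abs_of_pos (by linarith : 0 < p)]
    exact mul_le_mul_of_nonneg_left h2 (by linarith)
  have key := lineBd_refine b a hg' Γ f (p ^ 2 / 2)
    (p * q * a * M / 2 + ε / 4 + q⁻¹ * (b * (Real.cosh (2 * Real.pi * q * Real.sqrt M) - 1)))
    (fun X' hX' => line_fine b hb a ha (refine s Γ) g' f t M (ε / 4) hM0 (by positivity) p q hpq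
      (fun u => by
        have h1 := hu u
        have e1 : ∑ κ ∈ (refine s Γ).T, t κ * cellAvg g' κ u = ∑ κ ∈ (refine s Γ).T, (∑ x ∈ g'.cell κ, f x) * cellAvg g' κ u :=
          Finset.sum_congr rfl fun κ hκ => by simp only [htdef, if_pos hκ]
        rw [e1]
        refine h1.trans (mul_le_mul_of_nonneg_right ?_ (Finset.sum_nonneg fun _ _ => sq_nonneg _))
        rw [hreg]
        exact hMb)
      (fun X'' hX'' => hN₁ g' n (by omega) hsc' (p • t) htb X'' hX'') X' hX') X hX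
  have hsm := hsmall M hM0 hMη
  have hV0 : 0 ≤ (rlaw Γ g noRow).gVar a (onV Γ g f) := Pot.pl_gVar_nonneg _ ha _
  have hVC : (rlaw Γ g noRow).gVar a (onV Γ g f) ≤ Cp := hV.trans (le_max_left _ _)
  set V := (rlaw Γ g noRow).gVar a (onV Γ g f)
  have h9 : p ^ 2 / 2 * V = V / 2 + (p ^ 2 - 1) / 2 * V := by ring
  have h10 : (p ^ 2 - 1) / 2 * V ≤ (p ^ 2 - 1) / 2 * Cp := by
    apply mul_le_mul_of_nonneg_left hVC
    nlinarith
  have h11 : p * q * a * M / 2 + q⁻¹ * (b * (Real.cosh (2 * Real.pi * q * Real.sqrt M) - 1))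
      = p * q * a / 2 * M + q⁻¹ * b * (Real.cosh (2 * Real.pi * q * Real.sqrt M) - 1) := by ring
  linarith

end

end Claimed.Agent.R285.Sec
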