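import Claimed.Agent.R285.Sec.Tilt
import Claimed.Agent.R285.Sec.Line
import Claimed.Agent.R285.Sec.Rect
import Claimed.Agent.R285.Sec.Flow

/-!
# ROW 285, layer Sec, ASSEMBLY file Up: the upper bound of [S]T3.1 (`limsup log F ≤ -M/(2a)`), uniform in the grid, hard pins allowed.
PLAN (`a = aLim b`, `θ = connR`, `F = ratioL`, `E = gEn a θ`).   Constants: `C₀` (`pot_sector_bdd`), `(C₁, K', c)` (`line_pigeonhole 16 K`), then `N` from `line_unif` for `Γ' = stage Γ R r` (all strips isolated; `stage_reg`), `K'`, and from `C/ν` small.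
1. `gEn_min`: `v ∈ rspan`, `E = a⁻¹ en v θ`, Euler-Lagrange.   Flow on bonds `w e = a⁻¹ (∇_e v + θ_e)` on the bonds of the graph, `0` elsewhere.   `∑ w² = a⁻¹ E ≤ a⁻¹ C₀`,  `∑ w θ = E` (E-L with `u = v`),  `∑ w ∇u = 0` for `u = 0` on the pins.
2. `line_pigeonhole` with `D = g.region Γ.T`: `g'`, `Refines 16 g' g`, `GoodLines`.
3. `tilt_upper` for `refine 16 Γ`, `S = ⋃_j (R j).lineF 2`, grid `g'`, `τ = connB g R`, `ψ = liftPot g' R 2` (`conn_eq_grad`, `liftPot_pin`); `confRatio_refine`, `bonds_refine` transport to `(Γ, g)`.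
4. the statistic `flowX (2π w)` on the cut graph is a `Lift` of `f x = - ∑_{e ∈ cut bonds} w_e (1_{e.snd = x} - 1_{e.1 = x})` (because `∑_{all bonds} w ∇h = 0`); `f` is carried by boundary layers (`nearLine_cross`), `∑ f² ≤ 8 ∑_{cut} w² ≤ C/ν` (`flux_lineF`);
   `gVar f ≤ a ∑ w²` (`gVar_le_flow` with the restricted flow).   `line_unif`: `logLap ≤ a ∑ w² / 2 + ε/4`.
5. `∑_{cut} b (cosh (2π w_e) - 1) ≤ b (2π)² ∑_{cut} w² ≤ C/ν` once `2π |w_e| ≤ 1`.
6. `log F ≤ -E + E/2 + ε/4 + C/ν`.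
-/

set_option autoImplicit false

namespace Claimed.Agent.R285.Sec

open Filter Topology S23
open scoped Classical

noncomputable section

theorem cosh_sub_one_le (t : ℝ) (ht : |t| ≤ 1) : Real.cosh t - 1 ≤ t ^ 2 := by
  have h1 := Real.cosh_le_exp_half_sq t
  have ht2 : t ^ 2 ≤ 1 := by
    have := sq_le_sq' (by linarith [(abs_le.1 ht).1]) (abs_le.1 ht).2
    simpa using this
  have hy0 : 0 ≤ t ^ 2 / 2 := by positivity
  have hy1 : t ^ 2 / 2 < 1 := by linarith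
  have h2 := Real.exp_bound_div_one_sub_of_interval hy0 hy1
  have h3 : 1 / (1 - t ^ 2 / 2) ≤ 1 + t ^ 2 := by
    rw [div_le_iff₀ (by linarith)]
    nlinarith
  linarith

theorem domBonds_filter (D : Finset (ℤ × ℤ)) (cut : Set Bond) : domBonds D cut = (domBonds D ∅).filter (fun e => e ∉ cut) := by
  ext e
  simp only [domBonds, Finset.mem_filter, Set.mem_empty_iff_false, not_false_eq_true, and_true]
  tauto

theorem cut_flow_div (D : Finset (ℤ × ℤ)) (cut : Set Bond) (w : Bond → ℝ) (u : ℤ × ℤ → ℝ)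
    (h0 : ∑ e ∈ domBonds D ∅, w e * (u e.snd - u e.1) = 0) :
    ∑ x ∈ D, (- bdiv ((domBonds D ∅).filter (fun e => e ∈ cut)) w x) * u x = ∑ e ∈ domBonds D cut, w e * (u e.snd - u e.1) := by
  have hX : ∀ e ∈ (domBonds D ∅).filter (fun e => e ∈ cut), e.1 ∈ D ∧ e.snd ∈ D := fun e he =>
    ⟨domBonds_fst (Finset.mem_filter.1 he).1, domBonds_snd (Finset.mem_filter.1 he).1⟩
  have h1 := sum_bdiv _ w D hX u
  have h2 := Finset.sum_filter_add_sum_filter_not (domBonds D ∅) (fun e => e ∈ cut) (fun e => w e * (u e.snd - u e.1))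
  rw [domBonds_filter D cut]
  simp only [neg_mul, Finset.sum_neg_distrib]
  linarith

variable {m₁ m₂ r : ℕ}

/-- the test of the flow `w` on the graph with the bonds `cut` removed -/
def cutTest (D : Finset (ℤ × ℤ)) (cut : Set Bond) (w : Bond → ℝ) : ℤ × ℤ → ℝ :=
  fun x => - bdiv ((domBonds D ∅).filter (fun e => e ∈ cut)) w x

theorem cutTest_pair (Γ : CGeom m₁ m₂) (g : DGrid m₁ m₂) (w : Bond → ℝ)
    (hw : ∀ u : ℤ × ℤ → ℝ, (∀ x ∈ g.region Γ.pin, u x = 0) → ∑ e ∈ domBonds (g.region Γ.T) ∅, w e * (u e.snd - u e.1) = 0)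
    (u : (Γ.graph g).V → ℝ) (hu : u ∈ (rlaw Γ g noRow).rspan) :
    ∑ x, onV Γ g (cutTest (g.region Γ.T) (Γ.cutB g) w) x * u x
      = ∑ e, onE Γ g w e * (u ((Γ.graph g).tgt e) - u ((Γ.graph g).src e)) := by
  have hpin : ∀ x ∈ g.region Γ.pin, extV Γ g u x = 0 := fun x hx => extV_pin Γ g noRow u hu x hx
  have h1 := cut_flow_div (g.region Γ.T) (Γ.cutB g) w (extV Γ g u) (hw _ hpin)
  have huu : onV Γ g (extV Γ g u) = u := onV_extV Γ g u
  have e1 : ∑ x, onV Γ g (cutTest (g.region Γ.T) (Γ.cutB g) w) x * u x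
      = ∑ x ∈ g.region Γ.T, cutTest (g.region Γ.T) (Γ.cutB g) w x * extV Γ g u x := by
    rw [← sum_V Γ g (fun x => cutTest (g.region Γ.T) (Γ.cutB g) w x * extV Γ g u x)]
    refine Finset.sum_congr rfl fun x _ => ?_
    conv_lhs => rw [← huu]
    rfl
  have e2 : ∑ e, onE Γ g w e * (u ((Γ.graph g).tgt e) - u ((Γ.graph g).src e))
      = ∑ e ∈ domBonds (g.region Γ.T) (Γ.cutB g), w e * (extV Γ g u e.snd - extV Γ g u e.1) := by
    have := sum_E Γ g (fun e => w e * (extV Γ g u e.snd - extV Γ g u e.1))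
    unfold bonds at this
    rw [← this]
    refine Finset.sum_congr rfl fun e _ => ?_
    rw [← onV_grad, huu]
    rfl
  rw [e1, e2]
  exact h1

/-- the flow statistic on the cut graph is a lift of the test carried by the cut bonds -/
theorem cutTest_lift (b : ℝ) (Γ : CGeom m₁ m₂) (g : DGrid m₁ m₂) (w : Bond → ℝ)
    (hw : ∀ u : ℤ × ℤ → ℝ, (∀ x ∈ g.region Γ.pin, u x = 0) → ∑ e ∈ domBonds (g.region Γ.T) ∅, w e * (u e.snd - u e.1) = 0) :
    (rlaw Γ g noRow).Lift b (onV Γ g (cutTest (g.region Γ.T) (Γ.cutB g) w))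
      (flowX (rlaw Γ g noRow) b (onE Γ g fun e => 2 * Real.pi * w e)) := by
  intro h hh
  have hu : (fun x => (h x : ℝ)) ∈ (rlaw Γ g noRow).rspan := Submodule.subset_span ⟨h, hh, rfl⟩
  have h1 := cutTest_pair Γ g w hw _ hu
  have e1 : ∑ x, onV Γ g (cutTest (g.region Γ.T) (Γ.cutB g) w) x * (2 * Real.pi * (h x : ℝ))
      = 2 * Real.pi * ∑ x, onV Γ g (cutTest (g.region Γ.T) (Γ.cutB g) w) x * (h x : ℝ) := by
    rw [Finset.mul_sum]; exact Finset.sum_congr rfl fun x _ => by ring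
  rw [e1, h1, Finset.mul_sum]
  show ∑ e : (Γ.graph g).E, onE Γ g (fun e => 2 * Real.pi * w e) e * (((h ((Γ.graph g).tgt e) - h ((Γ.graph g).src e) : ℤ)) : ℝ) = _
  refine Finset.sum_congr rfl fun e _ => ?_
  push_cast
  show 2 * Real.pi * onE Γ g w e * _ = _
  ring

theorem cutTest_gVar (a : ℝ) (ha : 0 < a) (Γ : CGeom m₁ m₂) (g : DGrid m₁ m₂) (w : Bond → ℝ)
    (hw : ∀ u : ℤ × ℤ → ℝ, (∀ x ∈ g.region Γ.pin, u x = 0) → ∑ e ∈ domBonds (g.region Γ.T) ∅, w e * (u e.snd - u e.1) = 0) :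
    (rlaw Γ g noRow).gVar a (onV Γ g (cutTest (g.region Γ.T) (Γ.cutB g) w)) ≤ a * ∑ e ∈ domBonds (g.region Γ.T) ∅, w e ^ 2 := by
  refine (gVar_le_flow (rlaw Γ g noRow) a ha _ (onE Γ g w) (cutTest_pair Γ g w hw)).trans ?_
  refine mul_le_mul_of_nonneg_left ?_ ha.le
  have := sum_E Γ g (fun e => w e ^ 2)
  have e : ∑ e, onE Γ g w e ^ 2 = ∑ e ∈ bonds Γ g, w e ^ 2 := this
  rw [e]
  refine Finset.sum_le_sum_of_subset_of_nonneg ?_ fun e _ _ => sq_nonneg _
  unfold bonds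
  rw [domBonds_filter]
  exact Finset.filter_subset _ _

theorem cutTest_sq (Γ : CGeom m₁ m₂) (g : DGrid m₁ m₂) (w : Bond → ℝ) :
    ∑ x ∈ g.region Γ.T, cutTest (g.region Γ.T) (Γ.cutB g) w x ^ 2
      ≤ 8 * ∑ e ∈ (domBonds (g.region Γ.T) ∅).filter (fun e => e ∈ Γ.cutB g), w e ^ 2 := by
  have hX : ∀ e ∈ (domBonds (g.region Γ.T) ∅).filter (fun e => e ∈ Γ.cutB g), e.1 ∈ g.region Γ.T ∧ e.snd ∈ g.region Γ.T := fun e he =>
    ⟨domBonds_fst (Finset.mem_filter.1 he).1, domBonds_snd (Finset.mem_filter.1 he).1⟩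
  have := bdiv_sq_le _ w _ hX
  simpa [cutTest] using this

theorem cutTest_near (Γ : CGeom m₁ m₂) (g : DGrid m₁ m₂) (w : Bond → ℝ) (x : ℤ × ℤ)
    (hx : cutTest (g.region Γ.T) (Γ.cutB g) w x ≠ 0) : NearLine g x := by
  have h1 : bdiv ((domBonds (g.region Γ.T) ∅).filter (fun e => e ∈ Γ.cutB g)) w x ≠ 0 := fun h => hx (by simp [cutTest, h])
  obtain ⟨e, he, hex⟩ := bdiv_support _ _ _ h1
  obtain ⟨he1, he2⟩ := Finset.mem_filter.1 he
  have := nearLine_cross g Γ.cutF Γ.T e he2 (domBonds_fst he1) (domBonds_snd he1)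
  rcases hex with h | h
  · rw [← h]; exact this.1
  · rw [← h]; exact this.2

theorem crossB_empty (g : DGrid m₁ m₂) : crossB g (∅ : Finset (CFace m₁ m₂)) = ∅ := by
  ext e; simp [crossB]

theorem bonds_of_nocut (Γ : CGeom m₁ m₂) (hcut : Γ.cutF = ∅) (g : DGrid m₁ m₂) : bonds Γ g = domBonds (g.region Γ.T) ∅ := by
  unfold bonds
  rw [cutB_eq, hcut, crossB_empty]

theorem fineF_empty (s : ℕ) : fineF s (∅ : Finset (CFace m₁ m₂)) = ∅ := by
  simp [fineF]

theorem flux_sides (R : Fin r → Ray) (d : ℕ) (hd : 1 ≤ d) (hd' : d ≤ 15) (g' : DGrid (16 * m₁) (16 * m₂)) (D : Finset (ℤ × ℤ)) (w : Bond → ℝ) (c : ℝ)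
    (hc : 0 ≤ c) (h : GoodLines 16 g' D w c) :
    ∑ e ∈ (domBonds D ∅).filter (fun e => e ∈ crossB g' (Finset.univ.biUnion fun j => (R j).lineF d)), w e ^ 2
      ≤ r * (2 * c * ∑ e ∈ domBonds D ∅, w e ^ 2) := by
  have h1 : ∀ e ∈ (domBonds D ∅).filter (fun e => e ∈ crossB g' (Finset.univ.biUnion fun j => (R j).lineF d)),
      w e ^ 2 ≤ ∑ j : Fin r, if e ∈ crossB g' ((R j).lineF d) then w e ^ 2 else 0 := by
    intro e he
    obtain ⟨f, hf, hef⟩ := (Finset.mem_filter.1 he).2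
    obtain ⟨j, _, hj⟩ := Finset.mem_biUnion.1 hf
    have h2 : e ∈ crossB g' ((R j).lineF d) := ⟨f, hj, hef⟩
    calc w e ^ 2 = if e ∈ crossB g' ((R j).lineF d) then w e ^ 2 else 0 := by rw [if_pos h2]
      _ ≤ _ := Finset.single_le_sum (f := fun j : Fin r => if e ∈ crossB g' ((R j).lineF d) then w e ^ 2 else 0)
          (fun j _ => by split_ifs <;> positivity) (Finset.mem_univ j)
  refine (Finset.sum_le_sum h1).trans ?_
  rw [Finset.sum_comm]
  have h3 : ∀ j : Fin r, ∑ e ∈ (domBonds D ∅).filter (fun e => e ∈ crossB g' (Finset.univ.biUnion fun j => (R j).lineF d)),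
      (if e ∈ crossB g' ((R j).lineF d) then w e ^ 2 else 0) ≤ 2 * c * ∑ e ∈ domBonds D ∅, w e ^ 2 := by
    intro j
    refine le_trans ?_ (flux_lineF (R j) d hd hd' g' D w c hc h)
    rw [Finset.sum_filter (s := domBonds D ∅) (p := fun e => e ∈ crossB g' ((R j).lineF d))]
    exact Finset.sum_le_sum_of_subset_of_nonneg (Finset.filter_subset _ _) fun e _ _ => by split_ifs <;> positivity
  calc ∑ j : Fin r, _ ≤ ∑ _j : Fin r, 2 * c * ∑ e ∈ domBonds D ∅, w e ^ 2 := Finset.sum_le_sum fun j _ => h3 j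
    _ = _ := by simp

theorem sector_upper_unif (b : ℝ) (hb : 0 < b) (ha : 0 < aLim b) {m₁ m₂ r : ℕ} (Γ : CGeom m₁ m₂) (hΓ : Γ.NoDiag)
    (hcut : Γ.cutF = ∅) (R : Fin r → Ray) (hR : RaysOk Γ R) (K : ℕ) (ε : ℝ) (hε : 0 < ε) :
    ∃ N : ℕ, ∀ (g : DGrid m₁ m₂) (ν : ℕ), N ≤ ν → Scale K g ν → -ε ≤ secDefect b Γ g R := by
  obtain ⟨C₀, hC₀⟩ := pot_sector_bdd (aLim b) ha Γ R hR K
  obtain ⟨C₁, K', c, hC₁, hc, hpig⟩ := line_pigeonhole (m₁ := m₁) (m₂ := m₂) 16 (by norm_num) K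
  set S : Finset (CFace (16 * m₁) (16 * m₂)) := Finset.univ.biUnion fun j => (R j).lineF 2 with hS
  have hΓ' : (addCut (refine 16 Γ) S).NoDiag := by
    have := stage_noDiag Γ hΓ hcut R hR r
    rwa [stage_full] at this
  set Cf : ℝ := r * (2 * C₁ * ((aLim b)⁻¹ * |C₀|)) with hCf
  have hCf0 : 0 ≤ Cf := by have := inv_pos.2 ha; positivity
  set C₂ : ℝ := max (8 * Cf) |C₀| with hC₂
  obtain ⟨N₁, hN₁⟩ := line_unif b hb ha (addCut (refine 16 Γ) S) hΓ' K' C₂ (ε / 4) (by positivity)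
  obtain ⟨N₂, hN₂⟩ := exists_nat_ge ((2 * Real.pi) ^ 2 * Cf * (1 + 4 * b / ε))
  refine ⟨max (c * (N₁ + 1)) (N₂ + 1), fun g ν hν hsc => ?_⟩
  have hν1 : c * (N₁ + 1) ≤ ν := le_trans (le_max_left _ _) hν
  have hν2 : N₂ + 1 ≤ ν := le_trans (le_max_right _ _) hν
  have hνc : c ≤ ν := le_trans (Nat.le_mul_of_pos_right c (Nat.succ_pos _)) hν1
  have hν0 : 1 ≤ ν := le_trans hc hνc
  have hνR : (0 : ℝ) < ν := by exact_mod_cast hν0
  set τ := connB g R with hτ
  set D := g.region Γ.T with hD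
  obtain ⟨v, w, hvpin, hw1, hw0, hE, hEτ, hEL⟩ := exists_min_flow (aLim b) ha Γ g τ
  rw [bonds_of_nocut Γ hcut g] at hw1 hw0 hE hEτ hEL
  set E := confEn (aLim b) Γ g noRow τ 0 with hEdef
  set W := ∑ e ∈ domBonds D ∅, w e ^ 2 with hW
  have hW0 : 0 ≤ W := Finset.sum_nonneg fun e _ => sq_nonneg _
  have hE0 : 0 ≤ E := by rw [hE]; positivity
  have hEC : E ≤ |C₀| := by
    have h1 := hC₀ g ν hν0 hsc
    have h2 : (rlaw Γ g noRow).gEn (aLim b) (connR Γ g R) 0 = E := by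
      have e : ((rlaw Γ g noRow).obs (onV Γ g (0 : ℤ × ℤ → ℝ))) = 0 := by funext o; exact o.elim0
      rw [hEdef]; unfold confEn; rw [e]; rfl
    rw [h2] at h1
    exact h1.trans (le_abs_self _)
  have hWE : W = (aLim b)⁻¹ * E := by rw [hE]; field_simp
  obtain ⟨g', hg', hsc', hgood⟩ := hpig g ν hνc hsc D w
  -- geometry of the cut graph
  have hT : g'.region (addCut (refine 16 Γ) S).T = D := region_fine hg' Γ.T
  have hP : g'.region (addCut (refine 16 Γ) S).pin = g.region Γ.pin := region_fine hg' Γ.pin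
  have hcutB : (addCut (refine 16 Γ) S).cutB g' = crossB g' S := by
    rw [cutB_eq]
    show crossB g' (fineF 16 Γ.cutF ∪ S) = _
    rw [hcut, fineF_empty, Finset.empty_union]
  have hbr : bonds (refine 16 Γ) g' = domBonds D ∅ := by rw [bonds_refine hg', bonds_of_nocut Γ hcut g]
  -- flux through the strip sides
  set Bc := (domBonds D ∅).filter (fun e => e ∈ crossB g' S) with hBc
  have hflux : ∑ e ∈ Bc, w e ^ 2 ≤ Cf / ν := by
    have h1 := flux_sides R 2 (by norm_num) (by norm_num) g' D w (C₁ / ν) (by positivity) hgood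
    refine h1.trans ?_
    rw [← hW, hWE, hCf, div_eq_mul_inv]
    have h2 : (aLim b)⁻¹ * E ≤ (aLim b)⁻¹ * |C₀| := mul_le_mul_of_nonneg_left hEC (inv_pos.2 ha).le
    have h3 : 2 * (C₁ / ν) * ((aLim b)⁻¹ * E) ≤ 2 * (C₁ / ν) * ((aLim b)⁻¹ * |C₀|) :=
      mul_le_mul_of_nonneg_left h2 (by positivity)
    calc (r : ℝ) * (2 * (C₁ / ν) * ((aLim b)⁻¹ * E)) ≤ r * (2 * (C₁ / ν) * ((aLim b)⁻¹ * |C₀|)) :=
          mul_le_mul_of_nonneg_left h3 (by positivity)
      _ = _ := by field_simp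
  -- step 3: the tilt
  have hEL' : ∀ u : ℤ × ℤ → ℝ, (∀ x ∈ g'.region (addCut (refine 16 Γ) S).pin, u x = 0) →
      ∑ e ∈ domBonds (g'.region (addCut (refine 16 Γ) S).T) ∅, w e * (u e.snd - u e.1) = 0 := by
    intro u hu
    rw [hT]; exact hEL u (by rwa [hP] at hu)
  have htilt := tilt_upper b hb (refine 16 Γ) S g' τ (liftPot g' R 2)
    (fun x hx => liftPot_pin Γ R hR g' 2 (by norm_num) x hx)
    (fun e he => by
      have he' : e ∈ domBonds (g.region Γ.T) (crossB g' S) := by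
        have : bonds (addCut (refine 16 Γ) S) g' = domBonds (g'.region (addCut (refine 16 Γ) S).T) ((addCut (refine 16 Γ) S).cutB g') := rfl
        rw [this, hT, hcutB] at he
        exact he
      exact conn_eq_grad Γ hcut R hR g g' hg' 2 (by norm_num) (by norm_num) e he')
    w (fun u hu => by
      rw [hbr]
      exact hEL u (by
        have : g'.region (refine 16 Γ).pin = g.region Γ.pin := region_fine hg' Γ.pin
        rwa [this] at hu))
  rw [hbr, hEτ, confRatio_refine b hg'] at htilt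
  -- step 4: the Laplace bound
  have hν' : N₁ + 1 ≤ ν / c := (Nat.le_div_iff_mul_le (lt_of_lt_of_le Nat.zero_lt_one hc)).2 (by rw [mul_comm]; exact hν1)
  have hν'R : (0 : ℝ) < ((ν / c : ℕ) : ℝ) := by
    have : 0 < ν / c := lt_of_lt_of_le (Nat.succ_pos _) hν'
    exact_mod_cast this
  have hν'le : ((ν / c : ℕ) : ℝ) ≤ ν := by exact_mod_cast Nat.div_le_self ν c
  have hC₂0 : 0 ≤ C₂ := le_trans (abs_nonneg _) (le_max_right _ _)
  have hsq : ∑ x ∈ g'.region (addCut (refine 16 Γ) S).T,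
      cutTest (g'.region (addCut (refine 16 Γ) S).T) ((addCut (refine 16 Γ) S).cutB g') w x ^ 2 ≤ C₂ / ((ν / c : ℕ) : ℝ) := by
    refine (cutTest_sq (addCut (refine 16 Γ) S) g' w).trans ?_
    rw [hT, hcutB]
    calc 8 * ∑ e ∈ Bc, w e ^ 2 ≤ 8 * (Cf / ν) := by linarith
      _ = 8 * Cf / ν := by ring
      _ ≤ C₂ / ν := div_le_div_of_nonneg_right (le_max_left _ _) hνR.le
      _ ≤ C₂ / ((ν / c : ℕ) : ℝ) := div_le_div_of_nonneg_left hC₂0 hν'R hν'le
  have hvar : (rlaw (addCut (refine 16 Γ) S) g' noRow).gVar (aLim b)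
      (onV (addCut (refine 16 Γ) S) g' (cutTest (g'.region (addCut (refine 16 Γ) S).T) ((addCut (refine 16 Γ) S).cutB g') w)) ≤ E := by
    have := cutTest_gVar (aLim b) ha (addCut (refine 16 Γ) S) g' w hEL'
    rw [hT] at this ⊢
    rw [hE]; exact this
  have hlap := hN₁ g' (ν / c) (le_trans (Nat.le_succ _) hν') hsc' _ (cutTest_near (addCut (refine 16 Γ) S) g' w) hsq
    (hvar.trans (hEC.trans (le_max_right _ _))) _ (cutTest_lift b (addCut (refine 16 Γ) S) g' w hEL')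
  -- step 5: the deleted bonds
  have hN₂' : (2 * Real.pi) ^ 2 * Cf * (1 + 4 * b / ε) ≤ ν := hN₂.trans (by exact_mod_cast (Nat.le_succ _).trans hν2)
  have hπ : 0 ≤ (2 * Real.pi) ^ 2 * Cf := by positivity
  have hsmall1 : (2 * Real.pi) ^ 2 * (Cf / ν) ≤ 1 := by
    have : (2 * Real.pi) ^ 2 * Cf ≤ ν := by
      have h4 : (2 * Real.pi) ^ 2 * Cf * 1 ≤ (2 * Real.pi) ^ 2 * Cf * (1 + 4 * b / ε) :=
        mul_le_mul_of_nonneg_left (by have : 0 ≤ 4 * b / ε := by positivity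
                                      linarith) hπ
      linarith
    rw [← mul_div_assoc, div_le_one hνR]; exact this
  have hsmall2 : b * ((2 * Real.pi) ^ 2 * (Cf / ν)) ≤ ε / 4 := by
    have : (2 * Real.pi) ^ 2 * Cf * (4 * b / ε) ≤ ν := by
      have h4 : (2 * Real.pi) ^ 2 * Cf * (4 * b / ε) ≤ (2 * Real.pi) ^ 2 * Cf * (1 + 4 * b / ε) :=
        mul_le_mul_of_nonneg_left (by linarith) hπ
      linarith
    have h5 : b * ((2 * Real.pi) ^ 2 * (Cf / ν)) = (2 * Real.pi) ^ 2 * Cf * (4 * b / ε) / ν * (ε / 4) := by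
      field_simp
    rw [h5]
    have h6 : (2 * Real.pi) ^ 2 * Cf * (4 * b / ε) / ν ≤ 1 := (div_le_one hνR).2 this
    calc _ ≤ 1 * (ε / 4) := mul_le_mul_of_nonneg_right h6 (by positivity)
      _ = _ := one_mul _
  have hcosh : ∑ e ∈ Bc, b * (Real.cosh (2 * Real.pi * w e) - 1) ≤ ε / 4 := by
    have h7 : ∀ e ∈ Bc, b * (Real.cosh (2 * Real.pi * w e) - 1) ≤ b * ((2 * Real.pi) ^ 2 * w e ^ 2) := by
      intro e he
      have h8 : w e ^ 2 ≤ Cf / ν := le_trans (Finset.single_le_sum (f := fun e => w e ^ 2) (fun e _ => sq_nonneg _) he) hflux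
      have h9 : (2 * Real.pi * w e) ^ 2 ≤ 1 := by
        rw [mul_pow]
        exact le_trans (mul_le_mul_of_nonneg_left h8 (by positivity)) hsmall1
      have h10 : |2 * Real.pi * w e| ≤ 1 := by
        rw [← abs_one]; exact sq_le_sq.1 (by simpa using h9)
      have := cosh_sub_one_le _ h10
      rw [mul_pow] at this
      exact mul_le_mul_of_nonneg_left this hb.le
    refine (Finset.sum_le_sum h7).trans ?_
    rw [← Finset.mul_sum, ← Finset.mul_sum]
    refine le_trans ?_ hsmall2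
    exact mul_le_mul_of_nonneg_left (mul_le_mul_of_nonneg_left hflux (by positivity)) hb.le
  -- conclusion
  rw [secDefect_eq_conf]
  linarith

end

end Claimed.Agent.R285.Sec
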