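import Claimed.Agent.R285.Sec.Strip
import Claimed.Agent.R285.Sec.Shift
import Claimed.Agent.R285.Sec.Loc
import Claimed.Agent.R285.Sec.Rect
import Claimed.Agent.R285.Sec.Up

/-!
# ROW 285, layer Sec, ASSEMBLY file Low: the lower bound of [S]T3.1 (= [S]P3.4 + (3.3); with pins = [F]L3.2), uniform in the grid.
PLAN (`a = aLim b`, `E = gEn a θ ≤ C₀`).   Order of the constants: `ε` → `η` (loss per strip) → `s` (`localization_unif` for the `2r` geometries, and `C/s ≤ η`) → `N` (`conf_cost_unif` for the `2r + 1` geometries at this `s`, `localization_unif`, `C/ν ≤ η`).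
1. `v`, `w` as in `Up`; `v̂ : ℤ² → ℝ` = `v` extended by `0`.   2. `g'` from `line_pigeonhole 16 K`; `g''` = equal subdivision of `g'` by `s` (`exists_refine`).   `X_i = refine s (stage Γ R i)`, grid `g''`, rows `cellRow`, `τ = connB g R`.
3. `F = confRatio Γ g noRow = confRatio X_0 g'' noRow` (`confRatio_refine` twice, `stage_zero`) `≥ confRatio X_0 g'' cellRow τ v̂` (`conf_le_noRow`).
4. for `i < r`: `strip_restore` with `P = (R i).patch.fine s` (`ray_patch_ok`); `addCut X_i P.S = X_{i+1}` (`stage_succ`, `refine_addCut`).   So `F ≥ confRatio X_r - ∑_i loss_i`.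
5. `X_r`: `τ = ∇ψ₂` (`conn_eq_grad`, `β = 2`), `confRatio_gauge/congr`: `= confRatio X_r 0 u₂`, `u₂ = v̂ + 2π ψ₂`, `enB X_r u₂ ≤ en v θ = a E`.   `conf_cost_unif` + `gEn_le` (trial `u₂`): `-2 log confRatio X_r ≤ E + η`.
6. `loss_i = e^{D'} (A - B e^{-D})`, `A`, `B` = confined ratios of the cut / uncut patch.   Gauge with `ψ₇` (`conn_eq_grad_patch`): centres `B u₇`, `u₇ = v̂ + 2π ψ₇`, `e_c = enB (cut patch) u₇`.
   `B`: `-2 log B ≤ a⁻¹ enB(uncut patch) u₇ + η = a⁻¹ e_c + a ∑_{S bonds} w² + η`.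
   `A`: `-2 log A ≥ confEn - η ≥ a⁻¹ e_c - a⁻² M - η` by `gEn_obs_ge`, where for `φ` on the patch (extended by `0`): `∑_{cut patch} ∇u₇ ∇φ = a ∑ w ∇φ = - a ∑_{e ∈ S ∪ bW bonds} w_e ∇_e φ` (E-L), so
   `(..)² ≤ a² (∑_{S ∪ bW} w²) (2 ∑_{boundary layers} φ²) ≤ a² (4 C₁ C₀/(a ν)) · 2 C₂ n'' form φ`, `n'' ≤ K'' ν/s` (`flux_lineF`, `trace_form`): `M ≤ C/s`.
   `D, D' ≤ η` (`localization_unif` with `sep_Hs`, `sep_H'`, `stage_reg`, `refine_restr`, `refine_addCut`), `D, D' ≥ 0`.   Hence `loss_i ≤ e^{η} (e^{(C/s + η)/2} - e^{-(C/ν + η)/2 - η})`.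
7. `F ≥ e^{-(E+η)/2} - r·loss`, `E ≤ C₀`: `log F ≥ -E/2 - ε/2`.
-/

set_option autoImplicit false

namespace Claimed.Agent.R285.Sec

open Filter Topology S23
open scoped Classical

noncomputable section

section pre
variable {m₁ m₂ : ℕ}

theorem confEn_zero (a : ℝ) (Γ : CGeom m₁ m₂) (g : DGrid m₁ m₂) {N : ℕ} (row : Fin N → Cell m₁ m₂ → ℝ) (u : ℤ × ℤ → ℝ) :
    confEn a Γ g row 0 u = (rlaw Γ g row).gEn a 0 ((rlaw Γ g row).obs (onV Γ g u)) := by
  unfold confEn
  congr 1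
  funext e
  simp [onE, domFnE]

theorem en_onV (Γ : CGeom m₁ m₂) (g : DGrid m₁ m₂) (u : ℤ × ℤ → ℝ) : HLaw.en (onV Γ g u) 0 = enB Γ g u := by
  unfold enB
  rw [← sum_E Γ g (fun e => (u e.snd - u e.1) ^ 2), HLaw.en]
  refine Finset.sum_congr rfl fun e _ => ?_
  rw [onV_grad]; simp

/-- the trivial direction: `B u` costs at most the energy of `u` -/
theorem confEn_le_enB (a : ℝ) (ha : 0 < a) (Γ : CGeom m₁ m₂) (g : DGrid m₁ m₂) {N : ℕ} (row : Fin N → Cell m₁ m₂ → ℝ) (u : ℤ × ℤ → ℝ)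
    (hu : ∀ x ∈ g.region Γ.pin, u x = 0) : confEn a Γ g row 0 u ≤ a⁻¹ * enB Γ g u := by
  rw [confEn_zero]
  have := gEn_le (rlaw Γ g row) a ha 0 ((rlaw Γ g row).obs (onV Γ g u)) (onV Γ g u) (onV_mem_rspan Γ g row u hu)
  simpa [en_onV] using this

/-- the other direction, by completing the square -/
theorem confEn_ge_enB (a : ℝ) (ha : 0 < a) (Γ : CGeom m₁ m₂) (g : DGrid m₁ m₂) {N : ℕ} (row : Fin N → Cell m₁ m₂ → ℝ) (u : ℤ × ℤ → ℝ)
    (hu : ∀ x ∈ g.region Γ.pin, u x = 0) (M : ℝ) (hM0 : 0 ≤ M)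
    (hM : ∀ φ : ℤ × ℤ → ℝ, (∑ e ∈ bonds Γ g, (u e.snd - u e.1) * (φ e.snd - φ e.1)) ^ 2 ≤ M * (rlaw Γ g row).form a (onV Γ g φ)) :
    a⁻¹ * enB Γ g u - a⁻¹ ^ 2 * M ≤ confEn a Γ g row 0 u := by
  rw [confEn_zero, ← en_onV]
  refine gEn_obs_ge (rlaw Γ g row) a ha (onV Γ g u) (onV_mem_rspan Γ g row u hu) M hM0 fun φ _ => ?_
  have h := hM (extV Γ g φ)
  rw [onV_extV] at h
  refine le_trans (le_of_eq ?_) h
  congr 1
  rw [← sum_E Γ g (fun e => (u e.snd - u e.1) * (extV Γ g φ e.snd - extV Γ g φ e.1))]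
  refine Finset.sum_congr rfl fun e _ => ?_
  rw [onV_grad, ← onV_grad Γ g (extV Γ g φ), onV_extV]

/-- **the flow of the minimiser against functions on a piece**: only the missing bonds which touch the piece contribute, and they sit in boundary layers. -/
theorem piece_pair_le (Y : CGeom m₁ m₂) (g : DGrid m₁ m₂) (T₀ : Finset (Cell m₁ m₂)) (F : Finset (CFace m₁ m₂)) (P : Finset (ℤ × ℤ)) (w : Bond → ℝ)
    (hEL : ∀ u : ℤ × ℤ → ℝ, (∀ x ∈ P, u x = 0) → ∑ e ∈ domBonds (g.region T₀) ∅, w e * (u e.snd - u e.1) = 0)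
    (hdis : ∀ x ∈ P, x ∉ g.region Y.T) (hsub : bonds Y g ⊆ domBonds (g.region T₀) ∅)
    (hmiss : ∀ e ∈ domBonds (g.region T₀) ∅, e ∉ bonds Y g → e ∈ crossB g F ∨ (e.1 ∉ g.region Y.T ∧ e.snd ∉ g.region Y.T))
    (φ : ℤ × ℤ → ℝ) :
    (∑ e ∈ bonds Y g, w e * (φ e.snd - φ e.1)) ^ 2
      ≤ 8 * (∑ e ∈ (domBonds (g.region T₀) ∅).filter (fun e => e ∈ crossB g F), w e ^ 2)
        * ∑ x ∈ (g.region Y.T).filter (fun x => NearLine g x), φ x ^ 2 := by
  set B := domBonds (g.region T₀) ∅ with hB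
  set ψ : ℤ × ℤ → ℝ := fun x => if x ∈ g.region Y.T then φ x else 0 with hψ
  have hψP : ∀ x ∈ P, ψ x = 0 := fun x hx => by simp only [hψ, if_neg (hdis x hx)]
  have h0 := hEL ψ hψP
  -- on the bonds of the piece `ψ = φ`
  have e1 : ∑ e ∈ bonds Y g, w e * (φ e.snd - φ e.1) = ∑ e ∈ bonds Y g, w e * (ψ e.snd - ψ e.1) := by
    refine Finset.sum_congr rfl fun e he => ?_
    have h1 : e.1 ∈ g.region Y.T := domBonds_fst he
    have h2 : e.snd ∈ g.region Y.T := domBonds_snd he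
    simp only [hψ, if_pos h1, if_pos h2]
  set Bs := (B.filter (fun e => e ∉ bonds Y g)).filter (fun e => e ∈ crossB g F) with hBs
  have e2 : ∑ e ∈ bonds Y g, w e * (ψ e.snd - ψ e.1) = - ∑ e ∈ Bs, w e * (ψ e.snd - ψ e.1) := by
    have h3 := Finset.sum_filter_add_sum_filter_not B (fun e => e ∈ bonds Y g) (fun e => w e * (ψ e.snd - ψ e.1))
    have h4 : B.filter (fun e => e ∈ bonds Y g) = bonds Y g := by
      ext e; simp only [Finset.mem_filter]; exact ⟨fun h => h.2, fun h => ⟨hsub h, h⟩⟩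
    have h5 := Finset.sum_filter_add_sum_filter_not (B.filter (fun e => e ∉ bonds Y g)) (fun e => e ∈ crossB g F) (fun e => w e * (ψ e.snd - ψ e.1))
    have h6 : ∑ e ∈ (B.filter (fun e => e ∉ bonds Y g)).filter (fun e => e ∉ crossB g F), w e * (ψ e.snd - ψ e.1) = 0 := by
      refine Finset.sum_eq_zero fun e he => ?_
      obtain ⟨he1, he2⟩ := Finset.mem_filter.1 he
      obtain ⟨he3, he4⟩ := Finset.mem_filter.1 he1
      rcases hmiss e he3 he4 with h | h
      · exact absurd h he2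
      · simp only [hψ, if_neg h.1, if_neg h.2]; ring
    rw [h4] at h3
    rw [h6, add_zero] at h5
    linarith
  set X := (g.region T₀).filter (fun x => NearLine g x) with hX
  have hXB : ∀ e ∈ Bs, e.1 ∈ X ∧ e.snd ∈ X := by
    intro e he
    obtain ⟨he1, he2⟩ := Finset.mem_filter.1 he
    obtain ⟨he3, _⟩ := Finset.mem_filter.1 he1
    have hn := nearLine_cross g F T₀ e he2 (domBonds_fst he3) (domBonds_snd he3)
    exact ⟨Finset.mem_filter.2 ⟨domBonds_fst he3, hn.1⟩, Finset.mem_filter.2 ⟨domBonds_snd he3, hn.2⟩⟩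
  have h7 := flow_pair_sq_le Bs w X hXB ψ
  rw [e1, e2, neg_sq]
  refine h7.trans ?_
  have h8 : ∑ e ∈ Bs, w e ^ 2 ≤ ∑ e ∈ B.filter (fun e => e ∈ crossB g F), w e ^ 2 := by
    refine Finset.sum_le_sum_of_subset_of_nonneg ?_ fun e _ _ => sq_nonneg _
    intro e he
    obtain ⟨he1, he2⟩ := Finset.mem_filter.1 he
    exact Finset.mem_filter.2 ⟨(Finset.mem_filter.1 he1).1, he2⟩
  have h9 : ∑ x ∈ X, ψ x ^ 2 ≤ ∑ x ∈ (g.region Y.T).filter (fun x => NearLine g x), φ x ^ 2 := by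
    have h10 : ∑ x ∈ X, ψ x ^ 2 = ∑ x ∈ X.filter (fun x => x ∈ g.region Y.T), φ x ^ 2 := by
      rw [Finset.sum_filter (s := X) (p := fun x => x ∈ g.region Y.T) (f := fun x => φ x ^ 2)]
      refine Finset.sum_congr rfl fun x _ => ?_
      by_cases hx : x ∈ g.region Y.T
      · simp only [hψ, if_pos hx]
      · simp only [hψ, if_neg hx]; simp
    rw [h10]
    refine Finset.sum_le_sum_of_subset_of_nonneg ?_ fun e _ _ => sq_nonneg _
    intro x hx
    obtain ⟨hx1, hx2⟩ := Finset.mem_filter.1 hx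
    exact Finset.mem_filter.2 ⟨hx2, (Finset.mem_filter.1 hx1).2⟩
  have h11 : 0 ≤ ∑ x ∈ X, ψ x ^ 2 := Finset.sum_nonneg fun x _ => sq_nonneg _
  have h12 : 0 ≤ ∑ e ∈ B.filter (fun e => e ∈ crossB g F), w e ^ 2 := Finset.sum_nonneg fun x _ => sq_nonneg _
  calc 8 * (∑ e ∈ Bs, w e ^ 2) * ∑ x ∈ X, ψ x ^ 2 ≤ 8 * (∑ e ∈ B.filter (fun e => e ∈ crossB g F), w e ^ 2) * ∑ x ∈ X, ψ x ^ 2 :=
        mul_le_mul_of_nonneg_right (by linarith) h11
    _ ≤ _ := mul_le_mul_of_nonneg_left h9 (by positivity)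

theorem loss_bound (A Bq D D' q η : ℝ) (hq : 0 ≤ q) (hη : 0 ≤ η) (hA : A ≤ Real.exp (-(q - 2 * η) / 2)) (hB : Real.exp (-(q + 2 * η) / 2) ≤ Bq)
    (hD : D ≤ η) (hD' : D' ≤ η) : Real.exp D' * (A - Bq * Real.exp (-D)) ≤ Real.exp (2 * η) - Real.exp (-η) := by
  have h1 : Real.exp (-(q - 2 * η) / 2) = Real.exp (-q / 2) * Real.exp η := by rw [← Real.exp_add]; congr 1; ring
  have h2 : Real.exp (-(q + 2 * η) / 2) = Real.exp (-q / 2) * Real.exp (-η) := by rw [← Real.exp_add]; congr 1; ring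
  have h3 : Real.exp (-η) ≤ Real.exp (-D) := Real.exp_le_exp.2 (by linarith)
  have hq1 : Real.exp (-q / 2) ≤ 1 := Real.exp_le_one_iff.2 (by linarith)
  have hq0 : 0 < Real.exp (-q / 2) := Real.exp_pos _
  set δ := Real.exp η - Real.exp (-(2 * η)) with hδ
  have hδ0 : 0 ≤ δ := sub_nonneg.2 (Real.exp_le_exp.2 (by linarith))
  have h4 : Real.exp (-q / 2) * Real.exp (-η) * Real.exp (-η) ≤ Bq * Real.exp (-D) :=
    mul_le_mul (h2 ▸ hB) h3 (Real.exp_pos _).le (le_trans (Real.exp_pos _).le hB)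
  have h5 : Real.exp (-η) * Real.exp (-η) = Real.exp (-(2 * η)) := by rw [← Real.exp_add]; congr 1; ring
  have h6 : A - Bq * Real.exp (-D) ≤ Real.exp (-q / 2) * δ := by
    rw [hδ, mul_sub, ← h5, ← mul_assoc]
    linarith [h1 ▸ hA]
  have h7 : A - Bq * Real.exp (-D) ≤ δ := h6.trans (by nlinarith)
  have h8 : Real.exp D' ≤ Real.exp η := Real.exp_le_exp.2 hD'
  calc Real.exp D' * (A - Bq * Real.exp (-D)) ≤ Real.exp D' * δ := mul_le_mul_of_nonneg_left h7 (Real.exp_pos _).le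
    _ ≤ Real.exp η * δ := mul_le_mul_of_nonneg_right h8 hδ0
    _ = Real.exp (2 * η) - Real.exp (-η) := by
        rw [hδ, mul_sub, ← Real.exp_add, ← Real.exp_add]; congr 2 <;> ring

end pre

variable {m₁ m₂ r : ℕ}

/-- the cut patch, the uncut patch, and the graph with strip sides and artificial boundary removed (level 16) -/
def patchC (Γ : CGeom m₁ m₂) (R : Fin r → Ray) (i : Fin r) : CGeom (16 * m₁) (16 * m₂) := restr (addCut (stage Γ R i.1) ((R i).lineF 2)) (R i).patch.W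
def patchO (Γ : CGeom m₁ m₂) (R : Fin r → Ray) (i : Fin r) : CGeom (16 * m₁) (16 * m₂) := restr (stage Γ R i.1) (R i).patch.W
def patchB (Γ : CGeom m₁ m₂) (R : Fin r → Ray) (i : Fin r) : CGeom (16 * m₁) (16 * m₂) := addCut (stage Γ R i.1) ((R i).lineF 2 ∪ (R i).lineF 7)

/-- the loss of the `i`-th strip restoration -/
def lossS (b : ℝ) (Γ : CGeom m₁ m₂) (R : Fin r → Ray) (s : ℕ) (g'' : DGrid (s * (16 * m₁)) (s * (16 * m₂))) (τ : Bond → ℤ) (v : ℤ × ℤ → ℝ) (i : Fin r) : ℝ :=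
  Real.exp (dCell b (refine s (patchB Γ R i)) g'' (fine s ((R i).band 6 8)) (fine s ((R i).band 4 5)))
    * (confRatio b (refine s (patchC Γ R i)) g'' cellRow τ v
      - confRatio b (refine s (patchO Γ R i)) g'' cellRow τ v
        * Real.exp (-(dCell b (refine s (patchC Γ R i)) g'' (fine s ((R i).band 1 3)) (fine s ((R i).band 4 5)))))

theorem region_mono {M₁ M₂ : ℕ} (g : DGrid M₁ M₂) {A B : Finset (Cell M₁ M₂)} (h : A ⊆ B) : g.region A ⊆ g.region B :=
  Finset.biUnion_subset_biUnion_of_subset_left _ h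

theorem crossB_union {M₁ M₂ : ℕ} (g : DGrid M₁ M₂) (F F' : Finset (CFace M₁ M₂)) : crossB g (F ∪ F') = crossB g F ∪ crossB g F' := by
  ext e
  simp only [crossB, Set.mem_union, Finset.mem_union]
  constructor
  · rintro ⟨f, hf | hf, h⟩
    · exact Or.inl ⟨f, hf, h⟩
    · exact Or.inr ⟨f, hf, h⟩
  · rintro (⟨f, hf, h⟩ | ⟨f, hf, h⟩)
    · exact ⟨f, Or.inl hf, h⟩
    · exact ⟨f, Or.inr hf, h⟩

/-- gauge to a single valued lift on a piece where the connection is a gradient -/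
theorem confRatio_lift (b : ℝ) {M₁ M₂ : ℕ} (Y : CGeom M₁ M₂) (g : DGrid M₁ M₂) {N : ℕ} (row : Fin N → Cell M₁ M₂ → ℝ) (τ : Bond → ℤ) (v : ℤ × ℤ → ℝ)
    (ψ : ℤ × ℤ → ℤ) (hψ : ∀ x ∈ g.region Y.pin, ψ x = 0) (hτ : ∀ e ∈ bonds Y g, τ e = ψ e.snd - ψ e.1) :
    confRatio b Y g row τ v = confRatio b Y g row 0 (fun x => v x + 2 * Real.pi * (ψ x : ℝ)) := by
  rw [← confRatio_gauge b Y g row 0 v ψ hψ]
  exact confRatio_congr b Y g row _ _ v v (fun e he => by simp [hτ e he]) fun _ _ => rfl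

theorem stage_T (Γ : CGeom m₁ m₂) (R : Fin r → Ray) (i : ℕ) : (stage Γ R i).T = fine 16 Γ.T := rfl
theorem stage_pin (Γ : CGeom m₁ m₂) (R : Fin r → Ray) (i : ℕ) : (stage Γ R i).pin = fine 16 Γ.pin := rfl


section patchfacts
variable (Γ : CGeom m₁ m₂) (R : Fin r → Ray) (g : DGrid m₁ m₂) (g' : DGrid (16 * m₁) (16 * m₂)) (hg : Refines 16 g' g) (i : Fin r)

theorem patchO_region_sub : g'.region (patchO Γ R i).T ⊆ g'.region (R i).patch.W := region_mono g' Finset.inter_subset_right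

include hg in
theorem patchO_bonds_sub : bonds (patchO Γ R i) g' ⊆ domBonds (g.region Γ.T) ∅ := by
  rw [← region_fine hg Γ.T]
  exact domBonds_mono (region_mono g' Finset.inter_subset_left) (Set.empty_subset _)

theorem patchC_bonds_sub : bonds (patchC Γ R i) g' ⊆ bonds (patchO Γ R i) g' := by
  refine domBonds_mono (le_refl _) ?_
  intro e he
  obtain ⟨f, hf, h⟩ := he
  exact ⟨f, Finset.mem_union_left _ hf, h⟩

theorem patchO_bonds_split (e : Bond) (he : e ∈ bonds (patchO Γ R i) g') : e ∈ bonds (patchC Γ R i) g' ∨ e ∈ crossB g' ((R i).lineF 2) := by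
  by_cases h : e ∈ crossB g' ((R i).lineF 2)
  · exact Or.inr h
  · left
    have he' := he
    unfold bonds domBonds at he ⊢
    rw [Finset.mem_filter] at he ⊢
    refine ⟨he.1, he.2.1, ?_⟩
    rintro ⟨f, hf, hef⟩
    rcases Finset.mem_union.1 hf with hf | hf
    · exact he.2.2 ⟨f, hf, hef⟩
    · exact h ⟨f, hf, hef⟩

theorem patch_pin_empty (hR : RaysOk Γ R) : (patchC Γ R i).pin = ∅ ∧ (patchO Γ R i).pin = ∅ := by
  have h := (patch_sub Γ R hR i).2
  have : fine 16 Γ.pin ∩ (R i).patch.W = ∅ := by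
    rw [Finset.inter_comm]; exact Finset.disjoint_iff_inter_eq_empty.1 h
  exact ⟨this, this⟩

end patchfacts


theorem sec_sum_union_le {ι : Type} [DecidableEq ι] (A B : Finset ι) (f : ι → ℝ) (hf : ∀ x, 0 ≤ f x) : ∑ x ∈ A ∪ B, f x ≤ ∑ x ∈ A, f x + ∑ x ∈ B, f x := by
  have h := Finset.sum_union_inter (s₁ := A) (s₂ := B) (f := f)
  have h2 : 0 ≤ ∑ x ∈ A ∩ B, f x := Finset.sum_nonneg fun x _ => hf x
  linarith

theorem line_unique {m : ℕ} (x : Fin (m + 1) → ℤ) (hx : StrictMono x) (i i' : Fin m) (t : ℤ)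
    (h1 : x i.castSucc ≤ t) (h2 : t < x i.succ) (h1' : x i'.castSucc ≤ t) (h2' : t < x i'.succ) : i = i' := by
  by_contra hne
  rcases lt_or_gt_of_ne hne with h | h
  · have : i.succ ≤ i'.castSucc := by
      rw [Fin.le_def]; simp only [Fin.val_succ, Fin.val_castSucc]; exact h
    have := hx.monotone this
    omega
  · have : i'.succ ≤ i.castSucc := by
      rw [Fin.le_def]; simp only [Fin.val_succ, Fin.val_castSucc]; exact h
    have := hx.monotone this
    omega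

theorem cell_unique {M₁ M₂ : ℕ} (g : DGrid M₁ M₂) (κ κ' : Cell M₁ M₂) (x : ℤ × ℤ) (h : x ∈ g.cell κ) (h' : x ∈ g.cell κ') : κ = κ' := by
  simp only [DGrid.cell, Finset.mem_product, Finset.mem_Ico] at h h'
  exact Prod.ext (line_unique g.x₁ g.mono₁ _ _ x.1 h.1.1 h.1.2 h'.1.1 h'.1.2) (line_unique g.x₂ g.mono₂ _ _ x.2 h.2.1 h.2.2 h'.2.1 h'.2.2)

theorem region_disjoint {M₁ M₂ : ℕ} (g : DGrid M₁ M₂) {A B : Finset (Cell M₁ M₂)} (h : Disjoint A B) (x : ℤ × ℤ) (hA : x ∈ g.region A) : x ∉ g.region B := by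
  intro hB
  obtain ⟨κ, hκ, hx⟩ := Finset.mem_biUnion.1 hA
  obtain ⟨κ', hκ', hx'⟩ := Finset.mem_biUnion.1 hB
  have := cell_unique g κ κ' x hx hx'
  subst this
  exact Finset.disjoint_left.1 h hκ hκ'

theorem region_empty {M₁ M₂ : ℕ} (g : DGrid M₁ M₂) : g.region (∅ : Finset (Cell M₁ M₂)) = ∅ := rfl

theorem low_loss (b : ℝ) (hb : 0 < b) (a : ℝ) (ha : 0 < a) (Γ : CGeom m₁ m₂) (hcut : Γ.cutF = ∅) (R : Fin r → Ray) (hR : RaysOk Γ R)
    (g : DGrid m₁ m₂) (g' : DGrid (16 * m₁) (16 * m₂)) (hg : Refines 16 g' g) (s : ℕ) (g'' : DGrid (s * (16 * m₁)) (s * (16 * m₂))) (hg'' : Refines s g'' g')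
    (v : ℤ × ℤ → ℝ) (w : Bond → ℝ)
    (hw1 : ∀ e ∈ domBonds (g.region Γ.T) ∅, w e = a⁻¹ * (v e.snd - v e.1 + 2 * Real.pi * (connB g R e : ℝ)))
    (hEL : ∀ u : ℤ × ℤ → ℝ, (∀ x ∈ g.region Γ.pin, u x = 0) → ∑ e ∈ domBonds (g.region Γ.T) ∅, w e * (u e.snd - u e.1) = 0)
    (i : Fin r) (η Φ Ct : ℝ) (hη : 0 ≤ η) (hCt : 0 ≤ Ct)
    (hΦ2 : ∑ e ∈ (domBonds (g.region Γ.T) ∅).filter (fun e => e ∈ crossB g' ((R i).lineF 2)), w e ^ 2 ≤ Φ)
    (hΦ7 : ∑ e ∈ (domBonds (g.region Γ.T) ∅).filter (fun e => e ∈ crossB g' ((R i).lineF 7)), w e ^ 2 ≤ Φ)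
    (htr : ∀ φ : ℤ × ℤ → ℝ, ∑ x ∈ (g''.region (refine s (patchC Γ R i)).T).filter (fun x => NearLine g'' x), φ x ^ 2
      ≤ Ct * (rlaw (refine s (patchC Γ R i)) g'' cellRow).form a (onV (refine s (patchC Γ R i)) g'' φ))
    (hM : 16 * Φ * Ct ≤ η) (hS : a * Φ ≤ η)
    (Cen : ℝ) (hCen : a ^ 2 * ∑ e ∈ domBonds (g.region Γ.T) ∅, w e ^ 2 ≤ Cen)
    (hcA' : ∀ u : ℤ × ℤ → ℝ, (∀ x ∈ g''.region (refine s (patchC Γ R i)).pin, u x = 0) → enB (refine s (patchC Γ R i)) g'' u ≤ Cen →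
      |-2 * Real.log (confRatio b (refine s (patchC Γ R i)) g'' cellRow 0 u) - confEn a (refine s (patchC Γ R i)) g'' cellRow 0 u| ≤ η)
    (hcB' : ∀ u : ℤ × ℤ → ℝ, (∀ x ∈ g''.region (refine s (patchO Γ R i)).pin, u x = 0) → enB (refine s (patchO Γ R i)) g'' u ≤ Cen →
      |-2 * Real.log (confRatio b (refine s (patchO Γ R i)) g'' cellRow 0 u) - confEn a (refine s (patchO Γ R i)) g'' cellRow 0 u| ≤ η)
    (hD : dCell b (refine s (patchC Γ R i)) g'' (fine s ((R i).band 1 3)) (fine s ((R i).band 4 5)) ≤ η)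
    (hD' : dCell b (refine s (patchB Γ R i)) g'' (fine s ((R i).band 6 8)) (fine s ((R i).band 4 5)) ≤ η) :
    lossS b Γ R s g'' (connB g R) v i ≤ Real.exp (2 * η) - Real.exp (-η) := by
  set u : ℤ × ℤ → ℝ := fun x => v x + 2 * Real.pi * (liftPot g' R 7 x : ℝ) with hu
  set B := domBonds (g.region Γ.T) ∅ with hB
  have hbC : bonds (refine s (patchC Γ R i)) g'' = bonds (patchC Γ R i) g' := bonds_refine hg'' _
  have hbO : bonds (refine s (patchO Γ R i)) g'' = bonds (patchO Γ R i) g' := bonds_refine hg'' _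
  have hpC : g''.region (refine s (patchC Γ R i)).pin = ∅ := by
    have : g''.region (refine s (patchC Γ R i)).pin = g'.region (patchC Γ R i).pin := region_fine hg'' _
    rw [this, (patch_pin_empty Γ R i hR).1]; rfl
  have hpO : g''.region (refine s (patchO Γ R i)).pin = ∅ := by
    have : g''.region (refine s (patchO Γ R i)).pin = g'.region (patchO Γ R i).pin := region_fine hg'' _
    rw [this, (patch_pin_empty Γ R i hR).2]; rfl
  have hTC : g''.region (refine s (patchC Γ R i)).T = g'.region (patchC Γ R i).T := region_fine hg'' _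
  -- the connection is a gradient on the patch
  have hgrad : ∀ e ∈ bonds (patchO Γ R i) g', connB g R e = liftPot g' R 7 e.snd - liftPot g' R 7 e.1 := fun e he =>
    conn_eq_grad_patch Γ hcut R hR g g' hg i e (patchO_region_sub Γ R g' i (domBonds_fst he)) (patchO_region_sub Γ R g' i (domBonds_snd he))
  have hA_eq : confRatio b (refine s (patchC Γ R i)) g'' cellRow (connB g R) v = confRatio b (refine s (patchC Γ R i)) g'' cellRow 0 u :=
    confRatio_lift b _ g'' cellRow _ v (liftPot g' R 7) (fun x hx => by rw [hpC] at hx; simp at hx)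
      (fun e he => hgrad e (patchC_bonds_sub Γ R g' i (hbC ▸ he)))
  have hB_eq : confRatio b (refine s (patchO Γ R i)) g'' cellRow (connB g R) v = confRatio b (refine s (patchO Γ R i)) g'' cellRow 0 u :=
    confRatio_lift b _ g'' cellRow _ v (liftPot g' R 7) (fun x hx => by rw [hpO] at hx; simp at hx)
      (fun e he => hgrad e (hbO ▸ he))
  -- the gradient of the lift is the flow
  have hgu : ∀ e ∈ bonds (patchO Γ R i) g', u e.snd - u e.1 = a * w e := by
    intro e he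
    rw [hw1 e (patchO_bonds_sub Γ R g g' hg i he), hgrad e he, ← mul_assoc, mul_inv_cancel₀ ha.ne', one_mul]
    simp only [hu]; push_cast; ring
  set q : ℝ := a * ∑ e ∈ bonds (patchC Γ R i) g', w e ^ 2 with hq
  have hq0 : 0 ≤ q := mul_nonneg ha.le (Finset.sum_nonneg fun e _ => sq_nonneg _)
  have henC : a⁻¹ * enB (refine s (patchC Γ R i)) g'' u = q := by
    unfold enB
    rw [hbC, hq, Finset.mul_sum, Finset.mul_sum]
    refine Finset.sum_congr rfl fun e he => ?_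
    rw [hgu e (patchC_bonds_sub Γ R g' i he)]
    field_simp
  have henO : a⁻¹ * enB (refine s (patchO Γ R i)) g'' u ≤ q + a * Φ := by
    unfold enB
    rw [hbO]
    have h1 : ∑ e ∈ bonds (patchO Γ R i) g', (u e.snd - u e.1) ^ 2 = a ^ 2 * ∑ e ∈ bonds (patchO Γ R i) g', w e ^ 2 := by
      rw [Finset.mul_sum]
      exact Finset.sum_congr rfl fun e he => by rw [hgu e he]; ring
    have h2 : ∑ e ∈ bonds (patchO Γ R i) g', w e ^ 2 ≤ ∑ e ∈ bonds (patchC Γ R i) g', w e ^ 2 + Φ := by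
      refine le_trans ?_ (add_le_add_right hΦ2 _)
      refine le_trans (Finset.sum_le_sum_of_subset_of_nonneg (t := bonds (patchC Γ R i) g' ∪ B.filter (fun e => e ∈ crossB g' ((R i).lineF 2))) ?_
        fun e _ _ => sq_nonneg _) (sec_sum_union_le _ _ _ fun e => sq_nonneg _)
      intro e he
      rcases patchO_bonds_split Γ R g' i e he with h | h
      · exact Finset.mem_union_left _ h
      · exact Finset.mem_union_right _ (Finset.mem_filter.2 ⟨patchO_bonds_sub Γ R g g' hg i he, h⟩)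
    rw [h1, hq]
    have h3 : a⁻¹ * (a ^ 2 * ∑ e ∈ bonds (patchO Γ R i) g', w e ^ 2) = a * ∑ e ∈ bonds (patchO Γ R i) g', w e ^ 2 := by field_simp
    rw [h3, ← mul_add]
    exact mul_le_mul_of_nonneg_left h2 ha.le
  -- lower bound of the reference cost of the cut patch
  have huC : ∀ x ∈ g''.region (refine s (patchC Γ R i)).pin, u x = 0 := fun x hx => by rw [hpC] at hx; simp at hx
  have huO : ∀ x ∈ g''.region (refine s (patchO Γ R i)).pin, u x = 0 := fun x hx => by rw [hpO] at hx; simp at hx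
  have hΦ0 : 0 ≤ Φ := le_trans (Finset.sum_nonneg fun e _ => sq_nonneg _) hΦ2
  set M : ℝ := a ^ 2 * (16 * Φ * Ct) with hMdef
  have hM0 : 0 ≤ M := by positivity
  have hT0 : g''.region (fine s (fine 16 Γ.T)) = g.region Γ.T := by rw [region_fine hg'', region_fine hg]
  have hform : ∀ φ : ℤ × ℤ → ℝ, (∑ e ∈ bonds (refine s (patchC Γ R i)) g'', (u e.snd - u e.1) * (φ e.snd - φ e.1)) ^ 2
      ≤ M * (rlaw (refine s (patchC Γ R i)) g'' cellRow).form a (onV (refine s (patchC Γ R i)) g'' φ) := by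
    intro φ
    have h1 : ∑ e ∈ bonds (refine s (patchC Γ R i)) g'', (u e.snd - u e.1) * (φ e.snd - φ e.1)
        = a * ∑ e ∈ bonds (refine s (patchC Γ R i)) g'', w e * (φ e.snd - φ e.1) := by
      rw [Finset.mul_sum]
      refine Finset.sum_congr rfl fun e he => ?_
      rw [hgu e (patchC_bonds_sub Γ R g' i (hbC ▸ he))]; ring
    have h2 := piece_pair_le (refine s (patchC Γ R i)) g'' (fine s (fine 16 Γ.T)) (fineF s ((R i).lineF 2 ∪ (R i).lineF 7)) (g.region Γ.pin) w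
      (by rw [hT0]; exact hEL)
      (by
        intro x hx hx'
        rw [hTC] at hx'
        have hx1 : x ∈ g'.region (R i).patch.W := region_mono g' Finset.inter_subset_right hx'
        have hx2 : x ∈ g'.region (fine 16 Γ.pin) := by rw [region_fine hg]; exact hx
        exact region_disjoint g' (patch_sub Γ R hR i).2 x hx1 hx2)
      (by rw [hT0, hbC]; exact (patchC_bonds_sub Γ R g' i).trans (patchO_bonds_sub Γ R g g' hg i))
      (by
        intro e he hne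
        rw [hT0] at he
        rw [hbC] at hne
        rw [crossB_fineF hg'', hTC]
        rcases patch_bonds Γ hcut R hR g g' hg i e he hne with h | h
        · exact Or.inl h
        · exact Or.inr ⟨fun h' => h.1 (region_mono g' Finset.inter_subset_right h'), fun h' => h.2 (region_mono g' Finset.inter_subset_right h')⟩)
      φ
    have h3 : ∑ e ∈ (domBonds (g''.region (fine s (fine 16 Γ.T))) ∅).filter (fun e => e ∈ crossB g'' (fineF s ((R i).lineF 2 ∪ (R i).lineF 7))), w e ^ 2 ≤ 2 * Φ := by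
      refine le_trans (Finset.sum_le_sum_of_subset_of_nonneg
        (t := B.filter (fun e => e ∈ crossB g' ((R i).lineF 2)) ∪ B.filter (fun e => e ∈ crossB g' ((R i).lineF 7))) ?_ fun e _ _ => sq_nonneg _) ?_
      · intro e he
        obtain ⟨he1, he2⟩ := Finset.mem_filter.1 he
        rw [hT0] at he1
        rw [crossB_fineF hg'', crossB_union] at he2
        rcases he2 with h | h
        · exact Finset.mem_union_left _ (Finset.mem_filter.2 ⟨he1, h⟩)
        · exact Finset.mem_union_right _ (Finset.mem_filter.2 ⟨he1, h⟩)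
      · refine (sec_sum_union_le _ _ _ fun e => sq_nonneg _).trans ?_
        linarith
    have h5 := htr φ
    have h6 : 0 ≤ ∑ x ∈ (g''.region (refine s (patchC Γ R i)).T).filter (fun x => NearLine g'' x), φ x ^ 2 := Finset.sum_nonneg fun x _ => sq_nonneg _
    rw [h1, mul_pow, hMdef]
    have h7 : (∑ e ∈ bonds (refine s (patchC Γ R i)) g'', w e * (φ e.snd - φ e.1)) ^ 2
        ≤ 16 * Φ * Ct * (rlaw (refine s (patchC Γ R i)) g'' cellRow).form a (onV (refine s (patchC Γ R i)) g'' φ) := by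
      refine h2.trans ?_
      refine (mul_le_mul_of_nonneg_right (mul_le_mul_of_nonneg_left h3 (by norm_num : (0:ℝ) ≤ 8)) h6).trans ?_
      calc 8 * (2 * Φ) * ∑ x ∈ (g''.region (refine s (patchC Γ R i)).T).filter (fun x => NearLine g'' x), φ x ^ 2
          ≤ 8 * (2 * Φ) * (Ct * (rlaw (refine s (patchC Γ R i)) g'' cellRow).form a (onV (refine s (patchC Γ R i)) g'' φ)) :=
            mul_le_mul_of_nonneg_left h5 (by positivity)
        _ = _ := by ring
    calc a ^ 2 * (∑ e ∈ bonds (refine s (patchC Γ R i)) g'', w e * (φ e.snd - φ e.1)) ^ 2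
        ≤ a ^ 2 * (16 * Φ * Ct * (rlaw (refine s (patchC Γ R i)) g'' cellRow).form a (onV (refine s (patchC Γ R i)) g'' φ)) :=
          mul_le_mul_of_nonneg_left h7 (by positivity)
      _ = _ := by ring
  have hsqO : ∑ e ∈ bonds (patchO Γ R i) g', w e ^ 2 ≤ ∑ e ∈ B, w e ^ 2 :=
    Finset.sum_le_sum_of_subset_of_nonneg (patchO_bonds_sub Γ R g g' hg i) fun e _ _ => sq_nonneg _
  have hsqC : ∑ e ∈ bonds (patchC Γ R i) g', w e ^ 2 ≤ ∑ e ∈ B, w e ^ 2 :=
    le_trans (Finset.sum_le_sum_of_subset_of_nonneg (patchC_bonds_sub Γ R g' i) fun e _ _ => sq_nonneg _) hsqO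
  have hcA := hcA' u huC (by
    unfold enB
    rw [hbC]
    have h1 : ∑ e ∈ bonds (patchC Γ R i) g', (u e.snd - u e.1) ^ 2 = a ^ 2 * ∑ e ∈ bonds (patchC Γ R i) g', w e ^ 2 := by
      rw [Finset.mul_sum]
      exact Finset.sum_congr rfl fun e he => by rw [hgu e (patchC_bonds_sub Γ R g' i he)]; ring
    rw [h1]
    exact le_trans (mul_le_mul_of_nonneg_left hsqC (by positivity)) hCen)
  have hcB := hcB' u huO (by
    unfold enB
    rw [hbO]
    have h1 : ∑ e ∈ bonds (patchO Γ R i) g', (u e.snd - u e.1) ^ 2 = a ^ 2 * ∑ e ∈ bonds (patchO Γ R i) g', w e ^ 2 := by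
      rw [Finset.mul_sum]
      exact Finset.sum_congr rfl fun e he => by rw [hgu e he]; ring
    rw [h1]
    exact le_trans (mul_le_mul_of_nonneg_left hsqO (by positivity)) hCen)
  have hAge := confEn_ge_enB a ha _ g'' cellRow u huC M hM0 hform
  have hBle := confEn_le_enB a ha (refine s (patchO Γ R i)) g'' cellRow u huO
  have hMa : a⁻¹ ^ 2 * M = 16 * Φ * Ct := by rw [hMdef]; field_simp
  rw [henC, hMa] at hAge
  have hposA := (confRatio_pos b hb (refine s (patchC Γ R i)) g'' 0 u).1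
  have hposB := (confRatio_pos b hb (refine s (patchO Γ R i)) g'' 0 u).1
  have hA : confRatio b (refine s (patchC Γ R i)) g'' cellRow 0 u ≤ Real.exp (-(q - 2 * η) / 2) := by
    rw [← Real.log_le_iff_le_exp hposA]
    have := (abs_le.1 hcA).1
    linarith
  have hBq : Real.exp (-(q + 2 * η) / 2) ≤ confRatio b (refine s (patchO Γ R i)) g'' cellRow 0 u := by
    rw [← Real.le_log_iff_exp_le hposB]
    have := (abs_le.1 hcB).2
    linarith
  unfold lossS
  rw [hA_eq, hB_eq]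
  exact loss_bound _ _ _ _ q η hq0 hη hA hBq hD hD'

theorem patch_fine_W (s : ℕ) (P : Patch m₁ m₂) : (P.fine s).W = fine s P.W := by
  simp [Patch.W, Patch.fine, fine_union]

theorem low_step (b : ℝ) (hb : 0 < b) (Γ : CGeom m₁ m₂) (hcut : Γ.cutF = ∅) (R : Fin r → Ray) (hR : RaysOk Γ R) (s : ℕ) (hs : 1 ≤ s)
    (g'' : DGrid (s * (16 * m₁)) (s * (16 * m₂))) (τ : Bond → ℤ) (v : ℤ × ℤ → ℝ) (i : Fin r) :
    confRatio b (refine s (stage Γ R (i.1 + 1))) g'' cellRow τ v - lossS b Γ R s g'' τ v i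
      ≤ confRatio b (refine s (stage Γ R i.1)) g'' cellRow τ v := by
  have h := strip_restore b hb (refine s (stage Γ R i.1)) ((R i).patch.fine s) (ray_patch_ok Γ hcut R hR i s hs) g'' τ v
  have eS : (((R i).patch : Patch (16 * m₁) (16 * m₂)).fine s).S = fineF s ((R i).lineF 2) := rfl
  have eb : (((R i).patch : Patch (16 * m₁) (16 * m₂)).fine s).bW = fineF s ((R i).lineF 7) := rfl
  have eH : (((R i).patch : Patch (16 * m₁) (16 * m₂)).fine s).H' = fine s ((R i).band 6 8) := rfl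
  have eHs : (((R i).patch : Patch (16 * m₁) (16 * m₂)).fine s).Hs = fine s ((R i).band 1 3) := rfl
  have ep : (((R i).patch : Patch (16 * m₁) (16 * m₂)).fine s).p = fine s ((R i).band 4 5) := rfl
  rw [patch_fine_W, eS, eb, eH, eHs, ep, ← fineF_union, ← refine_addCut, ← refine_addCut, ← refine_restr, ← refine_restr, ← stage_succ] at h
  rw [stage_succ] at h ⊢
  exact h

theorem low_chain (b : ℝ) (hb : 0 < b) (Γ : CGeom m₁ m₂) (hcut : Γ.cutF = ∅) (R : Fin r → Ray) (hR : RaysOk Γ R) (s : ℕ) (hs : 1 ≤ s)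
    (g'' : DGrid (s * (16 * m₁)) (s * (16 * m₂))) (τ : Bond → ℤ) (v : ℤ × ℤ → ℝ) (L : ℝ) (hL : ∀ i : Fin r, lossS b Γ R s g'' τ v i ≤ L)
    (k : ℕ) (hk : k ≤ r) :
    confRatio b (refine s (stage Γ R k)) g'' cellRow τ v - k * L ≤ confRatio b (refine s (stage Γ R 0)) g'' cellRow τ v := by
  induction k with
  | zero => simp
  | succ k ih =>
    have h1 := ih (Nat.le_of_succ_le hk)
    have h2 := low_step b hb Γ hcut R hR s hs g'' τ v ⟨k, hk⟩
    have h3 := hL ⟨k, hk⟩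
    push_cast
    simp only at h2
    linarith

theorem exists_eta (C₀ ε : ℝ) (hε : 0 < ε) (r : ℕ) : ∃ η : ℝ, 0 < η ∧ ∀ E : ℝ, E ≤ C₀ →
    Real.exp (-(E + ε) / 2) ≤ Real.exp (-(E + η) / 2) - r * (Real.exp (2 * η) - Real.exp (-η)) := by
  set G : ℝ → ℝ := fun η => Real.exp (-C₀ / 2) * (Real.exp (-η / 2) - Real.exp (-ε / 2)) - r * (Real.exp (2 * η) - Real.exp (-η)) with hG
  have hcont : Continuous G := by fun_prop
  have h0 : 0 < G 0 := by
    simp only [hG, neg_zero, zero_div, Real.exp_zero, mul_zero, sub_self, sub_zero]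
    have : Real.exp (-ε / 2) < 1 := Real.exp_lt_one_iff.2 (by linarith)
    exact mul_pos (Real.exp_pos _) (by linarith)
  have h1 : ∀ᶠ η in 𝓝 (0 : ℝ), 0 < G η := hcont.continuousAt.eventually (lt_mem_nhds h0)
  have h2 : ∀ᶠ η in 𝓝[>] (0 : ℝ), 0 < G η ∧ 0 < η := (h1.filter_mono nhdsWithin_le_nhds).and self_mem_nhdsWithin
  obtain ⟨η, hGη, hη⟩ := h2.exists
  refine ⟨η, hη, fun E hE => ?_⟩
  have h3 : 0 ≤ (r : ℝ) * (Real.exp (2 * η) - Real.exp (-η)) :=
    mul_nonneg (Nat.cast_nonneg _) (sub_nonneg.2 (Real.exp_le_exp.2 (by linarith)))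
  have h4 : 0 < Real.exp (-C₀ / 2) * (Real.exp (-η / 2) - Real.exp (-ε / 2)) := by
    simp only [hG] at hGη; linarith
  have h5 : 0 < Real.exp (-η / 2) - Real.exp (-ε / 2) := (mul_pos_iff_of_pos_left (Real.exp_pos _)).1 h4
  have h6 : Real.exp (-C₀ / 2) ≤ Real.exp (-E / 2) := Real.exp_le_exp.2 (by linarith)
  have h7 : Real.exp (-(E + η) / 2) - Real.exp (-(E + ε) / 2) = Real.exp (-E / 2) * (Real.exp (-η / 2) - Real.exp (-ε / 2)) := by
    rw [mul_sub, ← Real.exp_add, ← Real.exp_add]; congr 2 <;> ring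
  have h8 := mul_le_mul_of_nonneg_right h6 h5.le
  simp only [hG] at hGη
  linarith

/-- the lower bound for geometries whose pinned cells lie in `T` (needed by `sep_H'`) -/
theorem sector_lower_aux (b : ℝ) (hb : 0 < b) (ha : 0 < aLim b) {m₁ m₂ r : ℕ} (Γ : CGeom m₁ m₂) (hΓ : Γ.NoDiag)
    (hcut : Γ.cutF = ∅) (hpin : Γ.pin ⊆ Γ.T) (R : Fin r → Ray) (hR : RaysOk Γ R) (K : ℕ) (ε : ℝ) (hε : 0 < ε) :
    ∃ N : ℕ, ∀ (g : DGrid m₁ m₂) (ν : ℕ), N ≤ ν → Scale K g ν → secDefect b Γ g R ≤ ε := by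
  obtain ⟨C₀, hC₀⟩ := pot_sector_bdd (aLim b) ha Γ R hR K
  obtain ⟨C₁, K', c, hC₁, hc, hpig⟩ := line_pigeonhole (m₁ := m₁) (m₂ := m₂) 16 (by norm_num) K
  obtain ⟨η, hη, hηE⟩ := exists_eta |C₀| ε hε r
  obtain ⟨C₃, hC₃, htrace⟩ := trace_form (2 * K' + 1) (aLim b) ha
  have hai : 0 < (aLim b)⁻¹ := inv_pos.2 ha
  set C₄ : ℝ := 32 * C₁ * ((aLim b)⁻¹ * |C₀|) * C₃ with hC₄
  have hC₄0 : 0 ≤ C₄ := by positivity
  -- the refinement
  have hlocD : ∀ i : Fin r, ∃ s₀ : ℕ, ∀ s, s₀ ≤ s → ∃ N : ℕ, ∀ (g'' : DGrid (s * (16 * m₁)) (s * (16 * m₂))) (ν : ℕ), N ≤ ν → Scale (2 * K' + 1) g'' ν →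
      dCell b (refine s (patchC Γ R i)) g'' (fine s ((R i).band 1 3)) (fine s ((R i).band 4 5)) ≤ η := fun i =>
    localization_unif b hb ha (patchC Γ R i) (stage_reg Γ hΓ hcut R hR i.1 i).2.2 _ _
      (by rw [(patch_pin_empty Γ R i hR).1, Finset.union_empty]; exact sep_Hs (R i)) (2 * K' + 1) η hη
  have hlocD' : ∀ i : Fin r, ∃ s₀ : ℕ, ∀ s, s₀ ≤ s → ∃ N : ℕ, ∀ (g'' : DGrid (s * (16 * m₁)) (s * (16 * m₂))) (ν : ℕ), N ≤ ν → Scale (2 * K' + 1) g'' ν →
      dCell b (refine s (patchB Γ R i)) g'' (fine s ((R i).band 6 8)) (fine s ((R i).band 4 5)) ≤ η := fun i =>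
    localization_unif b hb ha (patchB Γ R i) (stage_reg Γ hΓ hcut R hR i.1 i).1 _ _ (sep_H' Γ R hR hpin i) (2 * K' + 1) η hη
  choose sD hsD using hlocD
  choose sD' hsD' using hlocD'
  obtain ⟨s₁, hs₁⟩ := exists_nat_ge (C₄ / η)
  set s : ℕ := max (max (Finset.univ.sup sD) (Finset.univ.sup sD')) (s₁ + 1) with hs
  have hs1 : 1 ≤ s := le_trans (Nat.succ_le_succ (Nat.zero_le _)) (le_max_right _ _)
  have hsR : (0 : ℝ) < s := by exact_mod_cast hs1
  have hC₄s : C₄ / s ≤ η := by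
    have h1 : C₄ / η ≤ s := hs₁.trans (by exact_mod_cast (Nat.le_succ _).trans (le_max_right _ _))
    rw [div_le_iff₀ hη] at h1
    rw [div_le_iff₀ hsR]; linarith
  have hND : ∀ i : Fin r, ∃ N : ℕ, ∀ (g'' : DGrid (s * (16 * m₁)) (s * (16 * m₂))) (ν : ℕ), N ≤ ν → Scale (2 * K' + 1) g'' ν →
      dCell b (refine s (patchC Γ R i)) g'' (fine s ((R i).band 1 3)) (fine s ((R i).band 4 5)) ≤ η := fun i =>
    hsD i s (le_trans (Finset.le_sup (Finset.mem_univ i)) (le_trans (le_max_left _ _) (le_max_left _ _)))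
  have hND' : ∀ i : Fin r, ∃ N : ℕ, ∀ (g'' : DGrid (s * (16 * m₁)) (s * (16 * m₂))) (ν : ℕ), N ≤ ν → Scale (2 * K' + 1) g'' ν →
      dCell b (refine s (patchB Γ R i)) g'' (fine s ((R i).band 6 8)) (fine s ((R i).band 4 5)) ≤ η := fun i =>
    hsD' i s (le_trans (Finset.le_sup (Finset.mem_univ i)) (le_trans (le_max_right _ _) (le_max_left _ _)))
  choose ND hND using hND
  choose ND' hND' using hND'
  obtain ⟨NX, hNX⟩ := conf_cost_unif b hb ha (refine s (stage Γ R r)) (noDiag_refine _ (stage_noDiag Γ hΓ hcut R hR r) s) (2 * K' + 1) (aLim b * |C₀|) η hη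
  have hNC := fun i : Fin r => conf_cost_unif b hb ha (refine s (patchC Γ R i)) (noDiag_refine _ (stage_reg Γ hΓ hcut R hR i.1 i).2.2 s) (2 * K' + 1) (aLim b * |C₀|) η hη
  have hNO := fun i : Fin r => conf_cost_unif b hb ha (refine s (patchO Γ R i)) (noDiag_refine _ (stage_reg Γ hΓ hcut R hR i.1 i).2.1 s) (2 * K' + 1) (aLim b * |C₀|) η hη
  choose NC hNC using hNC
  choose NO hNO using hNO
  set Nall : ℕ := max (max (Finset.univ.sup ND) (Finset.univ.sup ND')) (max NX (max (Finset.univ.sup NC) (Finset.univ.sup NO))) with hNall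
  obtain ⟨N₃, hN₃⟩ := exists_nat_ge (2 * C₁ * |C₀| / η)
  refine ⟨max (c * (s * (Nall + 1))) (N₃ + 1), fun g ν hν hsc => ?_⟩
  have hν1 : c * (s * (Nall + 1)) ≤ ν := le_trans (le_max_left _ _) hν
  have hν2 : N₃ + 1 ≤ ν := le_trans (le_max_right _ _) hν
  have hcpos : 0 < c := lt_of_lt_of_le Nat.zero_lt_one hc
  have hνc : c ≤ ν := le_trans (Nat.le_mul_of_pos_right c (Nat.mul_pos hs1 (Nat.succ_pos _))) hν1
  have hν0 : 1 ≤ ν := le_trans hc hνc
  have hνR : (0 : ℝ) < ν := by exact_mod_cast hν0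
  have hν' : s * (Nall + 1) ≤ ν / c := (Nat.le_div_iff_mul_le hcpos).2 (by rw [mul_comm]; exact hν1)
  have hν's : s ≤ ν / c := le_trans (Nat.le_mul_of_pos_right s (Nat.succ_pos _)) hν'
  have hn : Nall + 1 ≤ ν / c / s := (Nat.le_div_iff_mul_le hs1).2 (by rw [mul_comm]; exact hν')
  set n : ℕ := ν / c / s with hndef
  have hn1 : 1 ≤ n := le_trans (Nat.succ_le_succ (Nat.zero_le _)) hn
  have hnall : Nall ≤ n := le_trans (Nat.le_succ _) hn
  have hnsν : (n : ℝ) * s ≤ ν := by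
    have h1 : n * s ≤ ν / c := Nat.div_mul_le_self _ _
    have h2 : ν / c ≤ ν := Nat.div_le_self _ _
    exact_mod_cast h1.trans h2
  set τ := connB g R with hτ
  set D := g.region Γ.T with hD
  obtain ⟨v, w, hvpin, hw1, hw0, hE, hEτ, hEL⟩ := exists_min_flow (aLim b) ha Γ g τ
  rw [bonds_of_nocut Γ hcut g] at hw1 hw0 hE hEτ hEL
  set E := confEn (aLim b) Γ g noRow τ 0 with hEdef
  set W := ∑ e ∈ domBonds D ∅, w e ^ 2 with hW
  have hW0 : 0 ≤ W := Finset.sum_nonneg fun e _ => sq_nonneg _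
  have hEC : E ≤ |C₀| := by
    have h1 := hC₀ g ν hν0 hsc
    have h2 : (rlaw Γ g noRow).gEn (aLim b) (connR Γ g R) 0 = E := by
      have e : ((rlaw Γ g noRow).obs (onV Γ g (0 : ℤ × ℤ → ℝ))) = 0 := by funext o; exact o.elim0
      rw [hEdef]; unfold confEn; rw [e]; rfl
    rw [h2] at h1
    exact h1.trans (le_abs_self _)
  have hWE : W = (aLim b)⁻¹ * E := by rw [hE]; field_simp
  have hWC : W ≤ (aLim b)⁻¹ * |C₀| := by rw [hWE]; exact mul_le_mul_of_nonneg_left hEC hai.le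
  have hCen : aLim b ^ 2 * W ≤ aLim b * |C₀| := by
    have : aLim b ^ 2 * W = aLim b * E := by rw [hE]; ring
    rw [this]; exact mul_le_mul_of_nonneg_left hEC ha.le
  obtain ⟨g', hg', hsc', hgood⟩ := hpig g ν hνc hsc D w
  obtain ⟨g'', hg'', hsc''⟩ := exists_refine s hs1 K' g' (ν / c) hν's hsc'
  -- the losses
  set Φ : ℝ := 2 * (C₁ / ν) * W with hΦ
  have hΦ0 : 0 ≤ Φ := by positivity
  have hMη : 16 * Φ * (C₃ * n) ≤ η := by
    refine le_trans ?_ hC₄s
    have h1 : (n : ℝ) / ν ≤ 1 / s := by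
      rw [div_le_div_iff₀ hνR hsR]; linarith
    have h2 : 16 * Φ * (C₃ * n) = 32 * C₁ * W * C₃ * (n / ν) := by rw [hΦ]; field_simp; ring
    rw [h2, hC₄, div_eq_mul_one_div (32 * C₁ * ((aLim b)⁻¹ * |C₀|) * C₃)]
    have h3 : 32 * C₁ * W * C₃ ≤ 32 * C₁ * ((aLim b)⁻¹ * |C₀|) * C₃ :=
      mul_le_mul_of_nonneg_right (mul_le_mul_of_nonneg_left hWC (by positivity)) hC₃
    exact mul_le_mul h3 h1 (by positivity) (by positivity)
  have hSη : aLim b * Φ ≤ η := by
    have h1 : aLim b * Φ = 2 * C₁ * E / ν := by rw [hΦ, hWE]; field_simp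
    have h2 : 2 * C₁ * |C₀| / η ≤ ν := hN₃.trans (by exact_mod_cast (Nat.le_succ _).trans hν2)
    rw [div_le_iff₀ hη] at h2
    rw [h1, div_le_iff₀ hνR]
    have h3 : 2 * C₁ * E ≤ 2 * C₁ * |C₀| := mul_le_mul_of_nonneg_left hEC (by positivity)
    linarith
  have hL : ∀ i : Fin r, lossS b Γ R s g'' τ v i ≤ Real.exp (2 * η) - Real.exp (-η) := by
    intro i
    have hi1 : ND i ≤ n := le_trans (Finset.le_sup (Finset.mem_univ i)) (le_trans (le_trans (le_max_left _ _) (le_max_left _ _)) hnall)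
    have hi2 : ND' i ≤ n := le_trans (Finset.le_sup (Finset.mem_univ i)) (le_trans (le_trans (le_max_right _ _) (le_max_left _ _)) hnall)
    have hi3 : NC i ≤ n := le_trans (Finset.le_sup (Finset.mem_univ i))
      (le_trans (le_trans (le_max_left _ _) (le_trans (le_max_right _ _) (le_max_right _ _))) hnall)
    have hi4 : NO i ≤ n := le_trans (Finset.le_sup (Finset.mem_univ i))
      (le_trans (le_trans (le_max_right _ _) (le_trans (le_max_right _ _) (le_max_right _ _))) hnall)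
    exact low_loss b hb (aLim b) ha Γ hcut R hR g g' hg' s g'' hg'' v w hw1 hEL i η Φ (C₃ * n) hη.le (by positivity)
      (flux_lineF (R i) 2 (by norm_num) (by norm_num) g' D w (C₁ / ν) (by positivity) hgood)
      (flux_lineF (R i) 7 (by norm_num) (by norm_num) g' D w (C₁ / ν) (by positivity) hgood)
      (fun φ => htrace (refine s (patchC Γ R i)) g'' n hn1 hsc'' φ) hMη hSη (aLim b * |C₀|) hCen
      (hNC i g'' n hi3 hsc'') (hNO i g'' n hi4 hsc'') (hND i g'' n hi1 hsc'') (hND' i g'' n hi2 hsc'')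
  have hchain := low_chain b hb Γ hcut R hR s hs1 g'' τ v _ hL r le_rfl
  -- the bare ratio dominates the confined one
  have hF : confRatio b (refine s (stage Γ R 0)) g'' cellRow τ v ≤ confRatio b Γ g noRow τ 0 := by
    have h1 := conf_le_noRow b hb (refine s (stage Γ R 0)) g'' τ v 0
    rw [stage_zero, confRatio_refine b hg'', confRatio_refine b hg'] at h1
    rw [stage_zero]; exact h1
  -- the last stage: single valued lift
  have hbX : bonds (refine s (stage Γ R r)) g'' = domBonds D (crossB g' (Finset.univ.biUnion fun j => (R j).lineF 2)) := by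
    rw [bonds_refine hg'', stage_full]
    have h1 : bonds (addCut (refine 16 Γ) (Finset.univ.biUnion fun j => (R j).lineF 2)) g'
        = domBonds (g'.region (fine 16 Γ.T)) (crossB g' (fineF 16 Γ.cutF ∪ Finset.univ.biUnion fun j => (R j).lineF 2)) := rfl
    rw [h1, region_fine hg', hcut, fineF_empty, Finset.empty_union]
  have hpX : g''.region (refine s (stage Γ R r)).pin = g.region Γ.pin := by
    have h1 : g''.region (refine s (stage Γ R r)).pin = g'.region (fine 16 Γ.pin) := region_fine hg'' _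
    rw [h1, region_fine hg']
  have hψ2 : ∀ x ∈ g''.region (refine s (stage Γ R r)).pin, liftPot g' R 2 x = 0 := by
    intro x hx
    have h1 : g''.region (refine s (stage Γ R r)).pin = g'.region (fine 16 Γ.pin) := region_fine hg'' _
    rw [h1] at hx
    exact liftPot_pin Γ R hR g' 2 (by norm_num) x hx
  have hgr2 : ∀ e ∈ bonds (refine s (stage Γ R r)) g'', τ e = liftPot g' R 2 e.snd - liftPot g' R 2 e.1 := by
    intro e he
    rw [hbX] at he
    exact conn_eq_grad Γ hcut R hR g g' hg' 2 (by norm_num) (by norm_num) e he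
  set u₂ : ℤ × ℤ → ℝ := fun x => v x + 2 * Real.pi * (liftPot g' R 2 x : ℝ) with hu₂
  have hX_eq : confRatio b (refine s (stage Γ R r)) g'' cellRow τ v = confRatio b (refine s (stage Γ R r)) g'' cellRow 0 u₂ :=
    confRatio_lift b _ g'' cellRow τ v (liftPot g' R 2) hψ2 hgr2
  have hu₂pin : ∀ x ∈ g''.region (refine s (stage Γ R r)).pin, u₂ x = 0 := by
    intro x hx
    have h1 := hψ2 x hx
    rw [hpX] at hx
    simp only [hu₂, hvpin x hx, h1]; simp
  have henX : enB (refine s (stage Γ R r)) g'' u₂ ≤ aLim b ^ 2 * W := by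
    unfold enB
    have hsub : bonds (refine s (stage Γ R r)) g'' ⊆ domBonds D ∅ := by
      rw [hbX, domBonds_filter]; exact Finset.filter_subset _ _
    have h1 : ∑ e ∈ bonds (refine s (stage Γ R r)) g'', (u₂ e.snd - u₂ e.1) ^ 2 = aLim b ^ 2 * ∑ e ∈ bonds (refine s (stage Γ R r)) g'', w e ^ 2 := by
      rw [Finset.mul_sum]
      refine Finset.sum_congr rfl fun e he => ?_
      have h2 : u₂ e.snd - u₂ e.1 = aLim b * w e := by
        rw [hw1 e (hsub he), hgr2 e he, ← mul_assoc, mul_inv_cancel₀ ha.ne', one_mul]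
        simp only [hu₂]; push_cast; ring
      rw [h2]; ring
    rw [h1]
    exact mul_le_mul_of_nonneg_left (Finset.sum_le_sum_of_subset_of_nonneg hsub fun e _ _ => sq_nonneg _) (by positivity)
  have hNXn : NX ≤ n := le_trans (le_trans (le_max_left _ _) (le_max_right _ _)) hnall
  have hcX := hNX g'' n hNXn hsc'' u₂ hu₂pin (henX.trans hCen)
  have hcXle := confEn_le_enB (aLim b) ha (refine s (stage Γ R r)) g'' cellRow u₂ hu₂pin
  have hEX : (aLim b)⁻¹ * enB (refine s (stage Γ R r)) g'' u₂ ≤ E := by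
    have h1 : (aLim b)⁻¹ * (aLim b ^ 2 * W) = E := by rw [hE]; field_simp
    rw [← h1]; exact mul_le_mul_of_nonneg_left henX hai.le
  have hposX := (confRatio_pos b hb (refine s (stage Γ R r)) g'' 0 u₂).1
  have hXge : Real.exp (-(E + η) / 2) ≤ confRatio b (refine s (stage Γ R r)) g'' cellRow 0 u₂ := by
    rw [← Real.le_log_iff_exp_le hposX]
    have := (abs_le.1 hcX).2
    linarith
  -- conclusion
  have hfin : Real.exp (-(E + ε) / 2) ≤ confRatio b Γ g noRow τ 0 := by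
    have h1 := hηE E hEC
    rw [hX_eq] at hchain
    linarith
  have hposF := (confRatio_pos b hb Γ g τ 0).2.2.1
  rw [← Real.le_log_iff_exp_le hposF] at hfin
  rw [secDefect_eq_conf]
  linarith

/-- pinned cells outside `T` carry no site: reduction to `sector_lower_aux` -/
theorem sector_lower_unif (b : ℝ) (hb : 0 < b) (ha : 0 < aLim b) {m₁ m₂ r : ℕ} (Γ : CGeom m₁ m₂) (hΓ : Γ.NoDiag)
    (hcut : Γ.cutF = ∅) (R : Fin r → Ray) (hR : RaysOk Γ R) (K : ℕ) (ε : ℝ) (hε : 0 < ε) :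
    ∃ N : ℕ, ∀ (g : DGrid m₁ m₂) (ν : ℕ), N ≤ ν → Scale K g ν → secDefect b Γ g R ≤ ε := by
  obtain ⟨N, hN⟩ := sector_lower_aux b hb ha (pinT Γ) (noDiag_pinT Γ hΓ) hcut (pinT_pin_sub Γ) R (raysOk_pinT Γ R hR) K ε hε
  exact ⟨N, fun g ν hν hsc => (secDefect_pinT b Γ g R) ▸ hN g ν hν hsc⟩

end

end Claimed.Agent.R285.Sec
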