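import Claimed.Agent.R285.Sec.Defs
import Claimed.Agent.R285.Pot.DecLaw
import Claimed.Agent.R285.Pot.DecGeo

/-!
# ROW 285, POT-SEC-LOC, file 1: the law `rlaw Γ g cellRow` (one unit observation per cell) as an instance of the decay core (architect helper126).   Paper-free.

ANY geometry `Γ : CGeom m₁ m₂` (cells, cuts; no hypothesis), any grid `g` with `Scale K g ν`, `1 ≤ ν`, any set of pins `P`:
* `locAmb Γ g ν : PdAmb (Γ.graph g).V (Cell m₁ m₂)`: `blk` = the cell of a site, `adj = geoAdj` (index sup-distance `≤ 1`), `cut J` = `geo_cutoff`.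
* `locGr Γ g P = pdLawGr (rlaw Γ g cellRow) P locCel`.
* **`loc_grOk`** : `PdGrOk (locAmb Γ g ν) (locGr Γ g P) (ν²)⁻¹ K² 1 1 4`,   **`loc_res`** : resolution with `CR = 2 K²`.
* **`loc_gPin_le`** : `gPin a ∅ (sites A) (sites A') ≤ m₁ m₂ pdE(r) (M + (16/3)(2 Kc CR)²)/2` if the index distance of `A`, `A'` is `≥ r + 4`.
-/

set_option autoImplicit false

namespace Claimed.Agent.R285.Sec

open S23 Pot
open scoped Classical

noncomputable section

/-- change of the decidability instance -/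
theorem loc_ite_congr {p q : Prop} {dp : Decidable p} {dq : Decidable q} (h : p ↔ q) (a b : ℝ) : @ite ℝ p dp a b = @ite ℝ q dq a b :=
  @if_congr ℝ p q dp dq a b a b h rfl rfl

theorem loc_of_mem_filter {α : Type} {p : α → Prop} {dp : DecidablePred p} {s : Finset α} {a : α} (h : a ∈ @Finset.filter α p dp s) : p a :=
  ((@Finset.mem_filter α p dp s a).1 h).2

/-- the bond energy of a cell, in the form of `PdGrOk` -/
def locCellEn {V I : Type} (A : PdAmb V I) (Gr : PdGr V I) (i : I) (v : V → ℝ) : ℝ :=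
  ∑ e, if A.blk (Gr.src e) = i ∧ A.blk (Gr.tgt e) = i then Gr.grad v e ^ 2 else 0

/-- the row energy of a cell, in the form of `PdGrOk` -/
def locCellObs {V I : Type} [Fintype V] (Gr : PdGr V I) (i : I) (v : V → ℝ) : ℝ :=
  ∑ o, if Gr.cel o = i then Gr.obs v o ^ 2 else 0

/-- the degree of a site, in the form of `PdGrOk` -/
def locDeg {V I : Type} (Gr : PdGr V I) (x : V) : ℕ := (Finset.univ.filter fun e => Gr.src e = x ∨ Gr.tgt e = x).card

variable {m₁ m₂ : ℕ} (Γ : CGeom m₁ m₂) (g : DGrid m₁ m₂)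

/-- position of a site -/
def locPos (x : (Γ.graph g).V) : ℤ × ℤ := domPos (D := g.region Γ.T) (cut := Γ.cutB g) x

theorem loc_pos_mem (x : (Γ.graph g).V) : locPos Γ g x ∈ g.region Γ.T :=
  Subtype.property (p := fun v => v ∈ g.region Γ.T) x

/-- the cell of a site -/
def locBlk (x : (Γ.graph g).V) : Cell m₁ m₂ := (Finset.mem_biUnion.1 (loc_pos_mem Γ g x)).choose

/-- the cutoffs on `ℤ²` -/
def locCut (ν : ℕ) (J : Set (Cell m₁ m₂)) : ℤ × ℤ → ℝ :=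
  if h : 1 ≤ ν ∧ g.SideGe ν then (geo_cutoff g h.1 h.2 J).choose else 0

/-- the ambient data -/
def locAmb (ν : ℕ) : PdAmb (Γ.graph g).V (Cell m₁ m₂) where
  blk := locBlk Γ g
  adj := geoAdj
  cut J x := locCut g ν J (locPos Γ g x)

/-- extension by zero of a field to `ℤ²` -/
def locExt (v : (Γ.graph g).V → ℝ) : ℤ × ℤ → ℝ := fun p => if h : p ∈ g.region Γ.T then v ⟨p, h⟩ else 0

/-- the cell of an observation row -/
def locCel (o : Fin (m₁ * m₂)) : Cell m₁ m₂ := finProdFinEquiv.symm o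

/-- the graph data -/
def locGr (P : Set (Γ.graph g).V) : PdGr (Γ.graph g).V (Cell m₁ m₂) := pdLawGr (rlaw Γ g cellRow) P locCel

theorem loc_defs_cite : True := by
  have := @locPos.eq_1; have := @locBlk.eq_1; have := @locCut.eq_1; have := @locAmb.eq_1; have := @locExt.eq_1
  have := @locCel.eq_1; have := @locGr.eq_1; have := @locCellEn.eq_1; have := @locCellObs.eq_1; have := @locDeg.eq_1; trivial

/-! ## A. transfer between the graph and `ℤ²` (`L-LOC-TR`) -/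

theorem loc_blk_spec (x : (Γ.graph g).V) : locBlk Γ g x ∈ Γ.T ∧ locPos Γ g x ∈ g.cell (locBlk Γ g x) :=
  (Finset.mem_biUnion.1 (loc_pos_mem Γ g x)).choose_spec

theorem loc_blk_eq_iff (x : (Γ.graph g).V) (κ : Cell m₁ m₂) : locBlk Γ g x = κ ↔ locPos Γ g x ∈ g.cell κ :=
  ⟨fun h => h ▸ (loc_blk_spec Γ g x).2, fun h => geo_cell_unique g (loc_blk_spec Γ g x).2 h⟩

theorem loc_cell_subset {κ : Cell m₁ m₂} (hκ : κ ∈ Γ.T) : g.cell κ ⊆ g.region Γ.T :=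
  Finset.subset_biUnion_of_mem g.cell hκ

theorem loc_sum_V (F : ℤ × ℤ → ℝ) : ∑ x : (Γ.graph g).V, F (locPos Γ g x) = ∑ p ∈ g.region Γ.T, F p :=
  (Finset.sum_subtype (g.region Γ.T) (fun _ => Iff.rfl) F).symm

theorem loc_sum_E (F : Bond → ℝ) :
    ∑ e : (Γ.graph g).E, F (domBond (D := g.region Γ.T) (cut := Γ.cutB g) e) = ∑ e ∈ domBonds (g.region Γ.T) (Γ.cutB g), F e :=
  (Finset.sum_subtype (domBonds (g.region Γ.T) (Γ.cutB g)) (fun _ => Iff.rfl) F).symm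

theorem loc_ext_pos (v : (Γ.graph g).V → ℝ) (x : (Γ.graph g).V) : locExt Γ g v (locPos Γ g x) = v x := by
  unfold locExt
  rw [dif_pos (loc_pos_mem Γ g x)]
  rfl

theorem loc_pos_src (e : (Γ.graph g).E) : locPos Γ g ((Γ.graph g).src e) = (domBond (D := g.region Γ.T) (cut := Γ.cutB g) e).1 := rfl

theorem loc_pos_tgt (e : (Γ.graph g).E) : locPos Γ g ((Γ.graph g).tgt e) = (domBond (D := g.region Γ.T) (cut := Γ.cutB g) e).snd := rfl

/-- sums over the sites of a set of positions -/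
theorem loc_sum_sub {S : Finset (ℤ × ℤ)} (hS : S ⊆ g.region Γ.T) (F : ℤ × ℤ → ℝ) :
    ∑ x : (Γ.graph g).V, (if locPos Γ g x ∈ S then F (locPos Γ g x) else 0) = ∑ p ∈ S, F p := by
  rw [loc_sum_V Γ g (fun p => if p ∈ S then F p else 0), Finset.sum_ite_mem, Finset.inter_eq_right.2 hS]

/-- sums over the sites of a cell -/
theorem loc_sum_cell {κ : Cell m₁ m₂} (hκ : κ ∈ Γ.T) (F : ℤ × ℤ → ℝ) :
    ∑ x : (Γ.graph g).V, (if locBlk Γ g x = κ then F (locPos Γ g x) else 0) = ∑ p ∈ g.cell κ, F p := by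
  rw [← loc_sum_sub Γ g (loc_cell_subset Γ g hκ) F]
  refine Finset.sum_congr rfl fun x _ => ?_
  simp only [loc_blk_eq_iff]

theorem loc_l2 (ν : ℕ) {κ : Cell m₁ m₂} (hκ : κ ∈ Γ.T) (v : (Γ.graph g).V → ℝ) :
    (locAmb Γ g ν).l2 {κ} v = ∑ p ∈ g.cell κ, locExt Γ g v p ^ 2 := by
  rw [← loc_sum_cell Γ g hκ fun p => locExt Γ g v p ^ 2]
  refine Finset.sum_congr rfl fun x _ => ?_
  rw [loc_ext_pos]
  exact loc_ite_congr Iff.rfl _ _

theorem loc_l2_not (ν : ℕ) {κ : Cell m₁ m₂} (hκ : κ ∉ Γ.T) (v : (Γ.graph g).V → ℝ) : (locAmb Γ g ν).l2 {κ} v = 0 := by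
  refine Finset.sum_eq_zero fun x _ => if_neg fun h => hκ ?_
  have h' : locBlk Γ g x = κ := h
  exact h' ▸ (loc_blk_spec Γ g x).1

/-- the bonds inside a cell -/
theorem loc_bonds_cell {κ : Cell m₁ m₂} (hκ : κ ∈ Γ.T) :
    (domBonds (g.region Γ.T) (Γ.cutB g)).filter (fun e => e.1 ∈ g.cell κ ∧ e.snd ∈ g.cell κ) = domBonds (g.cell κ) ∅ := by
  ext e
  simp only [domBonds, Finset.mem_filter, Finset.mem_product, Finset.mem_univ, and_true, Set.mem_empty_iff_false, not_false_eq_true]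
  constructor
  · rintro ⟨_, h1, h2⟩
    exact ⟨h1, h2⟩
  · rintro ⟨h1, h2⟩
    exact ⟨⟨loc_cell_subset Γ g hκ h1, loc_cell_subset Γ g hκ h2, geo_cell_not_cut g Γ h1 h2⟩, h1, h2⟩

theorem loc_en_cell {κ : Cell m₁ m₂} (hκ : κ ∈ Γ.T) (v : (Γ.graph g).V → ℝ) :
    (∑ e : (Γ.graph g).E, if locBlk Γ g ((Γ.graph g).src e) = κ ∧ locBlk Γ g ((Γ.graph g).tgt e) = κ
      then (v ((Γ.graph g).tgt e) - v ((Γ.graph g).src e)) ^ 2 else 0) = geoEn (g.cell κ) (locExt Γ g v) := by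
  rw [geoEn, ← loc_bonds_cell Γ g hκ, Finset.sum_filter,
    ← loc_sum_E Γ g fun e => if e.1 ∈ g.cell κ ∧ e.snd ∈ g.cell κ then (locExt Γ g v e.snd - locExt Γ g v e.1) ^ 2 else 0]
  refine Finset.sum_congr rfl fun e _ => ?_
  simp only [loc_blk_eq_iff, loc_pos_src, loc_pos_tgt]
  rw [← loc_pos_src, ← loc_pos_tgt, loc_ext_pos, loc_ext_pos]

theorem loc_mem_sites (A : Finset (Cell m₁ m₂)) (x : (Γ.graph g).V) : x ∈ Γ.sites g A ↔ locBlk Γ g x ∈ A := by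
  have h0 : x ∈ Γ.sites g A ↔ locPos Γ g x ∈ g.region A := Iff.rfl
  rw [h0, DGrid.region, Finset.mem_biUnion]
  constructor
  · rintro ⟨κ, hκ, hx⟩
    rwa [(loc_blk_eq_iff Γ g x κ).2 hx]
  · intro h
    exact ⟨_, h, (loc_blk_spec Γ g x).2⟩

/-- the rows -/
theorem loc_B (o : Fin (m₁ * m₂)) (x : (Γ.graph g).V) :
    (rlaw Γ g cellRow).B o x = if locBlk Γ g x = locCel o then ((g.cell (locCel o)).card : ℝ)⁻¹ else 0 := by
  have h1 : (rlaw Γ g cellRow).B o x = ∑ κ, cellRow o κ * Γ.avgRow g {κ} x := rfl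
  rw [h1, Finset.sum_eq_single (locCel o)]
  · have h2 : cellRow o (locCel o) = 1 := if_pos rfl
    rw [h2, one_mul]
    unfold CGeom.avgRow
    by_cases h : locBlk Γ g x = locCel o
    · have hx : x ∈ Γ.sites g {locCel o} := (loc_mem_sites Γ g _ x).2 (Finset.mem_singleton.2 h)
      have hT : locCel o ∈ Γ.T := h ▸ (loc_blk_spec Γ g x).1
      have h3 : ({locCel o} ∩ Γ.T : Finset (Fin m₁ × Fin m₂)) = {locCel o} :=
        Finset.inter_eq_left.2 (Finset.singleton_subset_iff.2 hT)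
      rw [if_pos hx, if_pos h, h3, DGrid.region, Finset.singleton_biUnion]
    · have hx : x ∉ Γ.sites g {locCel o} := fun hx => h (Finset.mem_singleton.1 ((loc_mem_sites Γ g _ x).1 hx))
      rw [if_neg hx, if_neg h]
  · intro κ _ hκ
    have h2 : cellRow o κ = 0 := if_neg hκ
    rw [h2, zero_mul]
  · intro h
    exact absurd (Finset.mem_univ _) h

theorem loc_obs {o : Fin (m₁ * m₂)} (hκ : locCel o ∈ Γ.T) (v : (Γ.graph g).V → ℝ) :
    (rlaw Γ g cellRow).obs v o = ((g.cell (locCel o)).card : ℝ)⁻¹ * ∑ p ∈ g.cell (locCel o), locExt Γ g v p := by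
  rw [Finset.mul_sum, ← loc_sum_cell Γ g hκ fun p => ((g.cell (locCel o)).card : ℝ)⁻¹ * locExt Γ g v p]
  refine Finset.sum_congr rfl fun x _ => ?_
  rw [loc_B, loc_ext_pos, ite_mul, zero_mul]

theorem loc_obs_not {o : Fin (m₁ * m₂)} (hκ : locCel o ∉ Γ.T) (v : (Γ.graph g).V → ℝ) : (rlaw Γ g cellRow).obs v o = 0 := by
  refine Finset.sum_eq_zero fun x _ => ?_
  have h : ¬ locBlk Γ g x = locCel o := fun h => hκ (h ▸ (loc_blk_spec Γ g x).1)
  rw [loc_B, if_neg h, zero_mul]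

theorem loc_sum_obs (i : Cell m₁ m₂) (F : Fin (m₁ * m₂) → ℝ) : ∑ o, (if locCel o = i then F o else 0) = F (finProdFinEquiv i) := by
  rw [Finset.sum_eq_single (finProdFinEquiv i)]
  · rw [if_pos (by simp [locCel])]
  · intro o _ ho
    refine if_neg fun h => ho ?_
    rw [← h, locCel, Equiv.apply_symm_apply]
  · intro h
    exact absurd (Finset.mem_univ _) h

theorem loc_cel_equiv (i : Cell m₁ m₂) : locCel (finProdFinEquiv i) = i := by simp [locCel]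

theorem loc_deg (P : Set (Γ.graph g).V) (x : (Γ.graph g).V) : locDeg (locGr Γ g P) x ≤ 4 := by
  refine le_trans ?_ (geo_deg (g.region Γ.T) (Γ.cutB g) (locPos Γ g x))
  refine Finset.card_le_card_of_injOn (fun e => domBond (D := g.region Γ.T) (cut := Γ.cutB g) e) ?_ ?_
  · intro e he
    have he' : (Γ.graph g).src e = x ∨ (Γ.graph g).tgt e = x :=
      loc_of_mem_filter (p := fun e => (locGr Γ g P).src e = x ∨ (locGr Γ g P).tgt e = x) (Finset.mem_coe.1 he)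
    refine Finset.mem_coe.2 (Finset.mem_filter.2 ⟨Subtype.property (p := fun e => e ∈ domBonds (g.region Γ.T) (Γ.cutB g)) e, ?_⟩)
    rcases he' with h | h
    · exact Or.inl (by rw [← h]; rfl)
    · exact Or.inr (by rw [← h]; rfl)
  · intro e _ e' _ h
    exact Subtype.ext h

theorem loc_cellEn (ν : ℕ) (P : Set (Γ.graph g).V) {κ : Cell m₁ m₂} (hκ : κ ∈ Γ.T) (v : (Γ.graph g).V → ℝ) :
    locCellEn (locAmb Γ g ν) (locGr Γ g P) κ v = geoEn (g.cell κ) (locExt Γ g v) :=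
  (Finset.sum_congr rfl fun _ _ => loc_ite_congr Iff.rfl _ _).trans (loc_en_cell Γ g hκ v)

theorem loc_cellObs (P : Set (Γ.graph g).V) (κ : Cell m₁ m₂) (v : (Γ.graph g).V → ℝ) :
    locCellObs (locGr Γ g P) κ v = (rlaw Γ g cellRow).obs v (finProdFinEquiv κ) ^ 2 :=
  (Finset.sum_congr rfl fun _ _ => loc_ite_congr Iff.rfl _ _).trans (loc_sum_obs κ fun o => (rlaw Γ g cellRow).obs v o ^ 2)

/-! ## B. the structure constants -/

variable {g}

theorem loc_cut_spec {ν : ℕ} (hν : 1 ≤ ν) (hg : g.SideGe ν) (J : Set (Cell m₁ m₂)) :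
    (∀ x, 0 ≤ locCut g ν J x ∧ locCut g ν J x ≤ 1) ∧ (∀ κ ∈ J, ∀ x ∈ g.cell κ, locCut g ν J x = 1) ∧
      (∀ κ, (∀ κ' ∈ J, ¬ geoAdj κ κ') → ∀ x ∈ g.cell κ, locCut g ν J x = 0) ∧
      (∀ e : Bond, (locCut g ν J e.snd - locCut g ν J e.1) ^ 2 ≤ ((ν : ℝ) ^ 2)⁻¹) ∧
      ∀ x y : ℤ × ℤ, |locCut g ν J x - locCut g ν J y| ≤ dist x y / ν := by
  unfold locCut
  rw [dif_pos ⟨hν, hg⟩]
  exact (geo_cutoff g hν hg J).choose_spec

theorem loc_amb_ok {ν : ℕ} (hν : 1 ≤ ν) (hg : g.SideGe ν) : (locAmb Γ g ν).Ok where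
  adj_refl := geo_adj_refl
  adj_symm := fun _ _ => geo_adj_symm
  cut_mem := fun J _ => (loc_cut_spec hν hg J).1 _
  cut_one := fun J x hx => (loc_cut_spec hν hg J).2.1 _ hx _ (loc_blk_spec Γ g x).2
  cut_zero := fun J x hx =>
    (loc_cut_spec hν hg J).2.2.1 (locBlk Γ g x) (fun κ' hκ' hadj => hx ⟨κ', hκ', hadj⟩) _ (loc_blk_spec Γ g x).2

/-- cell Poincaré with the average -/
theorem loc_poincare {ν K : ℕ} (hν : 1 ≤ ν) (hg : Scale K g ν) (κ : Cell m₁ m₂) (f : ℤ × ℤ → ℝ) :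
    ((ν : ℝ) ^ 2)⁻¹ * ∑ p ∈ g.cell κ, f p ^ 2
      ≤ (K : ℝ) ^ 2 * (geoEn (g.cell κ) f + (((g.cell κ).card : ℝ)⁻¹ * ∑ p ∈ g.cell κ, f p) ^ 2) := by
  have hm := geo_poincare_mean (L := K * ν) (hg.2.1 κ.1) (hg.2.2 κ.2) f
  rw [← geo_cell_eq] at hm
  have hN1 := geo_cell_card_ge g hg.1 κ
  have hN2 := geo_cell_card_le g hg.2 κ
  have hE := geo_en_nonneg (g.cell κ) f
  have hν' : (1 : ℝ) ≤ ν := by exact_mod_cast hν
  have hν2 : (0 : ℝ) < (ν : ℝ) ^ 2 := by positivity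
  set N : ℝ := ((g.cell κ).card : ℝ)
  set S : ℝ := ∑ p ∈ g.cell κ, f p
  set E : ℝ := geoEn (g.cell κ) f
  have hN : 0 < N := lt_of_lt_of_le hν2 hN1
  push_cast at hm hN2
  have hK : (0 : ℝ) ≤ (K : ℝ) * ν := by positivity
  have h1 : (K : ℝ) * ν * ((K : ℝ) * ν - 1) * E ≤ ((K : ℝ) * ν) ^ 2 * E :=
    mul_le_mul_of_nonneg_right (by nlinarith) hE
  have h2 : N⁻¹ * S ^ 2 = N * (N⁻¹ * S) ^ 2 := by
    field_simp
  have h3 : N * (N⁻¹ * S) ^ 2 ≤ ((K : ℝ) * ν) ^ 2 * (N⁻¹ * S) ^ 2 := mul_le_mul_of_nonneg_right hN2 (sq_nonneg _)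
  rw [inv_mul_le_iff₀ hν2]
  have h4 : (ν : ℝ) ^ 2 * ((K : ℝ) ^ 2 * (E + (N⁻¹ * S) ^ 2)) = ((K : ℝ) * ν) ^ 2 * E + ((K : ℝ) * ν) ^ 2 * (N⁻¹ * S) ^ 2 := by ring
  linarith

/-- the average is bounded by the normalised `L²` norm -/
theorem loc_row_le {ν : ℕ} (hν : 1 ≤ ν) (hg : g.SideGe ν) (κ : Cell m₁ m₂) (f : ℤ × ℤ → ℝ) :
    (((g.cell κ).card : ℝ)⁻¹ * ∑ p ∈ g.cell κ, f p) ^ 2 ≤ ((ν : ℝ) ^ 2)⁻¹ * ∑ p ∈ g.cell κ, f p ^ 2 := by
  have hN1 := geo_cell_card_ge g hg κ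
  have hcs := sq_sum_le_card_mul_sum_sq (s := g.cell κ) (f := f)
  have hν' : (1 : ℝ) ≤ ν := by exact_mod_cast hν
  have hν2 : (0 : ℝ) < (ν : ℝ) ^ 2 := by positivity
  have hF : 0 ≤ ∑ p ∈ g.cell κ, f p ^ 2 := Finset.sum_nonneg fun _ _ => sq_nonneg _
  set N : ℝ := ((g.cell κ).card : ℝ)
  set S : ℝ := ∑ p ∈ g.cell κ, f p
  set F : ℝ := ∑ p ∈ g.cell κ, f p ^ 2
  have hN : 0 < N := lt_of_lt_of_le hν2 hN1
  have h1 : (N⁻¹ * S) ^ 2 ≤ N⁻¹ * F := by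
    have h2 : (N⁻¹ * S) ^ 2 = N⁻¹ * (N⁻¹ * S ^ 2) := by ring
    rw [h2]
    refine mul_le_mul_of_nonneg_left ?_ (inv_pos.2 hN).le
    rw [inv_mul_le_iff₀ hN]
    exact hcs
  exact h1.trans (mul_le_mul_of_nonneg_right (inv_anti₀ hν2 hN1) hF)

theorem loc_cellEn_nonneg {V I : Type} (A : PdAmb V I) (Gr : PdGr V I) (i : I) (v : V → ℝ) : 0 ≤ locCellEn A Gr i v :=
  Finset.sum_nonneg fun e _ => by
    split_ifs
    · exact sq_nonneg _
    · exact le_rfl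

/-- **the structure constants of `rlaw Γ g cellRow`** -/
theorem loc_grOk (P : Set (Γ.graph g).V) {ν K : ℕ} (hν : 1 ≤ ν) (hg : Scale K g ν) :
    PdGrOk (locAmb Γ g ν) (locGr Γ g P) ((ν : ℝ) ^ 2)⁻¹ ((K : ℝ) ^ 2) 1 1 4 where
  amb := loc_amb_ok Γ hν hg.1
  σ_pos := by
    have hν' : (1 : ℝ) ≤ ν := by exact_mod_cast hν
    positivity
  CP_nonneg := by positivity
  CN_nonneg := zero_le_one
  K_nonneg := zero_le_one
  row_supp := fun o x h => by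
    by_contra hne
    have hne' : ¬ locBlk Γ g x = locCel o := hne
    exact h ((loc_B Γ g o x).trans (if_neg hne'))
  edge_adj := fun e =>
    geo_cell_bond g (e := domBond (D := g.region Γ.T) (cut := Γ.cutB g) e) (loc_blk_spec Γ g _).2 (loc_blk_spec Γ g _).2
  deg := loc_deg Γ g P
  poincare := fun i v _ => by
    show _ ≤ _ * (locCellEn (locAmb Γ g ν) (locGr Γ g P) i v + locCellObs (locGr Γ g P) i v)
    by_cases hi : i ∈ Γ.T
    · rw [loc_l2 Γ g ν hi, loc_cellEn Γ g ν P hi, loc_cellObs, loc_obs Γ g (by rwa [loc_cel_equiv]), loc_cel_equiv]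
      exact loc_poincare hν hg i _
    · rw [loc_l2_not Γ g ν hi, mul_zero, loc_cellObs]
      exact mul_nonneg (by positivity) (add_nonneg (loc_cellEn_nonneg _ _ _ _) (sq_nonneg _))
  row_le := fun i v => by
    show locCellObs (locGr Γ g P) i v ≤ _
    rw [one_mul, loc_cellObs]
    by_cases hi : i ∈ Γ.T
    · rw [loc_l2 Γ g ν hi, loc_obs Γ g (by rwa [loc_cel_equiv]), loc_cel_equiv]
      exact loc_row_le hν hg.1 i _
    · rw [loc_l2_not Γ g ν hi, mul_zero, loc_obs_not Γ g (by rwa [loc_cel_equiv])]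
      norm_num
  cut_lip := fun J e => by
    rw [one_mul]
    exact (loc_cut_spec hν hg.1 J).2.2.2.1 (domBond (D := g.region Γ.T) (cut := Γ.cutB g) e)

/-- the constants of the decay core for `rlaw Γ g cellRow` -/
def locCP (K : ℕ) (a : ℝ) : ℝ := (K : ℝ) ^ 2 * max 1 a

def locK (a : ℝ) : ℝ := 2 * 1 * ((4 : ℕ) : ℝ) * a⁻¹ + 1

def locCR (K : ℕ) (a : ℝ) : ℝ := 2 * (K : ℝ) ^ 2 * a

theorem loc_ok (P : Set (Γ.graph g).V) {ν K : ℕ} (hν : 1 ≤ ν) (hg : Scale K g ν) {a : ℝ} (ha : 0 < a) :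
    PdOk (locAmb Γ g ν) ((locGr Γ g P).sys (locAmb Γ g ν) a) ((ν : ℝ) ^ 2)⁻¹ (locCP K a) (locK a) :=
  pd_ok_graph (loc_grOk Γ P hν hg) ha

/-- **resolution** -/
theorem loc_res (P : Set (Γ.graph g).V) {ν K : ℕ} (hν : 1 ≤ ν) (hg : Scale K g ν) {a : ℝ} (ha : 0 < a) :
    PdRes (locAmb Γ g ν) ((locGr Γ g P).sys (locAmb Γ g ν) a) ((ν : ℝ) ^ 2)⁻¹ (locCR K a) := by
  refine pd_res_graph (CR := 2 * (K : ℝ) ^ 2) (by positivity) ha fun k i => ?_
  show ∃ ℓ : Fin (4 ^ k) → ((Γ.graph g).V → ℝ) →ₗ[ℝ] ℝ, ∀ v, (∀ x ∈ (locGr Γ g P).pin, v x = 0) → (∀ j, ℓ j v = 0) →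
    _ ≤ _ * locCellEn (locAmb Γ g ν) (locGr Γ g P) i v
  have hν' : (1 : ℝ) ≤ ν := by exact_mod_cast hν
  have hν2 : (0 : ℝ) < (ν : ℝ) ^ 2 := by positivity
  by_cases hi : i ∈ Γ.T
  · obtain ⟨B, hB, hres⟩ := geo_res_rect (W := K * ν) (hg.2.1 i.1) (hg.2.2 i.2) k
    rw [← geo_cell_eq] at hB hres
    refine ⟨fun j => pdRowF fun x => if locPos Γ g x ∈ B j then 1 else 0, fun v _ hv => ?_⟩
    rw [loc_l2 Γ g ν hi, loc_cellEn Γ g ν P hi]
    have h1 := hres (locExt Γ g v) fun j => by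
      have h2 : ∑ x, (if locPos Γ g x ∈ B j then (1 : ℝ) else 0) * v x = 0 := hv j
      rw [← loc_sum_sub Γ g ((hB j).trans (loc_cell_subset Γ g hi))]
      refine Eq.trans (Finset.sum_congr rfl fun x _ => ?_) h2
      rw [loc_ext_pos, ite_mul, one_mul, zero_mul]
    rw [inv_mul_le_iff₀ hν2]
    refine h1.trans (le_of_eq ?_)
    push_cast
    ring
  · refine ⟨fun _ => 0, fun v _ _ => ?_⟩
    rw [loc_l2_not Γ g ν hi, mul_zero]
    exact mul_nonneg (by positivity) (loc_cellEn_nonneg _ _ _ _)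

/-! ## C. two far unions of cells -/

/-- the index distance to a set of cells, truncated at `R` -/
def locRho (A : Finset (Cell m₁ m₂)) (R : ℕ) (κ : Cell m₁ m₂) : ℕ :=
  Nat.find (⟨R, Or.inl le_rfl⟩ : ∃ d, R ≤ d ∨ ∃ κ' ∈ A, geoDist κ κ' ≤ d)

theorem loc_rho_spec (A : Finset (Cell m₁ m₂)) (R : ℕ) (κ : Cell m₁ m₂) :
    R ≤ locRho A R κ ∨ ∃ κ' ∈ A, geoDist κ κ' ≤ locRho A R κ :=
  Nat.find_spec (⟨R, Or.inl le_rfl⟩ : ∃ d, R ≤ d ∨ ∃ κ' ∈ A, geoDist κ κ' ≤ d)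

theorem loc_rho_le (A : Finset (Cell m₁ m₂)) (R : ℕ) (κ : Cell m₁ m₂) {d : ℕ} (h : R ≤ d ∨ ∃ κ' ∈ A, geoDist κ κ' ≤ d) :
    locRho A R κ ≤ d :=
  Nat.find_min' (⟨R, Or.inl le_rfl⟩ : ∃ d, R ≤ d ∨ ∃ κ' ∈ A, geoDist κ κ' ≤ d) h

theorem loc_rho_lay (A : Finset (Cell m₁ m₂)) (R : ℕ) {i j : Cell m₁ m₂} (h : geoAdj i j) : locRho A R i ≤ locRho A R j + 1 := by
  refine loc_rho_le A R i ?_
  rcases loc_rho_spec A R j with h1 | ⟨κ', hκ', h1⟩
  · exact Or.inl (by omega)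
  · refine Or.inr ⟨κ', hκ', ?_⟩
    have h2 := geo_dist_triangle i j κ'
    have h3 := (geo_adj_iff i j).1 h
    omega

theorem loc_rho_zero {A : Finset (Cell m₁ m₂)} (R : ℕ) {κ : Cell m₁ m₂} (h : κ ∈ A) : locRho A R κ = 0 :=
  Nat.le_zero.1 (loc_rho_le A R κ (Or.inr ⟨κ, h, (geo_dist_self κ).le⟩))

theorem loc_rho_ge {A : Finset (Cell m₁ m₂)} {R : ℕ} {κ : Cell m₁ m₂} (h : ∀ κ' ∈ A, R ≤ geoDist κ κ') : R ≤ locRho A R κ := by
  rcases loc_rho_spec A R κ with h1 | ⟨κ', hκ', h1⟩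
  · exact h1
  · exact (h κ' hκ').trans h1

theorem loc_defs2_cite : True := by
  have := @locRho.eq_1; have := @locCP.eq_1; have := @locK.eq_1; have := @locCR.eq_1; trivial

/-- **the Gaussian pin interaction of two unions of cells at index distance `≥ r + 4`, under one unit observation per cell.**   Any geometry, any grid at scale `ν ≥ 1`; the constants depend only on `K`, `a`. -/
theorem loc_gPin_le {ν K : ℕ} (hν : 1 ≤ ν) (hg : Scale K g ν) {a : ℝ} (ha : 0 < a) (A A' : Finset (Cell m₁ m₂)) {r : ℕ} (hr : 1 ≤ r)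
    (hsep : ∀ κ ∈ A, ∀ κ' ∈ A', r + 4 ≤ geoDist κ' κ) :
    (rlaw Γ g cellRow).gPin a ∅ (Γ.sites g A) (Γ.sites g A')
      ≤ ((m₁ * m₂ : ℕ) : ℝ) * pdE (locCP K a) (locK a) r * (pdM (locCP K a) (locK a) + 16 / 3 * (2 * locK a * locCR K a) ^ 2) / 2 := by
  have hok := loc_ok Γ ∅ hν hg ha
  have hres := loc_res Γ ∅ hν hg ha
  have hCR : 0 ≤ locCR K a := by unfold locCR; positivity
  have hlay : (locAmb Γ g ν).Lay (locRho A (r + 4)) := fun i j h => loc_rho_lay A (r + 4) h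
  have h0 : ∀ i ∈ (locAmb Γ g ν).cellsV (Γ.sites g A), locRho A (r + 4) i = 0 := by
    rintro i ⟨x, hx, rfl⟩
    exact loc_rho_zero _ ((loc_mem_sites Γ g A x).1 hx)
  have h4 : (locAmb Γ g ν).cellsV (Γ.sites g A') ⊆ (locAmb Γ g ν).far (locRho A (r + 4)) (r + 4) := by
    rintro i ⟨x, hx, rfl⟩
    exact loc_rho_ge fun κ hκ => hsep κ hκ _ ((loc_mem_sites Γ g A' x).1 hx)
  have hQ : (locAmb Γ g ν).nb ((locAmb Γ g ν).nb ((locAmb Γ g ν).nb ((locAmb Γ g ν).nb ((locAmb Γ g ν).cellsV (Γ.sites g A')))))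
      ⊆ (locAmb Γ g ν).far (locRho A (r + 4)) r :=
    ((pd_nb_mono _ ((pd_nb_mono _ ((pd_nb_mono _ ((pd_nb_mono _ h4).trans (pd_nb_far hok hlay (r + 3)))).trans
      (pd_nb_far hok hlay (r + 2)))).trans (pd_nb_far hok hlay (r + 1)))).trans (pd_nb_far hok hlay r))
  have hmain := pd_law_gPin_le (H := rlaw Γ g cellRow) (cel := locCel) ha hok hCR hres (Γ.sites g A) (Γ.sites g A')
    (fun _ _ h => h) hlay h0 hr (Finset.univ.filter fun κ => r ≤ locRho A (r + 4) κ)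
    (fun i hi => Finset.mem_coe.2 (Finset.mem_filter.2 ⟨Finset.mem_univ _, hQ hi⟩))
    (fun i hi => (Finset.mem_filter.1 (Finset.mem_coe.1 hi)).2)
  refine hmain.trans ?_
  have hcard : ((Finset.univ.filter fun κ : Cell m₁ m₂ => r ≤ locRho A (r + 4) κ).card : ℝ) ≤ ((m₁ * m₂ : ℕ) : ℝ) := by
    have h1 := Finset.card_filter_le (Finset.univ : Finset (Cell m₁ m₂)) fun κ => r ≤ locRho A (r + 4) κ
    have h2 : (Finset.univ : Finset (Cell m₁ m₂)).card = m₁ * m₂ := by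
      rw [Finset.card_univ, Fintype.card_prod, Fintype.card_fin, Fintype.card_fin]
    rw [h2] at h1
    exact_mod_cast h1
  have hE := pdE_nonneg (locCP K a) (locK a) r
  have hM := pd_pdM_two_le hok
  have hC : 0 ≤ pdM (locCP K a) (locK a) + 16 / 3 * (2 * locK a * locCR K a) ^ 2 := by positivity
  have := mul_le_mul_of_nonneg_right (mul_le_mul_of_nonneg_right hcard hE) hC
  linarith

end

end Claimed.Agent.R285.Sec
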