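import Claimed.Agent.R285.Sec.StripM
import Claimed.Agent.R285.Sec.PinKit

/-!
# ROW 285, layer Sec, leaf file Strip: THE FINITE CORE OF [S]P3.4 (03-sectors.tex l.434-585; also [F]L3.2).      Paper-free: `Base/Height` + `Sec/Fin`.
Notation: `o, c` = `zG` on the geometry before / after cutting `S`; `ow, cw` = the same on the patch `W` alone; `c'` = `zG` with `S ∪ bW` cut; capital letters = totals `zT`; index `0` = centred, zero data.
FACTS.  (T) `zG_total`.  (M) `zG_markov`: `o(u) cw(u) = c(u) ow(u)`.  (P) `zG_prod`: `c'(u) = cw(u) ρ`.  (C) `zG_cut_le` = `cut_comparison` for the law `addPin`.  (E) `pin_event_mono`: `c₀/C⁰ ≤ o₀/O⁰`.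
(D) `pin_density`: `P_res(p=0) ≤ P_res(p=0 | A=0) = P_cut(p=0 | A=0) = e^{D_cut(A,p)} P_cut(p=0)` (first step `lsys_event_mono`; second: with `A` pinned every restored bond has weight `p_b(0)`).
ALGEBRA (`strip_algebra`).  `d₀ = ow₀/cw₀ = o₀/c₀`, `K(u) = ow(u)/cw(u) = o(u)/c(u) ≤ d₀` (C on the patch).   `F_op = O/O⁰ ≥ O/(d₀ C⁰)` by (E) `= F_cut - L`,  `L = ∑ (c(u)/C⁰)(1 - K(u)/d₀)`;
`c(u)/C⁰ = (c(u)/c₀)(c₀/C⁰) ≤ (c'(u)/c'₀) e^{D'} (c'₀/C'⁰)` by (C), (D);  `c'(u)/C'⁰ = (cw(u)/CW⁰)(ρ/ρ⁰) ≤ cw(u)/CW⁰`;  `∑ (cw(u)/CW⁰)(1 - K/d₀) = F_cutW - OW/(d₀ CW⁰)`,  `OW/(d₀ CW⁰) = F_opW · OW⁰/(d₀ CW⁰) ≥ F_opW e^{-D}` by (D) on the patch.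
PLAN for (T), (M), (P): all laws are `Proper` (`rlaw_ok_cell_pin`), pass to height variables by `HLaw.Z_eq_w`; the weight is a product over bonds and cells; every bond and every cell lies in one block; `Summable.tsum_mul_tsum`, `Equiv.tsum_eq`.
One general lemma suffices, `zG_split`: if `T = I ⊔ p ⊔ O` and no uncut face joins `I` and `O` then `zG_T(u) zG_p(u) = zG_{I ∪ p}(u) zG_{p ∪ O}(u)`.
-/

set_option autoImplicit false

namespace Claimed.Agent.R285.Sec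

open Filter Topology S23
open scoped Classical

noncomputable section

variable {m₁ m₂ : ℕ}

theorem zT_pos (b : ℝ) (hb : 0 < b) (Γ : CGeom m₁ m₂) (g : DGrid m₁ m₂) (τ : Bond → ℤ) (v : ℤ × ℤ → ℝ) : 0 < zT b Γ g τ v :=
  sec_w_pos _ (rlaw_ok_cell Γ g b hb) _

theorem zG_pos (b : ℝ) (hb : 0 < b) (Γ : CGeom m₁ m₂) (g : DGrid m₁ m₂) (p : Finset (Cell m₁ m₂)) (τ : Bond → ℤ) (v : ℤ × ℤ → ℝ)
    (u : ℤ × ℤ → ℤ) : 0 < zG b Γ g p τ v u :=
  sec_w_pos _ (rlaw_ok_cell_pin Γ g b hb _).1 _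

theorem confRatio_eq (b : ℝ) (Γ : CGeom m₁ m₂) (g : DGrid m₁ m₂) (τ : Bond → ℤ) (v : ℤ × ℤ → ℝ) :
    confRatio b Γ g cellRow τ v = zT b Γ g τ v / zT b Γ g 0 0 := by
  rw [sec_zT_zero]
  rfl

theorem sm_sites_union (Γ : CGeom m₁ m₂) (g : DGrid m₁ m₂) (A p : Finset (Cell m₁ m₂)) : Γ.sites g A ∪ Γ.sites g p = Γ.sites g (A ∪ p) := by
  ext x
  show (domPos x ∈ (↑(g.region A) : Set (ℤ × ℤ)) ∨ domPos x ∈ (↑(g.region p) : Set (ℤ × ℤ))) ↔ domPos x ∈ (↑(g.region (A ∪ p)) : Set (ℤ × ℤ))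
  rw [sm_region_union, Finset.coe_union, Set.mem_union]

/-- the pin interaction through partition sums -/
theorem dCell_eq (b : ℝ) (hb : 0 < b) (Γ : CGeom m₁ m₂) (g : DGrid m₁ m₂) (A p : Finset (Cell m₁ m₂)) :
    Real.exp (dCell b Γ g A p) = zG b Γ g (A ∪ p) 0 0 0 * zT b Γ g 0 0 / (zG b Γ g A 0 0 0 * zG b Γ g p 0 0 0) := by
  unfold dCell
  rw [sec_exp_dPin _ b (rlaw_ok_cell Γ g b hb) (rlaw_proper_cell Γ g), sm_sites_union, sec_zG_zero, sec_zG_zero, sec_zG_zero, sec_zT_zero]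

/-- (T) total probability over the guard data (the guard lies in the geometry and carries no own pin) -/
theorem zG_total (b : ℝ) (hb : 0 < b) (Γ : CGeom m₁ m₂) (g : DGrid m₁ m₂) (p : Finset (Cell m₁ m₂)) (hpT : p ⊆ Γ.T) (hp : Disjoint p Γ.pin)
    (τ : Bond → ℤ) (v : ℤ × ℤ → ℝ) : HasSum (fun u : Dat g p => zG b Γ g p τ v u.1) (zT b Γ g τ v) := by
  obtain ⟨e1, e2⟩ := sm_free_total Γ g p hpT hp
  have hs := zG_summable b hb Γ g ∅ τ v 0
  rw [← e1] at hs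
  have h := zs_total b g (bonds Γ g) Γ.T (g.region p) (freeS Γ g p) e2 τ v hs
  rw [e1, ← zG_eq_zs b hb, ← zT_eq_zG] at h
  simp only [← zG_eq_zs b hb] at h
  exact h

/-- the general splitting at a full guard: `T = I ⊔ p ⊔ O`, no uncut face between `I` and `O`. -/
theorem zG_split (b : ℝ) (hb : 0 < b) (Γ : CGeom m₁ m₂) (g : DGrid m₁ m₂) (I p O : Finset (Cell m₁ m₂))
    (hT : Γ.T = I ∪ p ∪ O) (h1 : Disjoint I p) (h2 : Disjoint I O) (h3 : Disjoint p O)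
    (hsep : ∀ (f : CFace m₁ m₂) (κ' : Cell m₁ m₂), FaceNbr f κ' → f ∉ Γ.cutF → ¬ (f.1 ∈ I ∧ κ' ∈ O) ∧ ¬ (f.1 ∈ O ∧ κ' ∈ I))
    (τ : Bond → ℤ) (v : ℤ × ℤ → ℝ) (u : ℤ × ℤ → ℤ) :
    zG b Γ g p τ v u * zG b (restr Γ p) g p τ v u = zG b (restr Γ (I ∪ p)) g p τ v u * zG b (restr Γ (p ∪ O)) g p τ v u := by
  have e : (I ∪ p) ∩ (p ∪ O) = p := by
    ext κ
    have a2 := @Finset.disjoint_left _ I O
    simp only [Finset.mem_inter, Finset.mem_union]
    constructor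
    · rintro ⟨h | h, h' | h'⟩
      · exact h'
      · exact absurd h' (Finset.disjoint_left.1 h2 h)
      · exact h
      · exact h
    · intro h
      exact ⟨Or.inr h, Or.inl h⟩
  have h := zG_split2 b hb Γ g p (I ∪ p) (p ∪ O) (by
      rw [hT]
      intro κ hκ
      simp only [Finset.mem_union] at hκ ⊢
      tauto) (by
      rw [Finset.inter_assoc, e]
      exact Finset.inter_subset_right) (by
      intro f κ' hf hc hfT hκT
      have := hsep f κ' hf hc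
      rw [hT] at hfT hκT
      simp only [Finset.mem_union] at hfT hκT ⊢
      tauto) τ v u
  rw [e] at h
  exact h

/-- (M) the restoration factor at prescribed guard data is computed in the patch alone -/
theorem zG_markov (b : ℝ) (hb : 0 < b) (Γ : CGeom m₁ m₂) (P : Patch m₁ m₂) (hP : P.Ok Γ) (g : DGrid m₁ m₂)
    (τ : Bond → ℤ) (v : ℤ × ℤ → ℝ) (u : ℤ × ℤ → ℤ) :
    zG b Γ g P.p τ v u * zG b (restr (addCut Γ P.S) P.W) g P.p τ v u
      = zG b (addCut Γ P.S) g P.p τ v u * zG b (restr Γ P.W) g P.p τ v u := by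
  obtain ⟨hWT, hIp, hIJ, hpJ, -, hHs, -, -, hS, -, hsep, -⟩ := hP
  have hW : P.W = P.I ∪ P.p ∪ P.J := rfl
  set O : Finset (Cell m₁ m₂) := Γ.T \ (P.I ∪ P.p) with hO
  have hIT : P.I ⊆ Γ.T := fun κ hκ => hWT (by rw [hW]; simp [hκ])
  have hpT : P.p ⊆ Γ.T := fun κ hκ => hWT (by rw [hW]; simp [hκ])
  have hJT : P.J ⊆ Γ.T := fun κ hκ => hWT (by rw [hW]; simp [hκ])
  have hT : Γ.T = P.I ∪ P.p ∪ O := by
    rw [hO, Finset.union_sdiff_of_subset (Finset.union_subset hIT hpT)]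
  have hIO : Disjoint P.I O := by
    rw [Finset.disjoint_left]
    intro κ hκ hκO
    rw [hO, Finset.mem_sdiff] at hκO
    exact hκO.2 (Finset.mem_union_left _ hκ)
  have hpO : Disjoint P.p O := by
    rw [Finset.disjoint_left]
    intro κ hκ hκO
    rw [hO, Finset.mem_sdiff] at hκO
    exact hκO.2 (Finset.mem_union_right _ hκ)
  have hOT : O ⊆ Γ.T := Finset.sdiff_subset
  have sep1 : ∀ (f : CFace m₁ m₂) (κ' : Cell m₁ m₂), FaceNbr f κ' → f ∉ Γ.cutF → ¬ (f.1 ∈ P.I ∧ κ' ∈ O) ∧ ¬ (f.1 ∈ O ∧ κ' ∈ P.I) := by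
    intro f κ' hf hc
    constructor
    · rintro ⟨h1, h2⟩
      have := (hsep f κ' hf hc (hIT h1) (hOT h2)).1 h1
      rw [hO, Finset.mem_sdiff] at h2
      exact h2.2 this
    · rintro ⟨h1, h2⟩
      have := (hsep f κ' hf hc (hOT h1) (hIT h2)).2.1 h2
      rw [hO, Finset.mem_sdiff] at h1
      exact h1.2 this
  have sep2 : ∀ (f : CFace m₁ m₂) (κ' : Cell m₁ m₂), FaceNbr f κ' → f ∉ Γ.cutF → ¬ (f.1 ∈ P.I ∧ κ' ∈ P.J) ∧ ¬ (f.1 ∈ P.J ∧ κ' ∈ P.I) := by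
    intro f κ' hf hc
    constructor
    · rintro ⟨h1, h2⟩
      have := (hsep f κ' hf hc (hIT h1) (hJT h2)).1 h1
      rcases Finset.mem_union.1 this with h | h
      · exact Finset.disjoint_left.1 hIJ h h2
      · exact Finset.disjoint_left.1 hpJ h h2
    · rintro ⟨h1, h2⟩
      have := (hsep f κ' hf hc (hJT h1) (hIT h2)).2.1 h2
      rcases Finset.mem_union.1 this with h | h
      · exact Finset.disjoint_left.1 hIJ h h1
      · exact Finset.disjoint_left.1 hpJ h h1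
  have notS : ∀ f, f ∉ (addCut Γ P.S).cutF → f ∉ Γ.cutF := fun f hf h => hf (Finset.mem_union_left _ h)
  have hTW : (restr Γ P.W).T = P.I ∪ P.p ∪ P.J := Finset.inter_eq_right.2 hWT
  -- the four splittings
  have a := zG_split b hb Γ g P.I P.p O hT hIp hIO hpO sep1 τ v u
  have a' := zG_split b hb (addCut Γ P.S) g P.I P.p O hT hIp hIO hpO (fun f κ' hf hc => sep1 f κ' hf (notS f hc)) τ v u
  have c := zG_split b hb (restr Γ P.W) g P.I P.p P.J hTW hIp hIJ hpJ sep2 τ v u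
  have c' := zG_split b hb (restr (addCut Γ P.S) P.W) g P.I P.p P.J hTW hIp hIJ hpJ (fun f κ' hf hc => sep2 f κ' hf (notS f hc)) τ v u
  have s1 : P.p ⊆ P.W := fun κ hκ => by rw [hW]; simp [hκ]
  have s2 : P.I ∪ P.p ⊆ P.W := fun κ hκ => by rw [hW]; exact Finset.mem_union_left _ hκ
  have s3 : P.p ∪ P.J ⊆ P.W := fun κ hκ => by
    rw [hW]
    simp only [Finset.mem_union] at hκ ⊢
    tauto
  rw [restr_restr_of_subset _ s1, restr_restr_of_subset _ s2, restr_restr_of_subset _ s3] at c c'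
  -- the cut `S` is seen only in `I`
  have off : ∀ X : Finset (Cell m₁ m₂), Disjoint P.I X → zG b (restr (addCut Γ P.S) X) g P.p τ v u = zG b (restr Γ X) g P.p τ v u := by
    intro X hX
    refine zG_addCut_restr b hb Γ g P.S X P.p (fun f hf κ' hκ' h => ?_) τ v u
    exact Finset.disjoint_left.1 hX (hHs (hS f hf κ' hκ').1) (Finset.mem_inter.1 h.1).2
  rw [off P.p hIp, off (P.p ∪ O) (Finset.disjoint_union_right.2 ⟨hIp, hIO⟩)] at a'
  rw [off P.p hIp, off (P.p ∪ P.J) (Finset.disjoint_union_right.2 ⟨hIp, hIJ⟩)] at c'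
  have hq := zG_pos b hb (restr Γ P.p) g P.p τ v u
  have key : (zG b Γ g P.p τ v u * zG b (restr (addCut Γ P.S) P.W) g P.p τ v u) * (zG b (restr Γ P.p) g P.p τ v u * zG b (restr Γ P.p) g P.p τ v u)
      = (zG b (addCut Γ P.S) g P.p τ v u * zG b (restr Γ P.W) g P.p τ v u) * (zG b (restr Γ P.p) g P.p τ v u * zG b (restr Γ P.p) g P.p τ v u) := by
    calc _ = (zG b Γ g P.p τ v u * zG b (restr Γ P.p) g P.p τ v u) * (zG b (restr (addCut Γ P.S) P.W) g P.p τ v u * zG b (restr Γ P.p) g P.p τ v u) := by ring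
      _ = (zG b (addCut Γ P.S) g P.p τ v u * zG b (restr Γ P.p) g P.p τ v u) * (zG b (restr Γ P.W) g P.p τ v u * zG b (restr Γ P.p) g P.p τ v u) := by
          rw [a, c', a', c]; ring
      _ = _ := by ring
  exact mul_right_cancel₀ (mul_pos hq hq).ne' key

/-- the isolated patch factors off, general guard inside the patch -/
theorem zG_prod_aux (b : ℝ) (hb : 0 < b) (Γ : CGeom m₁ m₂) (P : Patch m₁ m₂) (hP : P.Ok Γ) (g : DGrid m₁ m₂) (p : Finset (Cell m₁ m₂)) (hp : p ⊆ P.W)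
    (τ : Bond → ℤ) (v : ℤ × ℤ → ℝ) (u : ℤ × ℤ → ℤ) (hu : ∀ x, x ∉ g.region p → u x = 0) :
    zG b (addCut Γ (P.S ∪ P.bW)) g p τ v u
      = zG b (restr (addCut Γ P.S) P.W) g p τ v u * zT b (restr (addCut Γ (P.S ∪ P.bW)) (Γ.T \ P.W)) g τ v := by
  obtain ⟨-, -, -, -, -, -, -, -, -, -, hsep, hbW⟩ := hP
  have e0 : P.W ∩ (Γ.T \ P.W) = ∅ := by
    rw [← Finset.disjoint_iff_inter_eq_empty]
    exact Finset.disjoint_sdiff
  have h := zG_split2 b hb (addCut Γ (P.S ∪ P.bW)) g p P.W (Γ.T \ P.W) (by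
      intro κ hκ
      have hκ' : κ ∈ Γ.T := hκ
      by_cases hw : κ ∈ P.W
      · exact Finset.mem_union_left _ hw
      · exact Finset.mem_union_right _ (Finset.mem_sdiff.2 ⟨hκ', hw⟩)) (by
      rw [Finset.inter_assoc, e0, Finset.inter_empty]
      exact Finset.empty_subset _) (by
      intro f κ' hf hc hfT hκT
      have hfT' : f.1 ∈ Γ.T := hfT
      have hκT' : κ' ∈ Γ.T := hκT
      have hc1 : f ∉ Γ.cutF := fun h => hc (Finset.mem_union_left _ h)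
      have hc2 : f ∉ P.bW := fun h => hc (Finset.mem_union_right _ (Finset.mem_union_right _ h))
      have h3 := (hsep f κ' hf hc1 hfT' hκT').2.2
      by_cases h1 : f.1 ∈ P.W <;> by_cases h2 : κ' ∈ P.W
      · exact Or.inl ⟨h1, h2⟩
      · exact absurd (h3 (Or.inl ⟨h1, h2⟩)) hc2
      · exact absurd (h3 (Or.inr ⟨h1, h2⟩)) hc2
      · exact Or.inr ⟨Finset.mem_sdiff.2 ⟨hfT', h1⟩, Finset.mem_sdiff.2 ⟨hκT', h2⟩⟩) τ v u
  rw [e0, zG_restr_empty b hb, mul_one] at h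
  rw [h]
  congr 1
  · rw [show addCut Γ (P.S ∪ P.bW) = addCut (addCut Γ P.S) P.bW by simp [addCut, Finset.union_assoc]]
    exact zG_addCut_restr b hb (addCut Γ P.S) g P.bW P.W p
      (fun f hf κ' hκ' h => hbW f hf κ' hκ' ⟨(Finset.mem_inter.1 h.1).2, (Finset.mem_inter.1 h.2).2⟩) τ v u
  · refine zG_off b hb _ g p ?_ τ v u hu
    rw [Finset.disjoint_left]
    intro κ hκ hκ'
    have : κ ∈ Γ.T ∩ (Γ.T \ P.W) := hκ'
    exact (Finset.mem_sdiff.1 (Finset.mem_inter.1 this).2).2 (hp hκ)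

/-- (P) the isolated patch factors off -/
theorem zG_prod (b : ℝ) (hb : 0 < b) (Γ : CGeom m₁ m₂) (P : Patch m₁ m₂) (hP : P.Ok Γ) (g : DGrid m₁ m₂)
    (τ : Bond → ℤ) (v : ℤ × ℤ → ℝ) (u : ℤ × ℤ → ℤ) (hu : ∀ x, x ∉ g.region P.p → u x = 0) :
    zG b (addCut Γ (P.S ∪ P.bW)) g P.p τ v u
      = zG b (restr (addCut Γ P.S) P.W) g P.p τ v u * zT b (restr (addCut Γ (P.S ∪ P.bW)) (Γ.T \ P.W)) g τ v ∧
    zT b (addCut Γ (P.S ∪ P.bW)) g τ v
      = zT b (restr (addCut Γ P.S) P.W) g τ v * zT b (restr (addCut Γ (P.S ∪ P.bW)) (Γ.T \ P.W)) g τ v := by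
  refine ⟨zG_prod_aux b hb Γ P hP g P.p (fun κ hκ => Finset.mem_union_left _ (Finset.mem_union_right _ hκ)) τ v u hu, ?_⟩
  rw [zT_eq_zG b (addCut Γ (P.S ∪ P.bW)), zT_eq_zG b (restr (addCut Γ P.S) P.W)]
  exact zG_prod_aux b hb Γ P hP g ∅ (Finset.empty_subset _) τ v 0 (fun _ _ => rfl)

/-- (C) [S]L2.8 at prescribed absolute guard data -/
theorem zG_cut_le (b : ℝ) (hb : 0 < b) (Γ : CGeom m₁ m₂) (F : Finset (CFace m₁ m₂)) (g : DGrid m₁ m₂) (p : Finset (Cell m₁ m₂))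
    (τ : Bond → ℤ) (v : ℤ × ℤ → ℝ) (u : ℤ × ℤ → ℤ) :
    zG b Γ g p τ v u / zG b Γ g p 0 0 0 ≤ zG b (addCut Γ F) g p τ v u / zG b (addCut Γ F) g p 0 0 0 := by
  rw [sec_zG_zero, sec_zG_zero]
  exact cut_comparison (D := g.region Γ.T) (cut := Γ.cutB g) (sec_cutB_mono Γ F g) ((rlaw Γ g cellRow).addPin (Γ.sites g p)) b
    (rlaw_ok_cell_pin Γ g b hb _).1 (rlaw_ok_cell_pin (addCut Γ F) g b hb _).1 u τ ((rlaw Γ g cellRow).obs (onV Γ g v))

/-- (E) the probability of the centred guard pin increases when bonds are restored -/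
theorem pin_event_mono (b : ℝ) (hb : 0 < b) (Γ : CGeom m₁ m₂) (F : Finset (CFace m₁ m₂)) (g : DGrid m₁ m₂) (p : Finset (Cell m₁ m₂)) :
    zG b (addCut Γ F) g p 0 0 0 / zT b (addCut Γ F) g 0 0 ≤ zG b Γ g p 0 0 0 / zT b Γ g 0 0 := by
  rw [sec_zG_zero, sec_zG_zero, sec_zT_zero, sec_zT_zero]
  exact sec_pin_recut (D := g.region Γ.T) (cut := Γ.cutB g) (sec_cutB_mono Γ F g) (rlaw Γ g cellRow) b
    (rlaw_ok_cell Γ g b hb) (rlaw_ok_cell (addCut Γ F) g b hb) (rlaw_proper_cell (addCut Γ F) g) (Γ.sites g p)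

/-- (D) = [C]L3.9 (3.30), upper half, at zero data: all restored faces have both cells in `A`. -/
theorem pin_density (b : ℝ) (hb : 0 < b) (Γ : CGeom m₁ m₂) (F : Finset (CFace m₁ m₂)) (g : DGrid m₁ m₂) (A p : Finset (Cell m₁ m₂))
    (hF : ∀ f ∈ F, ∀ κ', FaceNbr f κ' → f.1 ∈ A ∧ κ' ∈ A) :
    zG b Γ g p 0 0 0 / zT b Γ g 0 0 ≤ Real.exp (dCell b (addCut Γ F) g A p) * (zG b (addCut Γ F) g p 0 0 0 / zT b (addCut Γ F) g 0 0) := by
  rw [sec_zG_zero, sec_zG_zero, sec_zT_zero, sec_zT_zero]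
  unfold dCell
  rw [sec_exp_dPin _ b (rlaw_ok_cell (addCut Γ F) g b hb) (rlaw_proper_cell (addCut Γ F) g)]
  have hok := rlaw_ok_cell Γ g b hb
  have hok' := rlaw_ok_cell (addCut Γ F) g b hb
  have hK := sec_pin_assoc (rlaw Γ g cellRow) b hok (rlaw_proper_cell Γ g) (Γ.sites g A) (Γ.sites g p)
  obtain ⟨c, hc, hA, hAp⟩ : ∃ c : ℝ, 0 < c ∧
      (((rlaw Γ g cellRow).addPin (Γ.sites g A)).sys b).w 0 = c * (((rlaw (addCut Γ F) g cellRow).addPin ((addCut Γ F).sites g A)).sys b).w 0 ∧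
      (((rlaw Γ g cellRow).addPin (Γ.sites g A ∪ Γ.sites g p)).sys b).w 0
        = c * (((rlaw (addCut Γ F) g cellRow).addPin ((addCut Γ F).sites g A ∪ (addCut Γ F).sites g p)).sys b).w 0 :=
    ⟨_, pow_pos (bes_pos b hb 0) _,
      sec_w_recut (D := g.region Γ.T) (cut := Γ.cutB g) (sec_cutB_mono Γ F g) (rlaw Γ g cellRow) b
        (rlaw_proper_cell Γ g) (rlaw_proper_cell (addCut Γ F) g) (Γ.sites g A) (sec_restored_ends Γ F g A hF),
      sec_w_recut (D := g.region Γ.T) (cut := Γ.cutB g) (sec_cutB_mono Γ F g) (rlaw Γ g cellRow) b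
        (rlaw_proper_cell Γ g) (rlaw_proper_cell (addCut Γ F) g) (Γ.sites g A ∪ Γ.sites g p)
        (fun e he => ⟨Or.inl (sec_restored_ends Γ F g A hF e he).1, Or.inl (sec_restored_ends Γ F g A hF e he).2⟩)⟩
  have h0 := sec_w_pos _ hok 0
  have h0' := sec_w_pos _ hok' 0
  have hp := sec_w_pos _ (sec_addPin_ok _ b hok (Γ.sites g p)) 0
  have hp' := sec_w_pos _ (sec_addPin_ok _ b hok' ((addCut Γ F).sites g p)) 0
  have hA' := sec_w_pos _ (sec_addPin_ok _ b hok' ((addCut Γ F).sites g A)) 0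
  have hAp' := sec_w_pos _ (sec_addPin_ok _ b hok' ((addCut Γ F).sites g A ∪ (addCut Γ F).sites g p)) 0
  rw [hA, hAp] at hK
  set w0 := ((rlaw Γ g cellRow).sys b).w 0
  set w0' := ((rlaw (addCut Γ F) g cellRow).sys b).w 0
  set wp := (((rlaw Γ g cellRow).addPin (Γ.sites g p)).sys b).w 0
  set wp' := (((rlaw (addCut Γ F) g cellRow).addPin ((addCut Γ F).sites g p)).sys b).w 0
  set wA' := (((rlaw (addCut Γ F) g cellRow).addPin ((addCut Γ F).sites g A)).sys b).w 0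
  set wAp' := (((rlaw (addCut Γ F) g cellRow).addPin ((addCut Γ F).sites g A ∪ (addCut Γ F).sites g p)).sys b).w 0
  have e : wAp' * w0' / (wA' * wp') * (wp' / w0') = wAp' / wA' := by field_simp
  rw [e, div_le_div_iff₀ h0 hA']
  have : c * (wp * wA') ≤ c * (wAp' * w0) := by linarith
  exact le_of_mul_le_mul_left this hc

/-- the algebra of the proof of [S]P3.4, for abstract positive families -/
theorem strip_algebra {U : Type} (o c ow cw c' : U → ℝ) (O C OW CW O0 C0 OW0 CW0 C'0 o0 c0 ow0 cw0 c'0 ρ ρ0 D D' : ℝ)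
    (ho : ∀ u, 0 < o u) (hc : ∀ u, 0 < c u) (how : ∀ u, 0 < ow u) (hcw : ∀ u, 0 < cw u)
    (hpos : 0 < O0 ∧ 0 < C0 ∧ 0 < OW0 ∧ 0 < CW0 ∧ 0 < C'0 ∧ 0 < o0 ∧ 0 < c0 ∧ 0 < ow0 ∧ 0 < cw0 ∧ 0 < c'0 ∧ 0 < ρ ∧ 0 < ρ0)
    (sO : HasSum o O) (sC : HasSum c C) (sOW : HasSum ow OW) (sCW : HasSum cw CW)
    (hM : ∀ u, o u * cw u = c u * ow u) (hM0 : o0 * cw0 = c0 * ow0)
    (hP : ∀ u, c' u = cw u * ρ) (hPT : C'0 = CW0 * ρ0) (hρ : ρ ≤ ρ0)
    (hK : ∀ u, ow u / ow0 ≤ cw u / cw0) (hC : ∀ u, c u / c0 ≤ c' u / c'0)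
    (hE : c0 / C0 ≤ o0 / O0)
    (hD : ow0 / OW0 ≤ Real.exp D * (cw0 / CW0)) (hD' : c0 / C0 ≤ Real.exp D' * (c'0 / C'0)) :
    C / C0 - Real.exp D' * (CW / CW0 - OW / OW0 * Real.exp (-D)) ≤ O / O0 := by
  obtain ⟨hO0, hC0, hOW0, hCW0, hC'0, ho0, hc0, how0, hcw0, hc'0, hρ0', hρ0⟩ := hpos
  set d0 : ℝ := ow0 / cw0 with hd0
  have hd0p : 0 < d0 := div_pos how0 hcw0
  have hd0' : d0 = o0 / c0 := by
    rw [hd0, div_eq_div_iff hcw0.ne' hc0.ne']; linarith [hM0]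
  have hED : 0 < Real.exp D' := Real.exp_pos _
  -- termwise
  have hterm : ∀ u, c u / C0 - o u / (d0 * C0) ≤ Real.exp D' * (cw u / CW0 - ow u / (d0 * CW0)) := by
    intro u
    set x : ℝ := 1 - ow u / cw u / d0 with hx
    have hx0 : 0 ≤ x := by
      have h1 : ow u / cw u ≤ d0 := by
        have := hK u
        rw [div_le_div_iff₀ how0 hcw0] at this
        rw [hd0, div_le_div_iff₀ (hcw u) hcw0]
        linarith
      have : ow u / cw u / d0 ≤ 1 := (div_le_one hd0p).2 h1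
      linarith
    have e1 : c u / C0 - o u / (d0 * C0) = c u / C0 * x := by
      have : o u = c u * (ow u / cw u) := by
        field_simp [(hcw u).ne']
        linarith [hM u]
      rw [hx, this]
      field_simp
    have e2 : cw u / CW0 - ow u / (d0 * CW0) = cw u / CW0 * x := by
      rw [hx]
      have := (hcw u).ne'
      field_simp
    have h3 : c u / C0 ≤ Real.exp D' * (cw u / CW0) := by
      have h4 : c u / C0 = c u / c0 * (c0 / C0) := by field_simp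
      have h5 : c u / c0 * (c0 / C0) ≤ c' u / c'0 * (Real.exp D' * (c'0 / C'0)) :=
        mul_le_mul (hC u) hD' (div_pos hc0 hC0).le (le_trans (div_pos (hc u) hc0).le (hC u))
      have h6 : c' u / c'0 * (Real.exp D' * (c'0 / C'0)) = Real.exp D' * (cw u / CW0) * (ρ / ρ0) := by
        rw [hP u, hPT]
        field_simp
      have h7 : ρ / ρ0 ≤ 1 := (div_le_one hρ0).2 hρ
      have h8 : 0 ≤ Real.exp D' * (cw u / CW0) := (mul_pos hED (div_pos (hcw u) hCW0)).le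
      calc c u / C0 = c u / c0 * (c0 / C0) := h4
        _ ≤ _ := h5
        _ = Real.exp D' * (cw u / CW0) * (ρ / ρ0) := h6
        _ ≤ Real.exp D' * (cw u / CW0) * 1 := mul_le_mul_of_nonneg_left h7 h8
        _ = _ := mul_one _
    rw [e1, e2, ← mul_assoc]
    exact mul_le_mul_of_nonneg_right h3 hx0
  have s1 : HasSum (fun u => c u / C0 - o u / (d0 * C0)) (C / C0 - O / (d0 * C0)) :=
    (sC.div_const C0).sub (sO.div_const (d0 * C0))
  have s2 : HasSum (fun u => Real.exp D' * (cw u / CW0 - ow u / (d0 * CW0))) (Real.exp D' * (CW / CW0 - OW / (d0 * CW0))) :=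
    ((sCW.div_const CW0).sub (sOW.div_const (d0 * CW0))).mul_left _
  have hsum := hasSum_le hterm s1 s2
  have hOnn : 0 ≤ O := sO.nonneg fun u => (ho u).le
  have hOWnn : 0 ≤ OW := sOW.nonneg fun u => (how u).le
  -- `O/(d0 C0) ≤ O/O0`
  have h9 : O / (d0 * C0) ≤ O / O0 := by
    have : O0 ≤ d0 * C0 := by
      rw [hd0']
      rw [div_le_div_iff₀ hC0 hO0] at hE
      rw [div_mul_eq_mul_div, le_div_iff₀ hc0]
      linarith
    exact div_le_div_of_nonneg_left hOnn hO0 this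
  -- `OW/OW0 e^{-D} ≤ OW/(d0 CW0)`
  have h10 : OW / OW0 * Real.exp (-D) ≤ OW / (d0 * CW0) := by
    have hEDp : 0 < Real.exp D := Real.exp_pos _
    rw [Real.exp_neg]
    have : d0 * CW0 ≤ OW0 * Real.exp D := by
      rw [hd0]
      have h11 : ow0 / OW0 ≤ Real.exp D * cw0 / CW0 := by rw [mul_div_assoc]; exact hD
      rw [div_le_div_iff₀ hOW0 hCW0] at h11
      rw [div_mul_eq_mul_div, div_le_iff₀ hcw0]
      linarith
    calc OW / OW0 * (Real.exp D)⁻¹ = OW / (OW0 * Real.exp D) := by field_simp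
      _ ≤ OW / (d0 * CW0) := div_le_div_of_nonneg_left hOWnn (mul_pos hd0p hCW0) this
  have h12 : Real.exp D' * (CW / CW0 - OW / (d0 * CW0)) ≤ Real.exp D' * (CW / CW0 - OW / OW0 * Real.exp (-D)) :=
    mul_le_mul_of_nonneg_left (by linarith) hED.le
  linarith

theorem addCut_addCut (Γ : CGeom m₁ m₂) (S S' : Finset (CFace m₁ m₂)) : addCut (addCut Γ S) S' = addCut Γ (S ∪ S') := by
  simp [addCut, Finset.union_assoc]

theorem addCut_restr (Γ : CGeom m₁ m₂) (S : Finset (CFace m₁ m₂)) (W : Finset (Cell m₁ m₂)) : addCut (restr Γ W) S = restr (addCut Γ S) W := rfl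

theorem zT_le (b : ℝ) (hb : 0 < b) (Γ : CGeom m₁ m₂) (g : DGrid m₁ m₂) (τ : Bond → ℤ) (v : ℤ × ℤ → ℝ) : zT b Γ g τ v ≤ zT b Γ g 0 0 := by
  have h1 := (confRatio_pos b hb Γ g τ v).2.1
  rw [confRatio_eq, div_le_one (zT_pos b hb Γ g 0 0)] at h1
  exact h1

/-- **the finite core of [S]P3.4** ((3.5)-(3.8), (6)): for ARBITRARY connection and centres,
`F_op ≥ F_cut - e^{D'(H',p)} (F_cutW - F_opW e^{-D(Hs,p)})`;  `D` in the cut patch, `D'` in the graph with `S` and `bW` cut (own pins retained). -/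
theorem strip_restore (b : ℝ) (hb : 0 < b) (Γ : CGeom m₁ m₂) (P : Patch m₁ m₂) (hP : P.Ok Γ) (g : DGrid m₁ m₂)
    (τ : Bond → ℤ) (v : ℤ × ℤ → ℝ) :
    confRatio b (addCut Γ P.S) g cellRow τ v
      - Real.exp (dCell b (addCut Γ (P.S ∪ P.bW)) g P.H' P.p)
        * (confRatio b (restr (addCut Γ P.S) P.W) g cellRow τ v
            - confRatio b (restr Γ P.W) g cellRow τ v * Real.exp (-(dCell b (restr (addCut Γ P.S) P.W) g P.Hs P.p)))
      ≤ confRatio b Γ g cellRow τ v := by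
  have hpW : P.p ⊆ P.W := fun κ hκ => Finset.mem_union_left _ (Finset.mem_union_right _ hκ)
  have hpT : P.p ⊆ Γ.T := hpW.trans hP.1
  have hpTW : P.p ⊆ Γ.T ∩ P.W := Finset.subset_inter hpT hpW
  have hdis : Disjoint P.p Γ.pin := Finset.disjoint_of_subset_left hpW hP.2.2.2.2.1
  have hdisW : Disjoint P.p (Γ.pin ∩ P.W) := Finset.disjoint_of_subset_right Finset.inter_subset_left hdis
  have hS := hP.2.2.2.2.2.2.2.2.1
  have hbW := hP.2.2.2.2.2.2.2.2.2.1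
  simp only [confRatio_eq]
  have hC : ∀ (τ : Bond → ℤ) (v : ℤ × ℤ → ℝ) (u : ℤ × ℤ → ℤ), zG b (addCut Γ P.S) g P.p τ v u / zG b (addCut Γ P.S) g P.p 0 0 0
      ≤ zG b (addCut Γ (P.S ∪ P.bW)) g P.p τ v u / zG b (addCut Γ (P.S ∪ P.bW)) g P.p 0 0 0 := by
    intro τ v u
    have := zG_cut_le b hb (addCut Γ P.S) P.bW g P.p τ v u
    rwa [addCut_addCut] at this
  have hD' := pin_density b hb (addCut Γ P.S) P.bW g P.H' P.p hbW
  rw [addCut_addCut] at hD'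
  exact strip_algebra (U := Dat g P.p)
    (fun u => zG b Γ g P.p τ v u.1) (fun u => zG b (addCut Γ P.S) g P.p τ v u.1)
    (fun u => zG b (restr Γ P.W) g P.p τ v u.1) (fun u => zG b (restr (addCut Γ P.S) P.W) g P.p τ v u.1)
    (fun u => zG b (addCut Γ (P.S ∪ P.bW)) g P.p τ v u.1)
    _ _ _ _ _ _ _ _ (zT b (addCut Γ (P.S ∪ P.bW)) g 0 0)
    (zG b Γ g P.p 0 0 0) (zG b (addCut Γ P.S) g P.p 0 0 0) (zG b (restr Γ P.W) g P.p 0 0 0) (zG b (restr (addCut Γ P.S) P.W) g P.p 0 0 0)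
    (zG b (addCut Γ (P.S ∪ P.bW)) g P.p 0 0 0)
    (zT b (restr (addCut Γ (P.S ∪ P.bW)) (Γ.T \ P.W)) g τ v) (zT b (restr (addCut Γ (P.S ∪ P.bW)) (Γ.T \ P.W)) g 0 0) _ _
    (fun u => zG_pos b hb _ g _ _ _ _) (fun u => zG_pos b hb _ g _ _ _ _) (fun u => zG_pos b hb _ g _ _ _ _) (fun u => zG_pos b hb _ g _ _ _ _)
    ⟨zT_pos b hb _ g _ _, zT_pos b hb _ g _ _, zT_pos b hb _ g _ _, zT_pos b hb _ g _ _, zT_pos b hb _ g _ _,
      zG_pos b hb _ g _ _ _ _, zG_pos b hb _ g _ _ _ _, zG_pos b hb _ g _ _ _ _, zG_pos b hb _ g _ _ _ _, zG_pos b hb _ g _ _ _ _,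
      zT_pos b hb _ g _ _, zT_pos b hb _ g _ _⟩
    (zG_total b hb Γ g P.p hpT hdis τ v) (zG_total b hb (addCut Γ P.S) g P.p hpT hdis τ v)
    (zG_total b hb (restr Γ P.W) g P.p hpTW hdisW τ v) (zG_total b hb (restr (addCut Γ P.S) P.W) g P.p hpTW hdisW τ v)
    (fun u => zG_markov b hb Γ P hP g τ v u.1) (zG_markov b hb Γ P hP g 0 0 0)
    (fun u => (zG_prod b hb Γ P hP g τ v u.1 u.2).1) (zG_prod b hb Γ P hP g 0 0 0 (fun _ _ => rfl)).2 (zT_le b hb _ g τ v)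
    (fun u => zG_cut_le b hb (restr Γ P.W) P.S g P.p τ v u.1) (fun u => hC τ v u.1)
    (pin_event_mono b hb Γ P.S g P.p)
    (pin_density b hb (restr Γ P.W) P.S g P.Hs P.p hS) hD'

end

end Claimed.Agent.R285.Sec
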