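import Claimed.Agent.R285.Sec.PinKit

/-!
# ROW 285, layer Sec, file StripM: THE PARTITION SUMS `zT`, `zG` IN EXPLICIT FORM (sums over integer functions on `ℤ²`), FIBRES AND FACTORISATION.      Cut of the leaf SEC-STRIP-M (architect of the cut: helper210).      Paper-free.
All geometries on one grid `g` are compared on ONE site type: heights are functions `H : ℤ × ℤ → ℤ`.
* `Sup F`           integer functions supported in the finite set `F`  (`Dat g p` is `Sup (g.region p)` by definition)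
* `wz b g Bd Tc τ v H = ∏_{e ∈ Bd} p_b(H e.snd - H e.1 + τ e) · exp(-½ ∑_{κ ∈ Tc} (avg_κ (2π H - v))²)`       (only a finite set of bonds and a finite set of cells matter)
* `zs b g Bd Tc F τ v u = ∑_{k ∈ Sup F} wz (k + u)`
* DICTIONARY `zG_eq_zs`: `zG b Γ g p τ v u = zs b g (bonds Γ g) Γ.T (freeS Γ g p) τ v u`, `freeS Γ g p = region T \ (region pin ∪ region p)`.
So every identity between partition sums of different geometries is (i) an abstract identity for `zs` (blocks [W], [Z]) + (ii) identities between finite sets of bonds / cells / sites (blocks [G], [B]).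
LEAVES (one prover per block; edit ONLY your block; helper lemmas directly above your theorem, prefix `sm_`):   SM-G, SM-W, SM-Z, SM-D1, SM-D2, SM-B, SM-F.      The glue at the end of the file is PROVED.
-/

set_option autoImplicit false

namespace Claimed.Agent.R285.Sec

open Filter Topology S23
open scoped Classical

noncomputable section

variable {m₁ m₂ : ℕ}

/-! ## definitions -/

/-- integer functions on `ℤ²` supported in `F` -/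
def Sup (F : Finset (ℤ × ℤ)) : Type := {k : ℤ × ℤ → ℤ // ∀ x, x ∉ F → k x = 0}

/-- the average over a cell -/
def cavg (g : DGrid m₁ m₂) (κ : Cell m₁ m₂) (f : ℤ × ℤ → ℝ) : ℝ := ((g.cell κ).card : ℝ)⁻¹ * ∑ x ∈ g.cell κ, f x

/-- the weight of a height: Bessel factors on the bonds of `Bd`, one unit observation on every cell of `Tc` -/
def wz (b : ℝ) (g : DGrid m₁ m₂) (Bd : Finset Bond) (Tc : Finset (Cell m₁ m₂)) (τ : Bond → ℤ) (v : ℤ × ℤ → ℝ) (H : ℤ × ℤ → ℤ) : ℝ :=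
  (∏ e ∈ Bd, bes b (H e.snd - H e.1 + τ e)) * Real.exp (-(∑ κ ∈ Tc, (cavg g κ fun x => 2 * Real.pi * (H x : ℝ) - v x) ^ 2) / 2)

/-- the partition sum with free sites `F` and background `u` -/
def zs (b : ℝ) (g : DGrid m₁ m₂) (Bd : Finset Bond) (Tc : Finset (Cell m₁ m₂)) (F : Finset (ℤ × ℤ)) (τ : Bond → ℤ) (v : ℤ × ℤ → ℝ)
    (u : ℤ × ℤ → ℤ) : ℝ := ∑' k : Sup F, wz b g Bd Tc τ v fun x => k.1 x + u x

/-- the free sites of a geometry with guard `p` -/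
def freeS (Γ : CGeom m₁ m₂) (g : DGrid m₁ m₂) (p : Finset (Cell m₁ m₂)) : Finset (ℤ × ℤ) :=
  g.region Γ.T \ (g.region Γ.pin ∪ g.region p)

theorem stripM_eqns_cite : True := by
  have := @Sup.eq_1
  have := @cavg.eq_1
  have := @wz.eq_1
  have := @zs.eq_1
  have := @freeS.eq_1
  trivial

/-! ## [G] LEAF SM-G: the grid (~150 l., `Finset`, `omega`, `StrictMono`) -/

theorem sm_mem_region (g : DGrid m₁ m₂) (A : Finset (Cell m₁ m₂)) (x : ℤ × ℤ) : x ∈ g.region A ↔ ∃ κ ∈ A, x ∈ g.cell κ := by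
  unfold DGrid.region
  exact Finset.mem_biUnion

/-- a site lies in at most one cell (`StrictMono.lt_iff_lt`: `x₁ i ≤ x < x₁ (i+1)` and `x₁ i' ≤ x < x₁ (i'+1)` give `i < i'+1`, `i' < i+1`). -/
theorem sm_cell_unique (g : DGrid m₁ m₂) {κ κ' : Cell m₁ m₂} {x : ℤ × ℤ} (h : x ∈ g.cell κ) (h' : x ∈ g.cell κ') : κ = κ' :=
  sec_cell_unique g h h'

theorem sm_region_inter (g : DGrid m₁ m₂) (A B : Finset (Cell m₁ m₂)) : g.region (A ∩ B) = g.region A ∩ g.region B := by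
  ext x
  simp only [Finset.mem_inter, sm_mem_region]
  constructor
  · rintro ⟨κ, ⟨h1, h2⟩, hx⟩
    exact ⟨⟨κ, h1, hx⟩, ⟨κ, h2, hx⟩⟩
  · rintro ⟨⟨κ, h1, hx⟩, ⟨κ', h2, hx'⟩⟩
    have := sm_cell_unique g hx hx'
    subst this
    exact ⟨κ, ⟨h1, h2⟩, hx⟩

theorem sm_region_union (g : DGrid m₁ m₂) (A B : Finset (Cell m₁ m₂)) : g.region (A ∪ B) = g.region A ∪ g.region B := by
  unfold DGrid.region
  exact Finset.union_biUnion

theorem sm_region_mono (g : DGrid m₁ m₂) {A B : Finset (Cell m₁ m₂)} (h : A ⊆ B) : g.region A ⊆ g.region B := by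
  unfold DGrid.region
  exact Finset.biUnion_subset_biUnion_of_subset_left _ h

theorem sm_region_disjoint (g : DGrid m₁ m₂) {A B : Finset (Cell m₁ m₂)} (h : Disjoint A B) : Disjoint (g.region A) (g.region B) := by
  rw [Finset.disjoint_iff_inter_eq_empty, ← sm_region_inter, Finset.disjoint_iff_inter_eq_empty.1 h]
  rfl

theorem sm_region_empty (g : DGrid m₁ m₂) : g.region (∅ : Finset (Cell m₁ m₂)) = ∅ := rfl

/-- a bond which leaves the cell `κ` and arrives in the cell `κ'` crosses the face `(κ, e.2)` and `κ'` is the neighbour across this face -/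
theorem sm_faceNbr (g : DGrid m₁ m₂) (e : Bond) {κ κ' : Cell m₁ m₂} (h1 : e.1 ∈ g.cell κ) (h2 : e.snd ∈ g.cell κ') (hne : κ ≠ κ') :
    FaceNbr (κ, e.2) κ' :=
  sec_cross_nbr g (f := (κ, e.2)) rfl h1 (fun h => hne (sm_cell_unique g h h2)) h2

theorem sm_mem_bonds (Γ : CGeom m₁ m₂) (g : DGrid m₁ m₂) (e : Bond) :
    e ∈ bonds Γ g ↔ e.1 ∈ g.region Γ.T ∧ e.snd ∈ g.region Γ.T ∧ e ∉ Γ.cutB g := by
  unfold bonds domBonds
  rw [Finset.mem_filter, Finset.mem_product]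
  simp only [Finset.mem_univ, and_true]

/-- membership in `bonds` through cells: the two cells belong to `T` and, if they differ, the face between them is not cut -/
theorem sm_mem_bonds' (Γ : CGeom m₁ m₂) (g : DGrid m₁ m₂) (e : Bond) :
    e ∈ bonds Γ g ↔ ∃ κ ∈ Γ.T, ∃ κ' ∈ Γ.T, e.1 ∈ g.cell κ ∧ e.snd ∈ g.cell κ' ∧ (κ ≠ κ' → (κ, e.2) ∉ Γ.cutF) := by
  rw [sm_mem_bonds, sm_mem_region, sm_mem_region]
  constructor
  · rintro ⟨⟨κ, hκ, h1⟩, ⟨κ', hκ', h2⟩, hc⟩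
    refine ⟨κ, hκ, κ', hκ', h1, h2, fun hne hf => hc ⟨(κ, e.2), hf, rfl, h1, fun h => hne (sm_cell_unique g h h2)⟩⟩
  · rintro ⟨κ, hκ, κ', hκ', h1, h2, hc⟩
    refine ⟨⟨κ, hκ, h1⟩, ⟨κ', hκ', h2⟩, ?_⟩
    rintro ⟨f, hf, hd, hf1, hf2⟩
    have e1 : f.1 = κ := sm_cell_unique g hf1 h1
    have hne : κ ≠ κ' := by
      intro h
      rw [e1, h] at hf2
      exact hf2 h2
    apply hc hne
    have : f = (κ, e.2) := Prod.ext e1 hd.symm
    rw [← this]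
    exact hf

/-! ## [W] LEAF SM-W: the weight (~120 l.) -/

/-- locality -/
theorem wz_congr (b : ℝ) (g : DGrid m₁ m₂) (Bd : Finset Bond) (Tc : Finset (Cell m₁ m₂)) (τ : Bond → ℤ) (v : ℤ × ℤ → ℝ) (H H' : ℤ × ℤ → ℤ)
    (h1 : ∀ e ∈ Bd, H e.1 = H' e.1 ∧ H e.snd = H' e.snd) (h2 : ∀ κ ∈ Tc, ∀ x ∈ g.cell κ, H x = H' x) :
    wz b g Bd Tc τ v H = wz b g Bd Tc τ v H' := by
  unfold wz
  congr 1
  · refine Finset.prod_congr rfl fun e he => ?_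
    rw [(h1 e he).1, (h1 e he).2]
  · congr 3
    refine Finset.sum_congr rfl fun κ hκ => ?_
    unfold cavg
    congr 2
    refine Finset.sum_congr rfl fun x hx => ?_
    show 2 * Real.pi * (H x : ℝ) - v x = 2 * Real.pi * (H' x : ℝ) - v x
    rw [h2 κ hκ x hx]

/-- `Finset.prod_union_inter`, `Finset.sum_union_inter`, `Real.exp_add` -/
theorem wz_union_inter (b : ℝ) (g : DGrid m₁ m₂) (B₁ B₂ : Finset Bond) (T₁ T₂ : Finset (Cell m₁ m₂)) (τ : Bond → ℤ) (v : ℤ × ℤ → ℝ) (H : ℤ × ℤ → ℤ) :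
    wz b g (B₁ ∪ B₂) (T₁ ∪ T₂) τ v H * wz b g (B₁ ∩ B₂) (T₁ ∩ T₂) τ v H = wz b g B₁ T₁ τ v H * wz b g B₂ T₂ τ v H := by
  unfold wz
  have h1 := Finset.prod_union_inter (s₁ := B₁) (s₂ := B₂) (f := fun e : Bond => bes b (H e.snd - H e.1 + τ e))
  have h2 := Finset.sum_union_inter (s₁ := T₁) (s₂ := T₂) (f := fun κ => (cavg g κ fun x => 2 * Real.pi * (H x : ℝ) - v x) ^ 2)
  rw [mul_mul_mul_comm, h1, ← Real.exp_add, mul_mul_mul_comm, ← Real.exp_add]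
  congr 2
  linarith

theorem wz_empty (b : ℝ) (g : DGrid m₁ m₂) (τ : Bond → ℤ) (v : ℤ × ℤ → ℝ) (H : ℤ × ℤ → ℤ) : wz b g ∅ ∅ τ v H = 1 := by
  simp [wz]

/-! ## [Z] LEAF SM-Z: sums over `Sup F` (~300 l.; `Equiv.tsum_eq`, `HasSum.prod_fiberwise`, `tsum_mul_tsum_of_summable_norm`) -/

/-- the equivalence of `sm_sup_union` -/
def sm_sup_equiv (F₁ F₂ : Finset (ℤ × ℤ)) (hF : Disjoint F₁ F₂) : Sup F₁ × Sup F₂ ≃ Sup (F₁ ∪ F₂) where
  toFun q := ⟨fun x => q.1.1 x + q.2.1 x, fun x hx => by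
    have h1 : q.1.1 x = 0 := q.1.2 x fun h => hx (Finset.mem_union_left _ h)
    have h2 : q.2.1 x = 0 := q.2.2 x fun h => hx (Finset.mem_union_right _ h)
    simp [h1, h2]⟩
  invFun k := (⟨fun x => if x ∈ F₁ then k.1 x else 0, fun x hx => by simp [hx]⟩,
    ⟨fun x => if x ∈ F₁ then 0 else k.1 x, fun x hx => by
      by_cases hb : x ∈ F₁
      · simp [hb]
      · have : x ∉ F₁ ∪ F₂ := fun ha => (Finset.mem_union.1 ha).elim hb hx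
        simp [hb, k.2 x this]⟩)
  left_inv q := by
    refine Prod.ext (Subtype.ext (funext fun x => ?_)) (Subtype.ext (funext fun x => ?_))
    · by_cases hb : x ∈ F₁
      · have h2 : q.2.1 x = 0 := q.2.2 x fun h => Finset.disjoint_left.1 hF hb h
        simp [hb, h2]
      · have h1 : q.1.1 x = 0 := q.1.2 x hb
        simp [hb, h1]
    · by_cases hb : x ∈ F₁
      · have h2 : q.2.1 x = 0 := q.2.2 x fun h => Finset.disjoint_left.1 hF hb h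
        simp [hb, h2]
      · have h1 : q.1.1 x = 0 := q.1.2 x hb
        simp [hb, h1]
  right_inv k := by
    refine Subtype.ext (funext fun x => ?_)
    by_cases hb : x ∈ F₁ <;> simp [hb]

/-- `Sup F₁ × Sup F₂ ≃ Sup (F₁ ∪ F₂)`, `(k₁, k₂) ↦ k₁ + k₂` (inverse: `k ↦ (k 1_{F₁}, k 1_{F₂})`) -/
theorem sm_sup_union (F₁ F₂ : Finset (ℤ × ℤ)) (hF : Disjoint F₁ F₂) :
    ∃ φ : Sup F₁ × Sup F₂ ≃ Sup (F₁ ∪ F₂), ∀ q x, (φ q).1 x = q.1.1 x + q.2.1 x :=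
  ⟨sm_sup_equiv F₁ F₂ hF, fun _ _ => rfl⟩

theorem zs_empty (b : ℝ) (g : DGrid m₁ m₂) (Bd : Finset Bond) (Tc : Finset (Cell m₁ m₂)) (τ : Bond → ℤ) (v : ℤ × ℤ → ℝ) (u : ℤ × ℤ → ℤ) :
    zs b g Bd Tc ∅ τ v u = wz b g Bd Tc τ v u := by
  unfold zs
  let z : Sup (∅ : Finset (ℤ × ℤ)) := ⟨fun _ => 0, fun _ _ => rfl⟩
  have hu : ∀ k : Sup (∅ : Finset (ℤ × ℤ)), k = z := fun k => Subtype.ext (funext fun x => k.2 x (Finset.notMem_empty x))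
  rw [tsum_eq_single z fun k hk => absurd (hu k) hk]
  congr 1
  funext x
  exact zero_add _

/-- the background matters only on the sites seen by the factors -/
theorem zs_congr (b : ℝ) (g : DGrid m₁ m₂) (Bd : Finset Bond) (Tc : Finset (Cell m₁ m₂)) (F : Finset (ℤ × ℤ)) (τ : Bond → ℤ) (v : ℤ × ℤ → ℝ)
    (u u' : ℤ × ℤ → ℤ) (h1 : ∀ e ∈ Bd, u e.1 = u' e.1 ∧ u e.snd = u' e.snd) (h2 : ∀ κ ∈ Tc, ∀ x ∈ g.cell κ, u x = u' x) :
    zs b g Bd Tc F τ v u = zs b g Bd Tc F τ v u' := by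
  unfold zs
  refine tsum_congr fun k => wz_congr b g Bd Tc τ v _ _ (fun e he => ?_) fun κ hκ x hx => ?_
  · exact ⟨by rw [(h1 e he).1], by rw [(h1 e he).2]⟩
  · rw [h2 κ hκ x hx]

/-- FIBRES.  `sm_sup_union`, `HasSum.prod_fiberwise` (the inner sums: `Summable.prod_factor` / `Summable.comp_injective`). -/
theorem zs_total (b : ℝ) (g : DGrid m₁ m₂) (Bd : Finset Bond) (Tc : Finset (Cell m₁ m₂)) (F₁ F₂ : Finset (ℤ × ℤ)) (hF : Disjoint F₁ F₂)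
    (τ : Bond → ℤ) (v : ℤ × ℤ → ℝ) (hs : Summable fun k : Sup (F₁ ∪ F₂) => wz b g Bd Tc τ v fun x => k.1 x + (0 : ℤ)) :
    HasSum (fun u : Sup F₁ => zs b g Bd Tc F₂ τ v u.1) (zs b g Bd Tc (F₁ ∪ F₂) τ v 0) := by
  have h1 : HasSum (fun q : Sup F₁ × Sup F₂ => wz b g Bd Tc τ v fun x => (sm_sup_equiv F₁ F₂ hF q).1 x + (0 : ℤ))
      (zs b g Bd Tc (F₁ ∪ F₂) τ v 0) := (sm_sup_equiv F₁ F₂ hF).hasSum_iff.2 hs.hasSum
  refine h1.prod_fiberwise fun u => ?_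
  have h2 := (h1.summable.prod_factor u).hasSum
  have e : zs b g Bd Tc F₂ τ v u.1 = ∑' k : Sup F₂, wz b g Bd Tc τ v fun x => (sm_sup_equiv F₁ F₂ hF (u, k)).1 x + (0 : ℤ) := by
    unfold zs
    refine tsum_congr fun k => ?_
    congr 1
    funext x
    show k.1 x + u.1 x = u.1 x + k.1 x + 0
    ring
  rw [e]
  exact h2

/-- FACTORISATION.  The factors `(B₁, T₁)` do not see `F₂`, the factors `(B₂, T₂)` do not see `F₁`.
`zs_∪(u) wz_∩(u) = ∑_k wz_∪(k+u) wz_∩(k+u)` (`wz_congr`) `= ∑_k wz₁(k+u) wz₂(k+u)` (`wz_union_inter`) `= ∑_{k₁,k₂} wz₁(k₁+u) wz₂(k₂+u)` (`sm_sup_union`, `wz_congr`) `=` product (`tsum_mul_tsum_of_summable_norm`). -/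
theorem zs_split (b : ℝ) (g : DGrid m₁ m₂) (B₁ B₂ : Finset Bond) (T₁ T₂ : Finset (Cell m₁ m₂)) (F₁ F₂ : Finset (ℤ × ℤ)) (hF : Disjoint F₁ F₂)
    (τ : Bond → ℤ) (v : ℤ × ℤ → ℝ) (u : ℤ × ℤ → ℤ)
    (hB₁ : ∀ e ∈ B₁, e.1 ∉ F₂ ∧ e.snd ∉ F₂) (hB₂ : ∀ e ∈ B₂, e.1 ∉ F₁ ∧ e.snd ∉ F₁)
    (hT₁ : ∀ κ ∈ T₁, ∀ x ∈ g.cell κ, x ∉ F₂) (hT₂ : ∀ κ ∈ T₂, ∀ x ∈ g.cell κ, x ∉ F₁)
    (hs₁ : Summable fun k : Sup F₁ => wz b g B₁ T₁ τ v fun x => k.1 x + u x)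
    (hs₂ : Summable fun k : Sup F₂ => wz b g B₂ T₂ τ v fun x => k.1 x + u x) :
    zs b g (B₁ ∪ B₂) (T₁ ∪ T₂) (F₁ ∪ F₂) τ v u * zs b g (B₁ ∩ B₂) (T₁ ∩ T₂) ∅ τ v u = zs b g B₁ T₁ F₁ τ v u * zs b g B₂ T₂ F₂ τ v u := by
  rw [zs_empty]
  unfold zs
  rw [tsum_mul_tsum_of_summable_norm hs₁.norm hs₂.norm, ← tsum_mul_right, ← (sm_sup_equiv F₁ F₂ hF).tsum_eq]
  refine tsum_congr fun q => ?_
  obtain ⟨k₁, k₂⟩ := q
  show wz b g (B₁ ∪ B₂) (T₁ ∪ T₂) τ v (fun x => k₁.1 x + k₂.1 x + u x) * wz b g (B₁ ∩ B₂) (T₁ ∩ T₂) τ v u =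
    wz b g B₁ T₁ τ v (fun x => k₁.1 x + u x) * wz b g B₂ T₂ τ v fun x => k₂.1 x + u x
  have a₀ : wz b g (B₁ ∩ B₂) (T₁ ∩ T₂) τ v u = wz b g (B₁ ∩ B₂) (T₁ ∩ T₂) τ v fun x => k₁.1 x + k₂.1 x + u x := by
    refine wz_congr b g _ _ τ v _ _ (fun e he => ?_) fun κ hκ x hx => ?_
    · obtain ⟨he₁, he₂⟩ := Finset.mem_inter.1 he
      refine ⟨?_, ?_⟩
      · show u e.1 = k₁.1 e.1 + k₂.1 e.1 + u e.1
        rw [k₁.2 _ (hB₂ e he₂).1, k₂.2 _ (hB₁ e he₁).1]; ring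
      · show u e.snd = k₁.1 e.snd + k₂.1 e.snd + u e.snd
        rw [k₁.2 _ (hB₂ e he₂).2, k₂.2 _ (hB₁ e he₁).2]; ring
    · obtain ⟨hκ₁, hκ₂⟩ := Finset.mem_inter.1 hκ
      show u x = k₁.1 x + k₂.1 x + u x
      rw [k₁.2 _ (hT₂ κ hκ₂ x hx), k₂.2 _ (hT₁ κ hκ₁ x hx)]; ring
  have a₁ : wz b g B₁ T₁ τ v (fun x => k₁.1 x + k₂.1 x + u x) = wz b g B₁ T₁ τ v fun x => k₁.1 x + u x := by
    refine wz_congr b g _ _ τ v _ _ (fun e he => ?_) fun κ hκ x hx => ?_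
    · refine ⟨?_, ?_⟩
      · show k₁.1 e.1 + k₂.1 e.1 + u e.1 = k₁.1 e.1 + u e.1
        rw [k₂.2 _ (hB₁ e he).1]; ring
      · show k₁.1 e.snd + k₂.1 e.snd + u e.snd = k₁.1 e.snd + u e.snd
        rw [k₂.2 _ (hB₁ e he).2]; ring
    · show k₁.1 x + k₂.1 x + u x = k₁.1 x + u x
      rw [k₂.2 _ (hT₁ κ hκ x hx)]; ring
  have a₂ : wz b g B₂ T₂ τ v (fun x => k₁.1 x + k₂.1 x + u x) = wz b g B₂ T₂ τ v fun x => k₂.1 x + u x := by
    refine wz_congr b g _ _ τ v _ _ (fun e he => ?_) fun κ hκ x hx => ?_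
    · refine ⟨?_, ?_⟩
      · show k₁.1 e.1 + k₂.1 e.1 + u e.1 = k₂.1 e.1 + u e.1
        rw [k₁.2 _ (hB₂ e he).1]; ring
      · show k₁.1 e.snd + k₂.1 e.snd + u e.snd = k₂.1 e.snd + u e.snd
        rw [k₁.2 _ (hB₂ e he).2]; ring
    · show k₁.1 x + k₂.1 x + u x = k₂.1 x + u x
      rw [k₁.2 _ (hT₂ κ hκ x hx)]; ring
  rw [a₀, wz_union_inter, a₁, a₂]

/-! ## [D] LEAVES SM-D1, SM-D2: the dictionary -/

/-- sums over the vertices of a geometry -/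
theorem sm_sum_V (Γ : CGeom m₁ m₂) (g : DGrid m₁ m₂) (F : ℤ × ℤ → ℝ) :
    ∑ x : (Γ.graph g).V, F (domPos (D := g.region Γ.T) (cut := Γ.cutB g) x) = ∑ x ∈ g.region Γ.T, F x := by
  have h := Finset.sum_coe_sort (g.region Γ.T) F
  rw [← h]
  refine Finset.sum_congr ?_ fun _ _ => rfl
  ext a
  exact ⟨fun _ => Finset.mem_univ _, fun _ => Finset.mem_univ _⟩

/-- products over the edges of a geometry -/
theorem sm_prod_E (Γ : CGeom m₁ m₂) (g : DGrid m₁ m₂) (F : Bond → ℝ) :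
    ∏ e : (Γ.graph g).E, F (domBond (D := g.region Γ.T) (cut := Γ.cutB g) e) = ∏ e ∈ bonds Γ g, F e := by
  have h := Finset.prod_coe_sort (bonds Γ g) F
  rw [← h]
  refine Finset.prod_congr ?_ fun _ _ => rfl
  ext a
  exact ⟨fun _ => Finset.mem_univ _, fun _ => Finset.mem_univ _⟩

/-- the pairing of the row of the cell `κ` -/
theorem sm_row_pair (Γ : CGeom m₁ m₂) (g : DGrid m₁ m₂) (κ : Cell m₁ m₂) (f : ℤ × ℤ → ℝ) :
    ∑ x : (Γ.graph g).V, Γ.avgRow g {κ} x * onV Γ g f x = if κ ∈ Γ.T then cavg g κ f else 0 := by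
  have hreg : g.region {κ} = g.cell κ := by simp [DGrid.region]
  have e1 : ∀ x : (Γ.graph g).V, Γ.avgRow g {κ} x * onV Γ g f x
      = (fun y : ℤ × ℤ => (if y ∈ g.cell κ then ((g.region ({κ} ∩ Γ.T)).card : ℝ)⁻¹ else 0) * f y)
        (domPos (D := g.region Γ.T) (cut := Γ.cutB g) x) := by
    intro x
    have hm : x ∈ Γ.sites g {κ} ↔ domPos (D := g.region Γ.T) (cut := Γ.cutB g) x ∈ g.cell κ := by
      show domPos x ∈ (↑(g.region {κ}) : Set (ℤ × ℤ)) ↔ _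
      rw [hreg, Finset.mem_coe]
    unfold CGeom.avgRow
    simp only [hm]
    rfl
  rw [Finset.sum_congr rfl fun x _ => e1 x]
  refine (sm_sum_V Γ g (fun y : ℤ × ℤ => (if y ∈ g.cell κ then ((g.region ({κ} ∩ Γ.T)).card : ℝ)⁻¹ else 0) * f y)).trans ?_
  by_cases hκ : κ ∈ Γ.T
  · have e2 : ({κ} ∩ Γ.T : Finset (Cell m₁ m₂)) = {κ} := Finset.inter_eq_left.2 (Finset.singleton_subset_iff.2 hκ)
    have hsub : g.cell κ ⊆ g.region Γ.T := fun y hy => (sm_mem_region g _ y).2 ⟨κ, hκ, hy⟩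
    rw [if_pos hκ, e2, hreg, cavg, Finset.mul_sum, ← Finset.sum_subset hsub]
    · exact Finset.sum_congr rfl fun y hy => by rw [if_pos hy]
    · intro y _ hy
      rw [if_neg hy, zero_mul]
  · have e2 : ({κ} ∩ Γ.T : Finset (Cell m₁ m₂)) = ∅ := Finset.singleton_inter_of_notMem hκ
    rw [if_neg hκ, e2]
    refine Finset.sum_eq_zero fun y _ => ?_
    simp [DGrid.region]

/-- LEAF SM-D1 (~200 l.): the weight of the law in explicit form.   `k : ℤ × ℤ → ℤ` any function, restricted to the vertices by `onV`.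
`LSys.W` unfolds to `(∏ e, bes b (z.1 e)) * exp (-(∑ o, z.2 o ^ 2)/2)`.   Bonds: `(Γ.graph g).E = {e // e ∈ bonds Γ g}` by definition, `Finset.prod_coe_sort`; `coordA_fst`, `amb_fst` (Sec/Fin.lean).
Rows: reindex `o : Fin (m₁ * m₂)` by `finProdFinEquiv` (`Equiv.sum_comp`); the row of `κ` is `avgRow g {κ}`; for `κ ∈ Γ.T` its pairing with `f` is `cavg g κ f` (`{κ} ∩ Γ.T = {κ}`, `region {κ} = cell κ`, sum over the subtype `{x // x ∈ region T}` of an indicator = sum over `cell κ`: `Finset.sum_subtype`/`Finset.sum_coe_sort` + `Finset.sum_filter`),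
for `κ ∉ Γ.T` it vanishes (`sm_cell_unique`); `Finset.sum_filter`/`Finset.sum_subset` to pass from `∑ κ` to `∑ κ ∈ Γ.T`. -/
theorem sm_W_eq (b : ℝ) (Γ : CGeom m₁ m₂) (g : DGrid m₁ m₂) (A : Set (Γ.graph g).V) (τ : Bond → ℤ) (v : ℤ × ℤ → ℝ) (u k : ℤ × ℤ → ℤ) :
    (((rlaw Γ g cellRow).addPin A).sys b).W
        (((rlaw Γ g cellRow).addPin A).coordA b (onV Γ g k)
          + HLaw.Aff.amb (H := (rlaw Γ g cellRow).addPin A) ⟨onV Γ g u, onE Γ g τ, (rlaw Γ g cellRow).obs (onV Γ g v)⟩ b)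
      = wz b g (bonds Γ g) Γ.T τ v fun x => k x + u x := by
  have hE : (∏ e : (Γ.graph g).E, bes b ((onV Γ g k ((Γ.graph g).tgt e) - onV Γ g k ((Γ.graph g).src e))
      + (onV Γ g u ((Γ.graph g).tgt e) - onV Γ g u ((Γ.graph g).src e) + onE Γ g τ e)))
      = ∏ e ∈ bonds Γ g, bes b ((k e.snd + u e.snd) - (k e.1 + u e.1) + τ e) := by
    rw [← sm_prod_E Γ g fun e => bes b ((k e.snd + u e.snd) - (k e.1 + u e.1) + τ e)]
    refine Finset.prod_congr rfl fun e _ => ?_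
    congr 1
    show (k e.1.snd - k e.1.1) + (u e.1.snd - u e.1.1 + τ e.1) = (k e.1.snd + u e.1.snd) - (k e.1.1 + u e.1.1) + τ e.1
    ring
  have hO : (∑ o : Fin (m₁ * m₂), ((∑ x, (rlaw Γ g cellRow).B o x * (2 * Real.pi * ((onV Γ g k x : ℤ) : ℝ)))
      + ((∑ x, (rlaw Γ g cellRow).B o x * (2 * Real.pi * ((onV Γ g u x : ℤ) : ℝ))) + -((rlaw Γ g cellRow).obs (onV Γ g v) o))) ^ 2)
      = ∑ κ ∈ Γ.T, (cavg g κ fun x => 2 * Real.pi * (((k x + u x : ℤ)) : ℝ) - v x) ^ 2 := by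
    rw [← Equiv.sum_comp finProdFinEquiv]
    have e1 : ∀ κ : Cell m₁ m₂, ((∑ x, (rlaw Γ g cellRow).B (finProdFinEquiv κ) x * (2 * Real.pi * ((onV Γ g k x : ℤ) : ℝ)))
        + ((∑ x, (rlaw Γ g cellRow).B (finProdFinEquiv κ) x * (2 * Real.pi * ((onV Γ g u x : ℤ) : ℝ)))
          + -((rlaw Γ g cellRow).obs (onV Γ g v) (finProdFinEquiv κ))))
        = if κ ∈ Γ.T then cavg g κ (fun x => 2 * Real.pi * (((k x + u x : ℤ)) : ℝ) - v x) else 0 := by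
      intro κ
      rw [← sm_row_pair Γ g κ]
      unfold HLaw.obs
      simp only [sec_cellRow_B]
      rw [← sub_eq_add_neg, ← Finset.sum_sub_distrib, ← Finset.sum_add_distrib]
      refine Finset.sum_congr rfl fun x _ => ?_
      show _ = Γ.avgRow g {κ} x * (2 * Real.pi * (((k x.1 + u x.1 : ℤ)) : ℝ) - v x.1)
      show Γ.avgRow g {κ} x * (2 * Real.pi * ((k x.1 : ℤ) : ℝ)) + (Γ.avgRow g {κ} x * (2 * Real.pi * ((u x.1 : ℤ) : ℝ))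
        - Γ.avgRow g {κ} x * v x.1) = _
      push_cast
      ring
    rw [Finset.sum_congr rfl fun κ _ => by rw [e1 κ]]
    rw [← Finset.sum_filter_add_sum_filter_not Finset.univ (fun κ => κ ∈ Γ.T)]
    have z1 : ∑ κ ∈ Finset.univ.filter (fun κ => ¬ κ ∈ Γ.T),
        (if κ ∈ Γ.T then cavg g κ (fun x => 2 * Real.pi * (((k x + u x : ℤ)) : ℝ) - v x) else 0) ^ 2 = 0 := by
      refine Finset.sum_eq_zero fun κ hκ => ?_
      rw [if_neg (Finset.mem_filter.1 hκ).2]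
      norm_num
    rw [z1, add_zero, Finset.filter_mem_eq_inter, Finset.univ_inter]
    exact Finset.sum_congr rfl fun κ hκ => by rw [if_pos hκ]
  show (∏ e : (Γ.graph g).E, bes b ((onV Γ g k ((Γ.graph g).tgt e) - onV Γ g k ((Γ.graph g).src e))
      + (onV Γ g u ((Γ.graph g).tgt e) - onV Γ g u ((Γ.graph g).src e) + onE Γ g τ e)))
      * Real.exp (-(∑ o : Fin (m₁ * m₂), ((∑ x, (rlaw Γ g cellRow).B o x * (2 * Real.pi * ((onV Γ g k x : ℤ) : ℝ)))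
      + ((∑ x, (rlaw Γ g cellRow).B o x * (2 * Real.pi * ((onV Γ g u x : ℤ) : ℝ))) + -((rlaw Γ g cellRow).obs (onV Γ g v) o))) ^ 2) / 2) = _
  rw [hE, hO]
  rfl

/-- LEAF SM-D2 (~250 l.): the constraint lattice.  `k ↦ onV Γ g k` is a bijection of `Sup (freeS Γ g p)` onto the lattice `Λ ⊓ pinned (sites p)` (inverse: extension by zero). -/
theorem sm_lat_equiv (Γ : CGeom m₁ m₂) (g : DGrid m₁ m₂) (p : Finset (Cell m₁ m₂)) :
    ∃ φ : Sup (freeS Γ g p) ≃ ((rlaw Γ g cellRow).addPin (Γ.sites g p)).Λ, ∀ k, ((φ k : (Γ.graph g).V → ℤ)) = onV Γ g k.1 := by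
  have hmem : ∀ h : (Γ.graph g).V → ℤ, h ∈ ((rlaw Γ g cellRow).addPin (Γ.sites g p)).Λ ↔
      (∀ x : (Γ.graph g).V, x ∈ Γ.sites g Γ.pin → h x = 0) ∧ ∀ x : (Γ.graph g).V, x ∈ Γ.sites g p → h x = 0 := fun h => Iff.rfl
  have hsite : ∀ (A : Finset (Cell m₁ m₂)) (x : (Γ.graph g).V), x ∈ Γ.sites g A ↔
      domPos (D := g.region Γ.T) (cut := Γ.cutB g) x ∈ g.region A := fun A x => Iff.rfl
  have hfree : ∀ x : ℤ × ℤ, x ∈ freeS Γ g p ↔ x ∈ g.region Γ.T ∧ x ∉ g.region Γ.pin ∧ x ∉ g.region p := by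
    intro x
    unfold freeS
    rw [Finset.mem_sdiff, Finset.mem_union, not_or]
  obtain ⟨mk, hmk1, hmk2⟩ : ∃ mk : ∀ x : ℤ × ℤ, x ∈ g.region Γ.T → (Γ.graph g).V,
      (∀ x hx, domPos (D := g.region Γ.T) (cut := Γ.cutB g) (mk x hx) = x) ∧
      (∀ (v : (Γ.graph g).V) hv, mk (domPos (D := g.region Γ.T) (cut := Γ.cutB g) v) hv = v) :=
    ⟨fun x hx => ⟨x, hx⟩, fun _ _ => rfl, fun _ _ => rfl⟩
  have hpos : ∀ v : (Γ.graph g).V, domPos (D := g.region Γ.T) (cut := Γ.cutB g) v ∈ g.region Γ.T := fun v => v.2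
  have honV : ∀ (k : ℤ × ℤ → ℤ) (v : (Γ.graph g).V), onV Γ g k v = k (domPos (D := g.region Γ.T) (cut := Γ.cutB g) v) :=
    fun _ _ => rfl
  refine ⟨⟨fun k => ⟨onV Γ g k.1, ?_⟩, fun h => ⟨fun x => if hx : x ∈ g.region Γ.T then (h : (Γ.graph g).V → ℤ) (mk x hx) else 0, ?_⟩, ?_, ?_⟩, fun k => rfl⟩
  · rw [hmem]
    constructor
    · intro x hx
      exact k.2 _ fun hc => ((hfree _).1 hc).2.1 ((hsite _ x).1 hx)
    · intro x hx
      exact k.2 _ fun hc => ((hfree _).1 hc).2.2 ((hsite _ x).1 hx)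
  · intro x hx
    beta_reduce
    by_cases hT : x ∈ g.region Γ.T
    · rw [dif_pos hT]
      have h2 := (hmem _).1 h.2
      by_cases hpin : x ∈ g.region Γ.pin
      · exact h2.1 (mk x hT) ((hsite _ _).2 (by rw [hmk1]; exact hpin))
      · by_cases hp : x ∈ g.region p
        · exact h2.2 (mk x hT) ((hsite _ _).2 (by rw [hmk1]; exact hp))
        · exact absurd ((hfree x).2 ⟨hT, hpin, hp⟩) hx
    · rw [dif_neg hT]
  · intro k
    apply Subtype.ext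
    funext x
    show (if hx : x ∈ g.region Γ.T then onV Γ g k.1 (mk x hx) else 0) = k.1 x
    by_cases hT : x ∈ g.region Γ.T
    · rw [dif_pos hT, honV, hmk1]
    · rw [dif_neg hT]
      exact (k.2 x fun hc => hT ((hfree x).1 hc).1).symm
  · intro h
    apply Subtype.ext
    funext x
    show onV Γ g (fun x => if hx : x ∈ g.region Γ.T then (h : (Γ.graph g).V → ℤ) (mk x hx) else 0) x = (h : (Γ.graph g).V → ℤ) x
    rw [honV, dif_pos (hpos x), hmk2]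

/-- SM-D2: from `rlaw_ok_cell_pin` (Proper + Ok), `HLaw.Z_eq_w`, `sm_lat_equiv` (`Equiv.tsum_eq`), `sm_W_eq`. -/
theorem zG_eq_zs (b : ℝ) (hb : 0 < b) (Γ : CGeom m₁ m₂) (g : DGrid m₁ m₂) (p : Finset (Cell m₁ m₂)) (τ : Bond → ℤ) (v : ℤ × ℤ → ℝ) (u : ℤ × ℤ → ℤ) :
    zG b Γ g p τ v u = zs b g (bonds Γ g) Γ.T (freeS Γ g p) τ v u := by
  obtain ⟨φ, hφ⟩ := sm_lat_equiv Γ g p
  unfold zG zs
  rw [← HLaw.Z_eq_w _ (rlaw_ok_cell_pin Γ g b hb (Γ.sites g p)).2]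
  unfold HLaw.Z
  rw [← φ.tsum_eq]
  refine tsum_congr fun k => ?_
  rw [one_mul, hφ k]
  exact sm_W_eq b Γ g (Γ.sites g p) τ v u k.1

/-- SM-D2: `lsys_summable` (with `Y = 0`) transported by `Rsd.coordL_bijective` and `sm_lat_equiv`; `sm_W_eq`. -/
theorem zG_summable (b : ℝ) (hb : 0 < b) (Γ : CGeom m₁ m₂) (g : DGrid m₁ m₂) (p : Finset (Cell m₁ m₂)) (τ : Bond → ℤ) (v : ℤ × ℤ → ℝ) (u : ℤ × ℤ → ℤ) :
    Summable fun k : Sup (freeS Γ g p) => wz b g (bonds Γ g) Γ.T τ v fun x => k.1 x + u x := by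
  obtain ⟨φ, hφ⟩ := sm_lat_equiv Γ g p
  obtain ⟨hok, hP⟩ := rlaw_ok_cell_pin Γ g b hb (Γ.sites g p)
  have hs := lsys_summable _ hok
    (HLaw.Aff.amb (H := (rlaw Γ g cellRow).addPin (Γ.sites g p)) ⟨onV Γ g u, onE Γ g τ, (rlaw Γ g cellRow).obs (onV Γ g v)⟩ b) 0
  have hinj : Function.Injective fun k : Sup (freeS Γ g p) => Rsd.coordL ((rlaw Γ g cellRow).addPin (Γ.sites g p)) b (φ k) :=
    (Rsd.coordL_injective _ hP b).comp φ.injective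
  refine (hs.comp_injective hinj).congr fun k => ?_
  show Real.exp 0 * _ = _
  rw [Real.exp_zero, one_mul, Rsd.coordL_coe, hφ k]
  exact sm_W_eq b Γ g (Γ.sites g p) τ v u k.1

theorem sm_addPin_w {G : HGraph} (H : HLaw G) (A : Set G.V) (hA : H.Λ ⊓ HLaw.pinned A = H.Λ) (b : ℝ) (α : (H.sys b).Amb) :
    ((H.addPin A).sys b).w α = (H.sys b).w α := by
  show (secWithL (H.sys b) ((H.Λ ⊓ HLaw.pinned A).map H.coord)).w α = (secWithL (H.sys b) (H.Λ.map H.coord)).w α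
  rw [hA]

/-- SM-D2: `sites ∅ = ∅`, `pinned ∅ = ⊤`, so the two systems have the same lattice; `onV 0 = 0`. -/
theorem zT_eq_zG (b : ℝ) (Γ : CGeom m₁ m₂) (g : DGrid m₁ m₂) (τ : Bond → ℤ) (v : ℤ × ℤ → ℝ) : zT b Γ g τ v = zG b Γ g ∅ τ v 0 := by
  have hA : (rlaw Γ g cellRow).Λ ⊓ HLaw.pinned (Γ.sites g ∅) = (rlaw Γ g cellRow).Λ := by
    refine inf_eq_left.2 fun h _ x hx => ?_
    have : domPos (D := g.region Γ.T) (cut := Γ.cutB g) x ∈ g.region (∅ : Finset (Cell m₁ m₂)) := hx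
    rw [sm_region_empty] at this
    exact absurd this (Finset.notMem_empty _)
  exact (sm_addPin_w (rlaw Γ g cellRow) (Γ.sites g ∅) hA b _).symm

/-! ## [B] LEAF SM-B: bonds of restricted / cut geometries (~250 l.; everything from `sm_mem_bonds'`, `sm_cell_unique`, `sm_faceNbr`, `sm_mem_region`) -/

/-- every uncut face of the geometry has both cells in `W₁` or both cells in `W₂` -/
def SepW (Γ : CGeom m₁ m₂) (W₁ W₂ : Finset (Cell m₁ m₂)) : Prop :=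
  ∀ (f : CFace m₁ m₂) (κ' : Cell m₁ m₂), FaceNbr f κ' → f ∉ Γ.cutF → f.1 ∈ Γ.T → κ' ∈ Γ.T → (f.1 ∈ W₁ ∧ κ' ∈ W₁) ∨ (f.1 ∈ W₂ ∧ κ' ∈ W₂)

theorem stripM_eqns_cite2 : True := by
  have := @SepW.eq_1
  trivial

theorem sm_bonds_restr_mem (Γ : CGeom m₁ m₂) (g : DGrid m₁ m₂) (W : Finset (Cell m₁ m₂)) {e : Bond} (he : e ∈ bonds (restr Γ W) g) :
    e.1 ∈ g.region (Γ.T ∩ W) ∧ e.snd ∈ g.region (Γ.T ∩ W) := by
  have h := (sm_mem_bonds (restr Γ W) g e).1 he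
  exact ⟨h.1, h.2.1⟩

theorem sm_bonds_inter (Γ : CGeom m₁ m₂) (g : DGrid m₁ m₂) (W₁ W₂ : Finset (Cell m₁ m₂)) :
    bonds (restr Γ W₁) g ∩ bonds (restr Γ W₂) g = bonds (restr Γ (W₁ ∩ W₂)) g := by
  ext e
  rw [Finset.mem_inter, sm_mem_bonds', sm_mem_bonds', sm_mem_bonds']
  constructor
  · rintro ⟨⟨κ, hκ, κ', hκ', h1, h2, hc⟩, ⟨κ₂, hκ₂, κ₂', hκ₂', h1', h2', _⟩⟩
    have e1 : κ₂ = κ := sm_cell_unique g h1' h1
    have e2 : κ₂' = κ' := sm_cell_unique g h2' h2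
    subst e1 e2
    have a1 : κ₂ ∈ Γ.T ∩ W₁ := hκ
    have a2 : κ₂ ∈ Γ.T ∩ W₂ := hκ₂
    have a3 : κ₂' ∈ Γ.T ∩ W₁ := hκ'
    have a4 : κ₂' ∈ Γ.T ∩ W₂ := hκ₂'
    rw [Finset.mem_inter] at a1 a2 a3 a4
    refine ⟨κ₂, ?_, κ₂', ?_, h1, h2, hc⟩
    · show κ₂ ∈ Γ.T ∩ (W₁ ∩ W₂)
      exact Finset.mem_inter.2 ⟨a1.1, Finset.mem_inter.2 ⟨a1.2, a2.2⟩⟩
    · show κ₂' ∈ Γ.T ∩ (W₁ ∩ W₂)
      exact Finset.mem_inter.2 ⟨a3.1, Finset.mem_inter.2 ⟨a3.2, a4.2⟩⟩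
  · rintro ⟨κ, hκ, κ', hκ', h1, h2, hc⟩
    have a1 : κ ∈ Γ.T ∩ (W₁ ∩ W₂) := hκ
    have a2 : κ' ∈ Γ.T ∩ (W₁ ∩ W₂) := hκ'
    rw [Finset.mem_inter, Finset.mem_inter] at a1 a2
    refine ⟨⟨κ, ?_, κ', ?_, h1, h2, hc⟩, ⟨κ, ?_, κ', ?_, h1, h2, hc⟩⟩
    · show κ ∈ Γ.T ∩ W₁
      exact Finset.mem_inter.2 ⟨a1.1, a1.2.1⟩
    · show κ' ∈ Γ.T ∩ W₁
      exact Finset.mem_inter.2 ⟨a2.1, a2.2.1⟩
    · show κ ∈ Γ.T ∩ W₂
      exact Finset.mem_inter.2 ⟨a1.1, a1.2.2⟩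
    · show κ' ∈ Γ.T ∩ W₂
      exact Finset.mem_inter.2 ⟨a2.1, a2.2.2⟩

theorem sm_bonds_union (Γ : CGeom m₁ m₂) (g : DGrid m₁ m₂) (W₁ W₂ : Finset (Cell m₁ m₂)) (hT : Γ.T ⊆ W₁ ∪ W₂) (hsep : SepW Γ W₁ W₂) :
    bonds (restr Γ W₁) g ∪ bonds (restr Γ W₂) g = bonds Γ g := by
  ext e
  rw [Finset.mem_union, sm_mem_bonds', sm_mem_bonds', sm_mem_bonds']
  constructor
  · rintro (⟨κ, hκ, κ', hκ', h1, h2, hc⟩ | ⟨κ, hκ, κ', hκ', h1, h2, hc⟩)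
    · exact ⟨κ, (Finset.mem_inter.1 hκ).1, κ', (Finset.mem_inter.1 hκ').1, h1, h2, hc⟩
    · exact ⟨κ, (Finset.mem_inter.1 hκ).1, κ', (Finset.mem_inter.1 hκ').1, h1, h2, hc⟩
  · rintro ⟨κ, hκ, κ', hκ', h1, h2, hc⟩
    have key : (κ ∈ W₁ ∧ κ' ∈ W₁) ∨ (κ ∈ W₂ ∧ κ' ∈ W₂) := by
      by_cases hne : κ = κ'
      · subst hne
        rcases Finset.mem_union.1 (hT hκ) with h | h
        · exact Or.inl ⟨h, h⟩
        · exact Or.inr ⟨h, h⟩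
      · exact hsep (κ, e.2) κ' (sm_faceNbr g e h1 h2 hne) (hc hne) hκ hκ'
    rcases key with ⟨a, a'⟩ | ⟨a, a'⟩
    · exact Or.inl ⟨κ, Finset.mem_inter.2 ⟨hκ, a⟩, κ', Finset.mem_inter.2 ⟨hκ', a'⟩, h1, h2, hc⟩
    · exact Or.inr ⟨κ, Finset.mem_inter.2 ⟨hκ, a⟩, κ', Finset.mem_inter.2 ⟨hκ', a'⟩, h1, h2, hc⟩

/-- cutting faces which do not join two cells of `T ∩ W` does not change the bonds in `W` -/
theorem sm_bonds_addCut (Γ : CGeom m₁ m₂) (g : DGrid m₁ m₂) (S : Finset (CFace m₁ m₂)) (W : Finset (Cell m₁ m₂))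
    (hS : ∀ f ∈ S, ∀ κ', FaceNbr f κ' → ¬ (f.1 ∈ Γ.T ∩ W ∧ κ' ∈ Γ.T ∩ W)) :
    bonds (restr (addCut Γ S) W) g = bonds (restr Γ W) g := by
  ext e
  rw [sm_mem_bonds', sm_mem_bonds']
  constructor
  · rintro ⟨κ, hκ, κ', hκ', h1, h2, hc⟩
    exact ⟨κ, hκ, κ', hκ', h1, h2, fun hne hf => hc hne (Finset.mem_union_left _ hf)⟩
  · rintro ⟨κ, hκ, κ', hκ', h1, h2, hc⟩
    refine ⟨κ, hκ, κ', hκ', h1, h2, fun hne hf => ?_⟩
    rcases Finset.mem_union.1 hf with hf | hf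
    · exact hc hne hf
    · exact hS (κ, e.2) hf κ' (sm_faceNbr g e h1 h2 hne) ⟨hκ, hκ'⟩

/-! ## [F] LEAF SM-F: free sites (~200 l.; `Finset.ext`, `sm_mem_region`, `sm_cell_unique`) -/

theorem sm_mem_free (Γ : CGeom m₁ m₂) (g : DGrid m₁ m₂) (p : Finset (Cell m₁ m₂)) (x : ℤ × ℤ) :
    x ∈ freeS Γ g p ↔ x ∈ g.region Γ.T ∧ x ∉ g.region Γ.pin ∧ x ∉ g.region p := by
  unfold freeS
  rw [Finset.mem_sdiff, Finset.mem_union, not_or]

theorem sm_free_union (Γ : CGeom m₁ m₂) (g : DGrid m₁ m₂) (p W₁ W₂ : Finset (Cell m₁ m₂)) (hT : Γ.T ⊆ W₁ ∪ W₂) :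
    freeS (restr Γ W₁) g p ∪ freeS (restr Γ W₂) g p = freeS Γ g p := by
  have key : ∀ (W : Finset (Cell m₁ m₂)) (x : ℤ × ℤ), x ∈ freeS (restr Γ W) g p ↔ x ∈ g.region (Γ.T ∩ W) ∧ x ∈ freeS Γ g p := by
    intro W x
    rw [sm_mem_free, sm_mem_free]
    constructor
    · rintro ⟨h1, h2, h3⟩
      have h1' : x ∈ g.region (Γ.T ∩ W) := h1
      refine ⟨h1', sm_region_mono g Finset.inter_subset_left h1', fun h4 => h2 ?_, h3⟩
      obtain ⟨κ, hκ, hx⟩ := (sm_mem_region g _ x).1 h1'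
      obtain ⟨κ', hκ', hx'⟩ := (sm_mem_region g _ x).1 h4
      have := sm_cell_unique g hx hx'
      subst this
      exact (sm_mem_region g _ x).2 ⟨κ, Finset.mem_inter.2 ⟨hκ', (Finset.mem_inter.1 hκ).2⟩, hx⟩
    · rintro ⟨h1, _, h2, h3⟩
      exact ⟨h1, fun h4 => h2 (sm_region_mono g Finset.inter_subset_left h4), h3⟩
  ext x
  rw [Finset.mem_union, key, key]
  constructor
  · rintro (h | h)
    · exact h.2
    · exact h.2
  · intro h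
    obtain ⟨κ, hκ, hx⟩ := (sm_mem_region g _ x).1 ((sm_mem_free Γ g p x).1 h).1
    rcases Finset.mem_union.1 (hT hκ) with hW | hW
    · exact Or.inl ⟨(sm_mem_region g _ x).2 ⟨κ, Finset.mem_inter.2 ⟨hκ, hW⟩, hx⟩, h⟩
    · exact Or.inr ⟨(sm_mem_region g _ x).2 ⟨κ, Finset.mem_inter.2 ⟨hκ, hW⟩, hx⟩, h⟩

/-- a site of `T ∩ W₁` is not free in `W₂` when the overlap is guarded -/
theorem sm_free_not_mem (Γ : CGeom m₁ m₂) (g : DGrid m₁ m₂) (p W₁ W₂ : Finset (Cell m₁ m₂)) (hp : Γ.T ∩ W₁ ∩ W₂ ⊆ p) {x : ℤ × ℤ}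
    (hx : x ∈ g.region (Γ.T ∩ W₁)) : x ∉ freeS (restr Γ W₂) g p := by
  intro h
  rw [sm_mem_free] at h
  obtain ⟨h1, _, h3⟩ := h
  have h1' : x ∈ g.region (Γ.T ∩ W₂) := h1
  obtain ⟨κ, hκ, hxκ⟩ := (sm_mem_region g _ x).1 hx
  obtain ⟨κ', hκ', hxκ'⟩ := (sm_mem_region g _ x).1 h1'
  have := sm_cell_unique g hxκ hxκ'
  subst this
  exact h3 ((sm_mem_region g _ x).2 ⟨κ, hp (Finset.mem_inter.2 ⟨hκ, (Finset.mem_inter.1 hκ').2⟩), hxκ⟩)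

theorem sm_free_subset (Γ : CGeom m₁ m₂) (g : DGrid m₁ m₂) (p : Finset (Cell m₁ m₂)) : freeS Γ g p ⊆ g.region Γ.T :=
  Finset.sdiff_subset

theorem sm_free_empty (Γ : CGeom m₁ m₂) (g : DGrid m₁ m₂) (p : Finset (Cell m₁ m₂)) (hp : Γ.T ⊆ p) : freeS Γ g p = ∅ := by
  rw [Finset.eq_empty_iff_forall_notMem]
  intro x h
  rw [sm_mem_free] at h
  exact h.2.2 (sm_region_mono g hp h.1)

theorem sm_free_total (Γ : CGeom m₁ m₂) (g : DGrid m₁ m₂) (p : Finset (Cell m₁ m₂)) (hpT : p ⊆ Γ.T) (hp : Disjoint p Γ.pin) :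
    g.region p ∪ freeS Γ g p = freeS Γ g ∅ ∧ Disjoint (g.region p) (freeS Γ g p) := by
  constructor
  · ext x
    rw [Finset.mem_union, sm_mem_free, sm_mem_free, sm_region_empty]
    constructor
    · rintro (h | h)
      · exact ⟨sm_region_mono g hpT h, Finset.disjoint_left.1 (sm_region_disjoint g hp) h, Finset.notMem_empty x⟩
      · exact ⟨h.1, h.2.1, Finset.notMem_empty x⟩
    · rintro ⟨h1, h2, _⟩
      by_cases h : x ∈ g.region p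
      · exact Or.inl h
      · exact Or.inr ⟨h1, h2, h⟩
  · rw [Finset.disjoint_left]
    intro x h1 h2
    exact ((sm_mem_free Γ g p x).1 h2).2.2 h1

theorem sm_free_off (Γ : CGeom m₁ m₂) (g : DGrid m₁ m₂) (p : Finset (Cell m₁ m₂)) (hp : Disjoint p Γ.T) : freeS Γ g p = freeS Γ g ∅ := by
  ext x
  rw [sm_mem_free, sm_mem_free, sm_region_empty]
  constructor
  · rintro ⟨h1, h2, _⟩
    exact ⟨h1, h2, Finset.notMem_empty x⟩
  · rintro ⟨h1, h2, _⟩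
    exact ⟨h1, h2, Finset.disjoint_right.1 (sm_region_disjoint g hp) h1⟩

/-! ## GLUE (proved) -/

theorem restr_restr_of_subset (Γ : CGeom m₁ m₂) {W X : Finset (Cell m₁ m₂)} (h : X ⊆ W) : restr (restr Γ W) X = restr Γ X := by
  have e : W ∩ X = X := Finset.inter_eq_right.2 h
  simp only [restr, Finset.inter_assoc, e]

/-- **the general splitting**: `T ⊆ W₁ ∪ W₂`, the overlap is guarded, every uncut face lies in one of the two pieces. -/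
theorem zG_split2 (b : ℝ) (hb : 0 < b) (Γ : CGeom m₁ m₂) (g : DGrid m₁ m₂) (p W₁ W₂ : Finset (Cell m₁ m₂))
    (hT : Γ.T ⊆ W₁ ∪ W₂) (hp : Γ.T ∩ W₁ ∩ W₂ ⊆ p) (hsep : SepW Γ W₁ W₂) (τ : Bond → ℤ) (v : ℤ × ℤ → ℝ) (u : ℤ × ℤ → ℤ) :
    zG b Γ g p τ v u * zG b (restr Γ (W₁ ∩ W₂)) g p τ v u = zG b (restr Γ W₁) g p τ v u * zG b (restr Γ W₂) g p τ v u := by
  have hp' : Γ.T ∩ W₂ ∩ W₁ ⊆ p := by
    intro κ hκ
    apply hp
    simp only [Finset.mem_inter] at hκ ⊢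
    tauto
  have hdis : Disjoint (freeS (restr Γ W₁) g p) (freeS (restr Γ W₂) g p) := by
    rw [Finset.disjoint_left]
    intro x hx
    exact sm_free_not_mem Γ g p W₁ W₂ hp (sm_free_subset (restr Γ W₁) g p hx)
  have h := zs_split b g (bonds (restr Γ W₁) g) (bonds (restr Γ W₂) g) (Γ.T ∩ W₁) (Γ.T ∩ W₂)
    (freeS (restr Γ W₁) g p) (freeS (restr Γ W₂) g p) hdis τ v u
    (fun e he => ⟨sm_free_not_mem Γ g p W₁ W₂ hp (sm_bonds_restr_mem Γ g W₁ he).1,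
      sm_free_not_mem Γ g p W₁ W₂ hp (sm_bonds_restr_mem Γ g W₁ he).2⟩)
    (fun e he => ⟨sm_free_not_mem Γ g p W₂ W₁ hp' (sm_bonds_restr_mem Γ g W₂ he).1,
      sm_free_not_mem Γ g p W₂ W₁ hp' (sm_bonds_restr_mem Γ g W₂ he).2⟩)
    (fun κ hκ x hx => sm_free_not_mem Γ g p W₁ W₂ hp ((sm_mem_region g _ x).2 ⟨κ, hκ, hx⟩))
    (fun κ hκ x hx => sm_free_not_mem Γ g p W₂ W₁ hp' ((sm_mem_region g _ x).2 ⟨κ, hκ, hx⟩))
    (zG_summable b hb (restr Γ W₁) g p τ v u) (zG_summable b hb (restr Γ W₂) g p τ v u)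
  have eT1 : Γ.T ∩ W₁ ∪ Γ.T ∩ W₂ = Γ.T := by
    rw [← Finset.inter_union_distrib_left]
    exact Finset.inter_eq_left.2 hT
  have eT2 : Γ.T ∩ W₁ ∩ (Γ.T ∩ W₂) = Γ.T ∩ (W₁ ∩ W₂) := by
    ext κ
    simp only [Finset.mem_inter]
    tauto
  rw [sm_bonds_union Γ g W₁ W₂ hT hsep, sm_bonds_inter, sm_free_union Γ g p W₁ W₂ hT, eT1, eT2] at h
  have e0 : freeS (restr Γ (W₁ ∩ W₂)) g p = ∅ := sm_free_empty _ g p (by
    intro κ hκ
    apply hp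
    have : κ ∈ Γ.T ∩ (W₁ ∩ W₂) := hκ
    simp only [Finset.mem_inter] at this ⊢
    tauto)
  rw [zG_eq_zs b hb Γ, zG_eq_zs b hb (restr Γ (W₁ ∩ W₂)), zG_eq_zs b hb (restr Γ W₁), zG_eq_zs b hb (restr Γ W₂), e0]
  exact h

theorem zG_restr_empty (b : ℝ) (hb : 0 < b) (Γ : CGeom m₁ m₂) (g : DGrid m₁ m₂) (p : Finset (Cell m₁ m₂)) (τ : Bond → ℤ) (v : ℤ × ℤ → ℝ)
    (u : ℤ × ℤ → ℤ) : zG b (restr Γ ∅) g p τ v u = 1 := by
  have e1 : bonds (restr Γ ∅) g = ∅ := by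
    rw [Finset.eq_empty_iff_forall_notMem]
    intro e he
    have := (sm_bonds_restr_mem Γ g ∅ he).1
    rw [Finset.inter_empty, sm_region_empty] at this
    exact absurd this (Finset.notMem_empty _)
  have e2 : (restr Γ ∅).T = ∅ := Finset.inter_empty _
  have e3 : freeS (restr Γ ∅) g p = ∅ := sm_free_empty _ g p (by rw [e2]; exact Finset.empty_subset _)
  rw [zG_eq_zs b hb, e1, e2, e3, zs_empty, wz_empty]

/-- cuts outside `T ∩ X` are not seen in `X` -/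
theorem zG_addCut_restr (b : ℝ) (hb : 0 < b) (Γ : CGeom m₁ m₂) (g : DGrid m₁ m₂) (S : Finset (CFace m₁ m₂)) (X p : Finset (Cell m₁ m₂))
    (hS : ∀ f ∈ S, ∀ κ', FaceNbr f κ' → ¬ (f.1 ∈ Γ.T ∩ X ∧ κ' ∈ Γ.T ∩ X)) (τ : Bond → ℤ) (v : ℤ × ℤ → ℝ) (u : ℤ × ℤ → ℤ) :
    zG b (restr (addCut Γ S) X) g p τ v u = zG b (restr Γ X) g p τ v u := by
  rw [zG_eq_zs b hb, zG_eq_zs b hb, sm_bonds_addCut Γ g S X hS]
  rfl

/-- a guard and data outside the geometry are not seen -/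
theorem zG_off (b : ℝ) (hb : 0 < b) (Γ : CGeom m₁ m₂) (g : DGrid m₁ m₂) (p : Finset (Cell m₁ m₂)) (hp : Disjoint p Γ.T)
    (τ : Bond → ℤ) (v : ℤ × ℤ → ℝ) (u : ℤ × ℤ → ℤ) (hu : ∀ x, x ∉ g.region p → u x = 0) :
    zG b Γ g p τ v u = zT b Γ g τ v := by
  have hx : ∀ x ∈ g.region Γ.T, u x = (0 : ℤ × ℤ → ℤ) x := by
    intro x hx
    exact hu x (Finset.disjoint_right.1 (sm_region_disjoint g hp) hx)
  rw [zT_eq_zG, zG_eq_zs b hb, zG_eq_zs b hb, sm_free_off Γ g p hp]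
  refine zs_congr b g _ _ _ τ v u 0 (fun e he => ?_) (fun κ hκ x hxκ => hx x ((sm_mem_region g _ x).2 ⟨κ, hκ, hxκ⟩))
  have := (sm_mem_bonds Γ g e).1 he
  exact ⟨hx _ this.1, hx _ this.2.1⟩

end

end Claimed.Agent.R285.Sec
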