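import Claimed.Agent.R285.Sec.Fin

/-!
# ROW 285, layer Sec, leaf file Tilt: [S]L2.8 with real tilts and the finite core of the upper bound of [S]T3.1 (03-sectors.tex l.52-85).      Paper-free: `Base/Height` + `Sec/Fin`.
PLAN for `cut_comparison_tilt`.  Intermediate system `S''`: `E` = all bonds of `domG D cut`, `L'' = {(∇h on the kept bonds, arbitrary integers on the deleted bonds), B 2π h}`.  `Ref S'' (H.sys b)` with `iE = id`: `lsys_ratio_mono` with
`Y z = ∑_e t_e z_e`.  `S''` is a product: `S''.wT = (cut system).wT * ∏_{deleted e} ∑_j p_b(j + τ_e) e^{t_e j}`, `∑_j p_b(j+τ) e^{t (j+τ)} = exp(b (cosh t - 1))` (`bes_mgf`), and `S''.w 0 = (cut system).w 0` (`t = 0`).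
The tilt sits on the affine increment `z_e + α_e`, so both sides carry the same factor `exp(∑ t_e τ_e)`.
PLAN for `tilt_upper`.  `t = 2π w`.  (1) `tiltRatio_G(τ,t) = exp(∑ t_e τ_e) F` because `∑_e t_e ∇_e h = 0` for `h ∈ Λ` (`hw` with `u = h`).  (2) `cut_comparison_tilt`.  (3) on the cut graph `τ = ∇ψ`, `ψ ∈ Λ`: reindex `z ↦ z - coord ψ`
(`Equiv.tsum_eq`): `tiltRatio_cut(τ,t) = E⁰ exp(flowX)`.  Take logarithms.
-/

set_option autoImplicit false

namespace Claimed.Agent.R285.Sec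

open Filter Topology S23
open scoped Classical

noncomputable section

/-! ### abstract part: new Bessel coordinates retained independently, with their tilt -/

/-- the affine sum with a real tilt on the AFFINE integer coordinates -/
def secTA (S : LSys) (α : S.Amb) (t : S.E → ℝ) : ℝ :=
  S.Zf α fun z => Real.exp (∑ e : S.E, t e * ((((z : S.Amb) + α).1 e : ℤ) : ℝ))

/-- the statistic `z ↦ ∑ t_e z_e` -/
def secTY (S : LSys) (t : S.E → ℝ) : S.L →+ ℝ where
  toFun z := ∑ e : S.E, t e * ((((z : S.Amb)).1 e : ℤ) : ℝ)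
  map_zero' := by simp
  map_add' z z' := by
    simp only [AddSubgroup.coe_add, Prod.fst_add, Pi.add_apply, Int.cast_add, mul_add, Finset.sum_add_distrib]

theorem sec_tl_TA_eq (S : LSys) (α : S.Amb) (t : S.E → ℝ) :
    secTA S α t = Real.exp (∑ e : S.E, t e * ((α.1 e : ℤ) : ℝ)) * S.wT α (secTY S t) := by
  unfold secTA LSys.wT LSys.Zf
  rw [← tsum_mul_left]
  refine tsum_congr fun z => ?_
  rw [← mul_assoc, ← Real.exp_add]
  congr 1
  show Real.exp (∑ e : S.E, t e * ((((z : S.Amb) + α).1 e : ℤ) : ℝ))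
    = Real.exp (_ + ∑ e : S.E, t e * ((((z : S.Amb)).1 e : ℤ) : ℝ))
  congr 1
  rw [← Finset.sum_add_distrib]
  refine Finset.sum_congr rfl fun e _ => ?_
  simp only [Prod.fst_add, Pi.add_apply, Int.cast_add]
  ring

theorem sec_tl_TA_zero (S : LSys) : secTA S 0 0 = S.w 0 := by
  unfold secTA LSys.w
  congr 1
  funext z
  simp

/-- nonnegative product sums factorise (no summability needed) -/
theorem sec_tl_tsum_prod {α β : Type*} (f : α → ℝ) (g : β → ℝ) (hf : ∀ a, 0 ≤ f a) (hg : ∀ b, 0 ≤ g b) :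
    ∑' p : α × β, f p.1 * g p.2 = (∑' a, f a) * ∑' b, g b := by
  rw [Rsd.cs_tsum_eq_toReal _ fun p : α × β => mul_nonneg (hf p.1) (hg p.2), Rsd.cs_tsum_eq_toReal f hf,
    Rsd.cs_tsum_eq_toReal g hg, ← ENNReal.toReal_mul]
  congr 1
  rw [ENNReal.tsum_prod', ← ENNReal.tsum_mul_right]
  refine tsum_congr fun a => ?_
  rw [← ENNReal.tsum_mul_left]
  exact tsum_congr fun b => ENNReal.ofReal_mul (hf a)

variable {S S' : LSys} (r : LSys.Ref S S')

/-- the intermediate system: the old lattice, all new integer coordinates free -/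
abbrev secMid : LSys := { E := S'.E, O := S'.O, b := S'.b, L := S.L.comap r.res }

/-- `S'` refines the intermediate system -/
def secMidRef : LSys.Ref (secMid r) S' where
  iE := Function.Embedding.refl _
  iO := Function.Embedding.refl _
  hb _ := rfl
  map_mem z hz := r.map_mem z hz


theorem sec_tl_mid_ok (hO : Function.Surjective r.iO) (hS : S.Ok) (hb' : ∀ e, 0 < S'.b e) : (secMid r).Ok := by
  obtain ⟨-, n, v, hv, hL⟩ := hS
  have hvL : ∀ i, v i ∈ S.L := fun i => by rw [hL]; exact AddSubgroup.subset_closure ⟨i, rfl⟩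
  have hemp : IsEmpty (Rsd.nO r) := ⟨fun o => o.2 (hO o.1)⟩
  obtain ⟨u, hu1, hu2⟩ : ∃ u : Fin n ⊕ Rsd.nE r → S'.Amb,
      (∀ i, u (Sum.inl i) = Rsd.ext r ((⟨v i, hvL i⟩, 0), 0)) ∧ ∀ d, u (Sum.inr d) = Rsd.ext r ((0, Pi.single d 1), 0) :=
    ⟨Sum.elim (fun i => Rsd.ext r ((⟨v i, hvL i⟩, 0), 0)) (fun d => Rsd.ext r ((0, Pi.single d 1), 0)),
      fun _ => rfl, fun _ => rfl⟩
  refine Rsd.kit_ok_of_le (secMid r) hb' (ι := Fin n ⊕ Rsd.nE r) u ?_ ?_
  · rw [Fintype.linearIndependent_iff]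
    intro c hc
    have hreal : ∀ y : S'.Amb, (secMid r).real y = S'.real y := fun _ => rfl
    simp only [hreal] at hc
    rw [Fintype.sum_sum_type] at hc
    simp only [hu1, hu2] at hc
    -- old coordinates
    have h1 : ∑ i, c (Sum.inl i) • S.real (v i) = 0 := by
      have hR : ∀ y : S'.Amb, (LinearMap.prodMap (LinearMap.funLeft ℝ ℝ r.iE) (LinearMap.funLeft ℝ ℝ r.iO)) (S'.real y)
          = S.real (r.res y) := fun _ => rfl
      have := congrArg (LinearMap.prodMap (LinearMap.funLeft ℝ ℝ r.iE) (LinearMap.funLeft ℝ ℝ r.iO)) hc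
      simp only [map_add, map_sum, map_smul, hR, Rsd.res_ext, map_zero] at this
      have h0 : S.real (0 : S.Amb) = 0 := (Rsd.realHom S).map_zero
      simpa [h0] using this
    have hc1 := Fintype.linearIndependent_iff.1 hv _ h1
    -- new coordinates
    have h2 : ∀ d : Rsd.nE r, c (Sum.inr d) = 0 := by
      intro d
      have hR : ∀ y : S'.Amb, (S'.real y).1 d.1 = ((Rsd.resE r y d : ℤ) : ℝ) := fun _ => rfl
      have := congrFun (congrArg Prod.fst hc) d.1
      simp only [Prod.fst_add, Prod.fst_sum, Prod.smul_fst, Pi.add_apply, Finset.sum_apply, Pi.smul_apply, hR,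
        Rsd.resE_ext, hc1] at this
      simpa [Pi.single_apply] using this
    rintro (i | d)
    exacts [hc1 i, h2 d]
  · intro z hz
    have hz' : r.res z ∈ AddSubgroup.closure (Set.range v) := hL ▸ hz
    rw [← Submodule.span_int_eq_addSubgroupClosure, Submodule.mem_toAddSubgroup,
      Submodule.mem_span_range_iff_exists_fun] at hz'
    obtain ⟨a, ha⟩ := hz'
    have e : z = ∑ i, a i • u (Sum.inl i) + ∑ d, Rsd.resE r z d • u (Sum.inr d) := by
      apply Rsd.amb_ext r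
      · simp only [map_add, map_sum, map_zsmul, hu1, hu2, Rsd.res_ext]
        rw [ha]
        simp
      · simp only [map_add, map_sum, map_zsmul, hu1, hu2, Rsd.resE_ext]
        funext d
        simp [Finset.sum_apply, Pi.single_apply]
      · exact Subsingleton.elim _ _
    rw [e]
    exact AddSubgroup.add_mem _
      (AddSubgroup.sum_mem _ fun i _ => AddSubgroup.zsmul_mem _ (AddSubgroup.subset_closure (Set.mem_range_self _)) _)
      (AddSubgroup.sum_mem _ fun d _ => AddSubgroup.zsmul_mem _ (AddSubgroup.subset_closure (Set.mem_range_self _)) _)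

/-- the lattice of the intermediate system is a product -/
def secMidEquiv (hO : Function.Surjective r.iO) : S.L × (Rsd.nE r → ℤ) ≃ (secMid r).L where
  toFun p := ⟨(Rsd.ext (S := S) (S' := S') r (p, 0) : S'.Amb), by
    show r.res (Rsd.ext r (p, 0)) ∈ S.L
    rw [Rsd.res_ext]
    exact p.1.2⟩
  invFun z := (⟨r.res z, z.2⟩, Rsd.resE r z)
  left_inv p := by
    refine Prod.ext (Subtype.ext ?_) ?_
    · simp
    · simp
  right_inv z := by
    apply Subtype.ext
    apply Rsd.amb_ext r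
    · simp
    · simp
    · funext o
      exact absurd (hO o.1) o.2

theorem sec_tl_mid_TA (hO : Function.Surjective r.iO) (hb : ∀ e, 0 < S.b e) (hb' : ∀ e, 0 < S'.b e) (α' : S'.Amb)
    (t : S'.E → ℝ) :
    secTA (secMid r) α' t = secTA S (r.res α') (fun e => t (r.iE e))
      * Real.exp (∑ d : Rsd.nE r, S'.b d.1 * (Real.cosh (t d.1) - 1)) := by
  have hemp : IsEmpty (Rsd.nO r) := ⟨fun o => o.2 (hO o.1)⟩
  unfold secTA LSys.Zf
  rw [← (secMidEquiv r hO).tsum_eq]
  have e : ∀ p : S.L × (Rsd.nE r → ℤ),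
      Real.exp (∑ e' : S'.E, t e' * (((((secMidEquiv r hO p : (secMid r).L) : S'.Amb) + α').1 e' : ℤ) : ℝ))
        * (secMid r).W (((secMidEquiv r hO p : (secMid r).L) : S'.Amb) + α')
      = (Real.exp (∑ e : S.E, t (r.iE e) * ((((p.1 : S.Amb) + r.res α').1 e : ℤ) : ℝ)) * S.W ((p.1 : S.Amb) + r.res α'))
        * ∏ d : Rsd.nE r, (fun (d : Rsd.nE r) (k : ℤ) => bes (S'.b d.1) k * Real.exp (t d.1 * k)) d
            ((p.2 + Rsd.resE r α') d) := by
    intro p
    have hW : (secMid r).W (((secMidEquiv r hO p : (secMid r).L) : S'.Amb) + α')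
        = S'.W (Rsd.ext r (p, 0) + α') := rfl
    have hy : ((secMidEquiv r hO p : (secMid r).L) : S'.Amb) = Rsd.ext r (p, 0) := rfl
    rw [hW, hy, Rsd.W_ext_add]
    have h1 := Rsd.cs_sum_split_sum r.iE (fun e : Rsd.nE r => e.1) (Rsd.cs_bijective_elim_compl r.iE)
      fun e' => t e' * ((((Rsd.ext r (p, 0) + α').1 e' : ℤ)) : ℝ)
    rw [h1, Real.exp_add]
    have h2 : ∀ e : S.E, (Rsd.ext r (p, 0) + α').1 (r.iE e) = ((p.1 : S.Amb) + r.res α').1 e := by
      intro e
      have : r.res (Rsd.ext r (p, 0) + α') = (p.1 : S.Amb) + r.res α' := by rw [map_add, Rsd.res_ext]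
      rw [← this]
      rfl
    have h3 : ∀ d : Rsd.nE r, (Rsd.ext r (p, 0) + α').1 d.1 = (p.2 + Rsd.resE r α') d := by
      intro d
      have : Rsd.resE r (Rsd.ext r (p, 0) + α') = p.2 + Rsd.resE r α' := by rw [map_add, Rsd.resE_ext]
      rw [← this]
      rfl
    simp only [h2, h3]
    unfold Rsd.Wnew
    rw [Finset.prod_mul_distrib, ← Real.exp_sum]
    have h4 : (∑ o : Rsd.nO r, ((0 : Rsd.nO r → ℝ) + Rsd.resO r α') o ^ 2) = 0 :=
      Finset.sum_eq_zero fun o _ => (hemp.false o).elim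
    rw [h4, neg_zero, zero_div, Real.exp_zero, mul_one]
    ring
  rw [tsum_congr e, sec_tl_tsum_prod
    (fun ℓ : S.L => Real.exp (∑ e : S.E, t (r.iE e) * ((((ℓ : S.Amb) + r.res α').1 e : ℤ) : ℝ)) * S.W ((ℓ : S.Amb) + r.res α'))
    (fun j : Rsd.nE r → ℤ => ∏ d : Rsd.nE r, (fun (d : Rsd.nE r) (k : ℤ) => bes (S'.b d.1) k * Real.exp (t d.1 * k)) d
            ((j + Rsd.resE r α') d))
    (fun ℓ => mul_nonneg (Real.exp_pos _).le (Rsd.cs_W_pos S hb _).le)
    (fun j => Finset.prod_nonneg fun d _ => mul_nonneg (bes_pos _ (hb' _) _).le (Real.exp_pos _).le)]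
  congr 1
  have e7 := (Equiv.addRight (Rsd.resE r α')).tsum_eq fun j : Rsd.nE r → ℤ =>
      ∏ d : Rsd.nE r, (fun (d : Rsd.nE r) (k : ℤ) => bes (S'.b d.1) k * Real.exp (t d.1 * k)) d (j d)
  refine e7.trans ?_
  rw [Rsd.cs_real_tsum_pi (fun (d : Rsd.nE r) (k : ℤ) => bes (S'.b d.1) k * Real.exp (t d.1 * k))
    fun d k => mul_nonneg (bes_pos _ (hb' _) _).le (Real.exp_pos _).le, Real.exp_sum]
  exact Finset.prod_congr rfl fun d _ => bes_mgf _ (hb' _).le _

/-- **abstract form of [S]L2.8 with a real tilt**: new Bessel coordinates (no new Gaussian coordinate). -/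
theorem sec_tl_ref (hO : Function.Surjective r.iO) (hS : S.Ok) (hS' : S'.Ok) (α' : S'.Amb) (t : S'.E → ℝ) :
    secTA S' α' t / S'.w 0 ≤ secTA S (r.res α') (fun e => t (r.iE e)) / S.w 0
      * Real.exp (∑ d : Rsd.nE r, S'.b d.1 * (Real.cosh (t d.1) - 1)) := by
  have hM := sec_tl_mid_ok r hO hS hS'.1
  have h := lsys_ratio_mono (secMidRef r) hM hS' α' (secTY (secMid r) t)
  have e1 : (secTY (secMid r) t).comp (secMidRef r).psi = secTY S' t := rfl
  have e2 : (secMidRef r).res α' = α' := rfl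
  rw [e1, e2] at h
  have e3 : (secMid r).w 0 = S.w 0 := by
    have := sec_tl_mid_TA r hO hS.1 hS'.1 0 0
    rw [sec_tl_TA_zero, map_zero] at this
    have e4 : (fun e : S.E => (0 : S'.E → ℝ) (r.iE e)) = 0 := rfl
    rw [e4, sec_tl_TA_zero] at this
    simpa using this
  rw [e3] at h
  have h5 := mul_le_mul_of_nonneg_left h (Real.exp_pos (∑ e : S'.E, t e * ((α'.1 e : ℤ) : ℝ))).le
  rw [← mul_div_assoc, ← mul_div_assoc, ← sec_tl_TA_eq] at h5
  have e6 : Real.exp (∑ e : S'.E, t e * ((α'.1 e : ℤ) : ℝ)) * (secMid r).wT α' (secTY (secMid r) t)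
      = secTA (secMid r) α' t := (sec_tl_TA_eq (secMid r) α' t).symm
  rw [e6, sec_tl_mid_TA r hO hS.1 hS'.1] at h5
  calc _ ≤ _ := h5
    _ = _ := by ring

theorem sec_tl_tiltRatio {G : HGraph} (H : HLaw G) (b : ℝ) (α : H.Aff) (t : G.E → ℝ) :
    tiltRatio H b α t = secTA (H.sys b) (α.amb b) t / (H.sys b).w 0 := rfl

/-- **L2.8 with a real tilt**: every deleted increment is retained independently, with its tilt: factor `E e^{t J} = exp(b (cosh t - 1))`. -/
theorem cut_comparison_tilt {D : Finset (ℤ × ℤ)} {cut cut' : Set Bond} (hcc : cut ⊆ cut') (H : HLaw (domG D cut)) (b : ℝ) (hb : 0 < b)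
    (hok : (H.sys b).Ok) (hok' : ((recut H cut').sys b).Ok) (x : ℤ × ℤ → ℤ) (τ : Bond → ℤ) (c : H.O → ℝ) (t : Bond → ℝ) :
    tiltRatio H b (affOf H x τ c) (domFnE t) ≤
      tiltRatio (recut H cut') b (affOf (recut H cut') x τ c) (domFnE t) *
        Real.exp (∑ e : (domG D cut).E, if domBond e ∈ cut' then b * (Real.cosh (t (domBond e)) - 1) else 0) := by
  have h := sec_tl_ref (recutRef hcc H b) (fun o => ⟨o, rfl⟩) hok' hok ((affOf H x τ c).amb b) (domFnE t)
  rw [recutRef_res] at h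
  rw [sec_tl_tiltRatio, sec_tl_tiltRatio]
  have e1 : (∑ d : Rsd.nE (recutRef hcc H b), (H.sys b).b d.1 * (Real.cosh ((domFnE t : (domG D cut).E → ℝ) d.1) - 1))
      = ∑ e : (domG D cut).E, if domBond e ∈ cut' then b * (Real.cosh (t (domBond e)) - 1) else 0 := by
    have h1 := Rsd.cs_sum_split_sum (recutRef hcc H b).iE (fun e : Rsd.nE (recutRef hcc H b) => e.1)
      (Rsd.cs_bijective_elim_compl (recutRef hcc H b).iE)
      fun e : (domG D cut).E => if domBond e ∈ cut' then b * (Real.cosh (t (domBond e)) - 1) else 0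
    refine Eq.trans ?_ h1.symm
    have h2 : (∑ a : ((recut H cut').sys b).E, if domBond ((recutRef hcc H b).iE a) ∈ cut'
        then b * (Real.cosh (t (domBond ((recutRef hcc H b).iE a))) - 1) else 0) = 0 := by
      refine Finset.sum_eq_zero fun a _ => if_neg ?_
      exact (Finset.mem_filter.1 (Subtype.prop (p := fun e => e ∈ domBonds D cut') a)).2.2
    rw [h2, zero_add]
    refine Finset.sum_congr rfl fun d _ => ?_
    have hd : domBond d.1 ∈ cut' := by
      by_contra hn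
      have hd1 : domBond d.1 ∈ domBonds D cut := Subtype.prop (p := fun e => e ∈ domBonds D cut) d.1
      have hd2 : domBond d.1 ∈ domBonds D cut' := by
        rw [domBonds, Finset.mem_filter] at hd1 ⊢
        exact ⟨hd1.1, hd1.2.1, hn⟩
      exact d.2 ⟨(⟨domBond d.1, hd2⟩ : {e : Bond // e ∈ domBonds D cut'}), rfl⟩
    rw [if_pos hd]
    rfl
  rw [e1] at h
  exact h

/-- a datum in the lattice is removed by reindexing, together with the tilt on the affine increments -/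
theorem sec_tl_TA_gauge (S : LSys) (ζ : S.L) (t : S.E → ℝ) : secTA S (ζ : S.Amb) t = S.wT 0 (secTY S t) := by
  unfold secTA LSys.wT LSys.Zf
  refine ((Equiv.addRight ζ).tsum_eq fun z : S.L =>
    Real.exp (∑ e : S.E, t e * ((((z : S.Amb)).1 e : ℤ) : ℝ)) * S.W (z : S.Amb)).trans ?_
  refine tsum_congr fun z => ?_
  rw [add_zero]
  rfl

theorem sec_tl_tiltRatio_eq {G : HGraph} (H : HLaw G) (b : ℝ) (α : H.Aff) (t : G.E → ℝ) :
    tiltRatio H b α t = Real.exp (∑ e : G.E, t e * (((α.amb b).1 e : ℤ) : ℝ)) * ((H.sys b).wT (α.amb b) (flowX H b t) / (H.sys b).w 0) := by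
  rw [← mul_div_assoc]
  exact congrArg (· / (H.sys b).w 0) (sec_tl_TA_eq (H.sys b) (α.amb b) t)

theorem sec_tl_tiltRatio_gauge {G : HGraph} (H : HLaw G) (b : ℝ) (α : H.Aff) (t : G.E → ℝ) (ζ : (H.sys b).L)
    (hα : α.amb b = (ζ : (H.sys b).Amb)) : tiltRatio H b α t = (H.sys b).E0 fun z => Real.exp (flowX H b t z) := by
  rw [Rsd.cs_E0_exp, sec_tl_tiltRatio, hα]
  exact congrArg (· / (H.sys b).w 0) (sec_tl_TA_gauge (H.sys b) ζ t)

/-- sums over the edges of a `domG` -/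
theorem sec_tl_sum_E {D : Finset (ℤ × ℤ)} {cut : Set Bond} (F : Bond → ℝ) :
    ∑ e : (domG D cut).E, F (domBond e) = ∑ e ∈ domBonds D cut, F e :=
  (Finset.sum_subtype (F := (domG D cut).fE) (domBonds D cut) (p := fun e => e ∈ domBonds D cut) (fun _ => Iff.rfl) F).symm

theorem sec_tl_cutB_mono {m₁ m₂ : ℕ} (Γ : CGeom m₁ m₂) (F : Finset (CFace m₁ m₂)) (g : DGrid m₁ m₂) :
    Γ.cutB g ⊆ (addCut Γ F).cutB g := by
  rintro e ⟨f, hf, h⟩
  exact ⟨f, Finset.mem_union_left _ hf, h⟩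

theorem sec_tl_recut_rlaw {m₁ m₂ : ℕ} (Γ : CGeom m₁ m₂) (F : Finset (CFace m₁ m₂)) (g : DGrid m₁ m₂) :
    recut (D := g.region Γ.T) (cut := Γ.cutB g) (rlaw Γ g noRow) ((addCut Γ F).cutB g) = rlaw (addCut Γ F) g noRow := rfl

/-- **the finite core of the upper bound**: `w` is a flow on the bonds with `∑_e w_e ∇_e u = 0` for all `u` vanishing on the pins; `S` = faces to be cut; on the cut graph `τ = ∇ψ`, `ψ = 0` on the pins. -/
theorem tilt_upper {m₁ m₂ : ℕ} (b : ℝ) (hb : 0 < b) (Γ : CGeom m₁ m₂) (S : Finset (CFace m₁ m₂)) (g : DGrid m₁ m₂)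
    (τ : Bond → ℤ) (ψ : ℤ × ℤ → ℤ) (hψ : ∀ x ∈ g.region Γ.pin, ψ x = 0)
    (hτ : ∀ e ∈ bonds (addCut Γ S) g, τ e = ψ e.snd - ψ e.1)
    (w : Bond → ℝ)
    (hw : ∀ u : ℤ × ℤ → ℝ, (∀ x ∈ g.region Γ.pin, u x = 0) → ∑ e ∈ bonds Γ g, w e * (u e.snd - u e.1) = 0) :
    Real.log (confRatio b Γ g noRow τ 0) ≤
      - ∑ e ∈ bonds Γ g, w e * (2 * Real.pi * (τ e : ℝ))
      + (rlaw (addCut Γ S) g noRow).logLap b (flowX (rlaw (addCut Γ S) g noRow) b (onE (addCut Γ S) g fun e => 2 * Real.pi * w e))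
      + ∑ e ∈ (bonds Γ g).filter (fun e => e ∈ crossB g S), b * (Real.cosh (2 * Real.pi * w e) - 1) := by
  have hok := rlaw_ok_noRow Γ g b hb
  have hok' := rlaw_ok_noRow (addCut Γ S) g b hb
  have h := cut_comparison_tilt (D := g.region Γ.T) (cut := Γ.cutB g) (sec_tl_cutB_mono Γ S g) (rlaw Γ g noRow) b hb hok hok'
    0 τ ((rlaw Γ g noRow).obs (onV Γ g 0)) (fun e => 2 * Real.pi * w e)
  -- (1) the left side
  have e1 : tiltRatio (rlaw Γ g noRow) b ⟨0, onE Γ g τ, (rlaw Γ g noRow).obs (onV Γ g 0)⟩ (onE Γ g fun e => 2 * Real.pi * w e)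
      = Real.exp (∑ e ∈ bonds Γ g, w e * (2 * Real.pi * (τ e : ℝ))) * confRatio b Γ g noRow τ 0 := by
    rw [sec_tl_tiltRatio_eq]
    have hY : flowX (rlaw Γ g noRow) b (onE Γ g fun e => 2 * Real.pi * w e) = 0 := by
      ext ⟨z, hz⟩
      obtain ⟨k, hk, rfl⟩ := AddSubgroup.mem_map.1 hz
      obtain ⟨U, hU⟩ : ∃ U : ℤ × ℤ → ℝ, (∀ (p : ℤ × ℤ) (hp : p ∈ g.region Γ.T), U p = (k ⟨p, hp⟩ : ℝ)) ∧
          ∀ p, p ∉ g.region Γ.T → U p = 0 :=
        ⟨fun p => if hp : p ∈ g.region Γ.T then (k ⟨p, hp⟩ : ℝ) else 0, fun p hp => dif_pos hp, fun p hp => dif_neg hp⟩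
      have h0 := hw U (fun x hx => by
        by_cases hxT : x ∈ g.region Γ.T
        · rw [hU.1 x hxT, hk ⟨x, hxT⟩ hx, Int.cast_zero]
        · exact hU.2 x hxT)
      have h1 := sec_tl_sum_E (D := g.region Γ.T) (cut := Γ.cutB g) fun e => 2 * Real.pi * w e * (U e.snd - U e.1)
      have h2 : ∑ e ∈ domBonds (g.region Γ.T) (Γ.cutB g), 2 * Real.pi * w e * (U e.snd - U e.1) = 0 := by
        have : ∑ e ∈ domBonds (g.region Γ.T) (Γ.cutB g), 2 * Real.pi * w e * (U e.snd - U e.1)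
            = 2 * Real.pi * ∑ e ∈ bonds Γ g, w e * (U e.snd - U e.1) := by
          rw [Finset.mul_sum]
          exact Finset.sum_congr rfl fun e _ => by ring
        rw [this, h0, mul_zero]
      rw [h2] at h1
      refine Eq.trans ?_ h1
      refine Finset.sum_congr rfl fun e _ => ?_
      have a1 : U (Bond.snd e.1) = (k ((Γ.graph g).tgt e) : ℝ) := hU.1 _ (domBonds_snd e.2)
      have a2 : U e.1.1 = (k ((Γ.graph g).src e) : ℝ) := hU.1 _ (domBonds_fst e.2)
      show 2 * Real.pi * w e.1 * (((k ((Γ.graph g).tgt e) - k ((Γ.graph g).src e) : ℤ)) : ℝ)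
        = 2 * Real.pi * w e.1 * (U (Bond.snd e.1) - U e.1.1)
      rw [a1, a2]
      push_cast
      rfl
    rw [hY, Rsd.cs_wT_zero]
    congr 1
    congr 1
    refine Eq.trans ?_ (sec_tl_sum_E (D := g.region Γ.T) (cut := Γ.cutB g) fun e => w e * (2 * Real.pi * (τ e : ℝ)))
    refine Finset.sum_congr rfl fun e _ => ?_
    show 2 * Real.pi * w e.1 * (((0 - 0 + τ e.1 : ℤ)) : ℝ) = w e.1 * (2 * Real.pi * (τ e.1 : ℝ))
    push_cast
    ring
  -- (3) the cut graph
  have e2 : tiltRatio (rlaw (addCut Γ S) g noRow) b ⟨0, onE (addCut Γ S) g τ, (rlaw Γ g noRow).obs (onV Γ g 0)⟩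
      (onE (addCut Γ S) g fun e => 2 * Real.pi * w e)
      = ((rlaw (addCut Γ S) g noRow).sys b).E0 fun z =>
          Real.exp (flowX (rlaw (addCut Γ S) g noRow) b (onE (addCut Γ S) g fun e => 2 * Real.pi * w e) z) := by
    have hmem : onV (addCut Γ S) g ψ ∈ (rlaw (addCut Γ S) g noRow).Λ := fun x hx => hψ _ hx
    have hα : HLaw.Aff.amb (H := rlaw (addCut Γ S) g noRow) ⟨0, onE (addCut Γ S) g τ, (rlaw Γ g noRow).obs (onV Γ g 0)⟩ b
        = (((⟨(rlaw (addCut Γ S) g noRow).coordA b (onV (addCut Γ S) g ψ), (rlaw (addCut Γ S) g noRow).coordA_mem b hmem⟩ :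
            ((rlaw (addCut Γ S) g noRow).sys b).L)) : ((rlaw (addCut Γ S) g noRow).sys b).Amb) := by
      refine Prod.ext (funext fun e => ?_) (funext fun o => Fin.elim0 o)
      have := hτ e.1 e.2
      show (0 : ℤ) - 0 + τ e.1 = ψ (Bond.snd e.1) - ψ e.1.1
      rw [this]
      ring
    exact sec_tl_tiltRatio_gauge _ b _ _ _ hα
  -- (4) the deleted bonds
  have e3 : (∑ e : (domG (g.region Γ.T) (Γ.cutB g)).E,
      if domBond e ∈ (addCut Γ S).cutB g then b * (Real.cosh (2 * Real.pi * w (domBond e)) - 1) else 0)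
      = ∑ e ∈ (bonds Γ g).filter (fun e => e ∈ crossB g S), b * (Real.cosh (2 * Real.pi * w e) - 1) := by
    rw [sec_tl_sum_E (D := g.region Γ.T) (cut := Γ.cutB g) fun e =>
      if e ∈ (addCut Γ S).cutB g then b * (Real.cosh (2 * Real.pi * w e) - 1) else 0, Finset.sum_filter]
    refine Finset.sum_congr rfl fun e he => ?_
    have hne : e ∉ Γ.cutB g := (Finset.mem_filter.1 he).2.2
    have hiff : e ∈ (addCut Γ S).cutB g ↔ e ∈ crossB g S := by
      constructor
      · rintro ⟨f, hf, h⟩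
        rcases Finset.mem_union.1 hf with hf | hf
        · exact absurd ⟨f, hf, h⟩ hne
        · exact ⟨f, hf, h⟩
      · rintro ⟨f, hf, h⟩
        exact ⟨f, Finset.mem_union_right _ hf, h⟩
    simp only [hiff]
  have hR := (confRatio_pos b hb Γ g τ 0).2.2.1
  have hE : 0 < ((rlaw (addCut Γ S) g noRow).sys b).E0 fun z =>
      Real.exp (flowX (rlaw (addCut Γ S) g noRow) b (onE (addCut Γ S) g fun e => 2 * Real.pi * w e) z) := by
    rw [Rsd.cs_E0_exp]
    exact div_pos (lsys_pos _ hok' _ _) (sec_w_pos _ hok' _)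
  have h' : Real.exp (∑ e ∈ bonds Γ g, w e * (2 * Real.pi * (τ e : ℝ))) * confRatio b Γ g noRow τ 0
      ≤ (((rlaw (addCut Γ S) g noRow).sys b).E0 fun z =>
          Real.exp (flowX (rlaw (addCut Γ S) g noRow) b (onE (addCut Γ S) g fun e => 2 * Real.pi * w e) z))
        * Real.exp (∑ e ∈ (bonds Γ g).filter (fun e => e ∈ crossB g S), b * (Real.cosh (2 * Real.pi * w e) - 1)) := by
    have key : ∀ X Y Z X' Y' Z' : ℝ, X ≤ Y * Real.exp Z → X = X' → Y = Y' → Z = Z' → X' ≤ Y' * Real.exp Z' := by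
      rintro X Y Z _ _ _ h rfl rfl rfl
      exact h
    exact key _ _ _ _ _ _ h e1 e2 e3
  have h5 := Real.log_le_log (mul_pos (Real.exp_pos _) hR) h'
  rw [Real.log_mul (Real.exp_pos _).ne' hR.ne', Real.log_mul hE.ne' (Real.exp_pos _).ne', Real.log_exp, Real.log_exp] at h5
  unfold HLaw.logLap
  linarith

end

end Claimed.Agent.R285.Sec
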